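import Vale.Agent.P205.Full.Interface

/-!
# P205: functions of finite jets, and stability of `GoodAt`

`JF φ ND c` says that on the maps `F` which are nondegenerate in the chart `φ`, the function
`c (F ∘ φ)` is a smooth function of the point and of a finite jet of `F`.  The class contains all
functions of the closure criterion, so `GoodAt` is stable under changes small in some `C ^ k`.
-/

namespace Vale.Agent.P205.Full

open Set Function Filter
open scoped ContDiff Topology RealInnerProductSpace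

noncomputable section

/-- The space of jets of order `r`. -/
abbrev Jet (r : ℕ) := (i : Fin (r + 1)) → ContinuousMultilinearMap ℝ (fun _ : Fin (i : ℕ) => E2) E4

/-- The jet of order `r`. -/
def jetFD (r : ℕ) (F : E2 → E4) (y : E2) : Jet r := fun i => iteratedFDeriv ℝ i F y

theorem contDiff_jetFD (r : ℕ) {F : E2 → E4} (hF : ContDiff ℝ ∞ F) :
    ContDiff ℝ ∞ (jetFD r F) :=
  contDiff_pi.2 fun i => hF.iteratedFDeriv_right (m := ∞) (by exact_mod_cast le_top)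

/-- Forgetting the top orders. -/
def cutJet {r s : ℕ} (h : r ≤ s) : Jet s →L[ℝ] Jet r :=
  ContinuousLinearMap.pi fun i => ContinuousLinearMap.proj (Fin.castLE (by omega) i)

theorem cutJet_jetFD {r s : ℕ} (h : r ≤ s) (F : E2 → E4) (y : E2) :
    cutJet h (jetFD s F y) = jetFD r F y := rfl

/-- The derivative of a jet along a vector, read in the jet of the next order. -/
def upJet {r : ℕ} (j : Jet (r + 1)) (v : E2) : Jet r := fun i => (j i.succ).curryLeft v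

theorem contDiff_upJet (r : ℕ) :
    ContDiff ℝ ∞ fun z : Jet (r + 1) × E2 => upJet z.1 z.2 :=
  contDiff_pi.2 fun i =>
    (((continuousMultilinearCurryLeftEquiv ℝ (fun _ : Fin ((i : ℕ) + 1) => E2) E4).contDiff).comp
      ((ContinuousLinearMap.proj (R := ℝ) (φ := fun i : Fin (r + 1 + 1) =>
        ContinuousMultilinearMap ℝ (fun _ : Fin (i : ℕ) => E2) E4) i.succ).contDiff.comp
          contDiff_fst)).clm_apply contDiff_snd

theorem fderiv_jetFD (r : ℕ) {F : E2 → E4} (hF : ContDiff ℝ ∞ F) (y v : E2) :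
    fderiv ℝ (jetFD r F) y v = upJet (jetFD (r + 1) F y) v := by
  have hd : ∀ i : Fin (r + 1), DifferentiableAt ℝ (fun y => iteratedFDeriv ℝ i F y) y := fun i =>
    ((hF.iteratedFDeriv_right (m := ∞) (by exact_mod_cast le_top)).differentiable
      (by simp)).differentiableAt
  unfold jetFD
  rw [fderiv_pi hd]
  funext i
  refine ContinuousMultilinearMap.ext fun m => ?_
  simp only [ContinuousLinearMap.pi_apply]
  show _ = (iteratedFDeriv ℝ ((i : ℕ) + 1) F y) (Fin.cons v m)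
  rw [iteratedFDeriv_succ_apply_left]
  simp

variable (φ : R2 → E2) (ND : (E2 → E4) → R2 → Prop)
variable {U V W : Type*} [NormedAddCommGroup U] [NormedSpace ℝ U] [NormedAddCommGroup V]
  [NormedSpace ℝ V] [NormedAddCommGroup W] [NormedSpace ℝ W]

/-- A smooth function of a point and a finite jet, valid at least where `ND` holds. -/
def JF (c : (E2 → E4) → R2 → U) : Prop :=
  ∃ (r : ℕ) (D : Set (R2 × Jet r)) (G : R2 × Jet r → U), IsOpen D ∧ ContDiffOn ℝ ∞ G D ∧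
    (∀ F : E2 → E4, ContDiff ℝ ∞ F → ∀ p, (p, jetFD r F (φ p)) ∈ D →
      c F p = G (p, jetFD r F (φ p))) ∧
    ∀ F : E2 → E4, ContDiff ℝ ∞ F → ∀ p, ND F p → (p, jetFD r F (φ p)) ∈ D

variable {φ ND}

namespace JF

theorem congr {c d : (E2 → E4) → R2 → U} (hc : JF φ ND c) (h : ∀ F p, c F p = d F p) :
    JF φ ND d := by
  obtain rfl : c = d := funext fun F => funext (h F)
  exact hc

theorem fix {u : R2 → U} (hu : ContDiff ℝ ∞ u) : JF φ ND fun _ => u :=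
  ⟨0, univ, fun z => u z.1, isOpen_univ, (hu.comp contDiff_fst).contDiffOn,
    fun _ _ _ _ => rfl, fun _ _ _ _ => mem_univ _⟩

theorem const (u : U) : JF φ ND fun _ _ => u := fix contDiff_const

theorem base : JF φ ND fun F p => F (φ p) :=
  ⟨0, univ, fun z => (continuousMultilinearCurryFin0 ℝ E2 E4) (z.2 0), isOpen_univ,
    (((continuousMultilinearCurryFin0 ℝ E2 E4).contDiff).comp
      ((ContinuousLinearMap.proj (R := ℝ) (φ := fun i : Fin (0 + 1) =>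
        ContinuousMultilinearMap ℝ (fun _ : Fin (i : ℕ) => E2) E4) 0).contDiff.comp
          contDiff_snd)).contDiffOn,
    fun F _ p _ => by simp [jetFD], fun _ _ _ _ => mem_univ _⟩

theorem comp {c : (E2 → E4) → R2 → U} (hc : JF φ ND c) {h : U → V} (hh : ContDiff ℝ ∞ h) :
    JF φ ND fun F p => h (c F p) := by
  obtain ⟨r, D, G, hD, hG, he, hn⟩ := hc
  exact ⟨r, D, fun z => h (G z), hD, hh.comp_contDiffOn hG,
    fun F hF p hp => congrArg h (he F hF p hp), hn⟩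

theorem prod {c : (E2 → E4) → R2 → U} {d : (E2 → E4) → R2 → V} (hc : JF φ ND c)
    (hd : JF φ ND d) : JF φ ND fun F p => (c F p, d F p) := by
  obtain ⟨r, D, G, hD, hG, he, hn⟩ := hc
  obtain ⟨s, D', G', hD', hG', he', hn'⟩ := hd
  let a : R2 × Jet (max r s) →L[ℝ] R2 × Jet r :=
    (ContinuousLinearMap.id ℝ R2).prodMap (cutJet (le_max_left r s))
  let b : R2 × Jet (max r s) →L[ℝ] R2 × Jet s :=
    (ContinuousLinearMap.id ℝ R2).prodMap (cutJet (le_max_right r s))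
  exact ⟨max r s, a ⁻¹' D ∩ b ⁻¹' D', fun z => (G (a z), G' (b z)),
    (hD.preimage a.continuous).inter (hD'.preimage b.continuous),
    (hG.comp a.contDiff.contDiffOn fun z hz => hz.1).prodMk
      (hG'.comp b.contDiff.contDiffOn fun z hz => hz.2),
    fun F hF p hp => Prod.ext (he F hF p hp.1) (he' F hF p hp.2),
    fun F hF p hp => ⟨hn F hF p hp, hn' F hF p hp⟩⟩

variable {c d : (E2 → E4) → R2 → U}

theorem map₂ {d : (E2 → E4) → R2 → V} (hc : JF φ ND c) (hd : JF φ ND d) {h : U → V → W}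
    (hh : ContDiff ℝ ∞ fun z : U × V => h z.1 z.2) : JF φ ND fun F p => h (c F p) (d F p) :=
  (hc.prod hd).comp hh

theorem add (hc : JF φ ND c) (hd : JF φ ND d) : JF φ ND fun F p => c F p + d F p :=
  hc.map₂ hd (contDiff_fst.add contDiff_snd)

theorem sub (hc : JF φ ND c) (hd : JF φ ND d) : JF φ ND fun F p => c F p - d F p :=
  hc.map₂ hd (contDiff_fst.sub contDiff_snd)

theorem neg (hc : JF φ ND c) : JF φ ND fun F p => -c F p := hc.comp contDiff_neg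

theorem smul {a : (E2 → E4) → R2 → ℝ} (ha : JF φ ND a) (hc : JF φ ND c) :
    JF φ ND fun F p => a F p • c F p :=
  ha.map₂ hc (contDiff_fst.smul contDiff_snd)

theorem mul {a b : (E2 → E4) → R2 → ℝ} (ha : JF φ ND a) (hb : JF φ ND b) :
    JF φ ND fun F p => a F p * b F p :=
  ha.map₂ hb (contDiff_fst.mul contDiff_snd)

theorem sq {a : (E2 → E4) → R2 → ℝ} (ha : JF φ ND a) : JF φ ND fun F p => a F p ^ 2 :=
  ha.comp (contDiff_id.pow 2)

theorem fst {c : (E2 → E4) → R2 → U × V} (hc : JF φ ND c) : JF φ ND fun F p => (c F p).1 :=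
  hc.comp contDiff_fst

theorem snd {c : (E2 → E4) → R2 → U × V} (hc : JF φ ND c) : JF φ ND fun F p => (c F p).2 :=
  hc.comp contDiff_snd

theorem inner' {c d : (E2 → E4) → R2 → E4} (hc : JF φ ND c) (hd : JF φ ND d) :
    JF φ ND fun F p => ⟪c F p, d F p⟫ :=
  hc.map₂ hd (contDiff_fst.inner ℝ contDiff_snd)

theorem inv {a : (E2 → E4) → R2 → ℝ} (ha : JF φ ND a)
    (hne : ∀ F, ContDiff ℝ ∞ F → ∀ p, ND F p → a F p ≠ 0) :
    JF φ ND fun F p => (a F p)⁻¹ := by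
  obtain ⟨r, D, G, hD, hG, he, hn⟩ := ha
  exact ⟨r, D ∩ G ⁻¹' {0}ᶜ, fun z => (G z)⁻¹,
    hG.continuousOn.isOpen_inter_preimage hD isOpen_compl_singleton,
    (hG.mono inter_subset_left).inv fun z hz => hz.2,
    fun F hF p hp => congrArg (·⁻¹) (he F hF p hp.1),
    fun F hF p hp => ⟨hn F hF p hp, by
      have h := hne F hF p hp
      rwa [he F hF p (hn F hF p hp)] at h⟩⟩

theorem finSum {ι : Type*} (s : Finset ι) {c : ι → (E2 → E4) → R2 → U}
    (hc : ∀ i ∈ s, JF φ ND (c i)) : JF φ ND fun F p => ∑ i ∈ s, c i F p := by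
  classical
  induction s using Finset.induction with
  | empty => simpa using (const (0 : U) : JF φ ND _)
  | insert a s ha ih =>
    simp only [Finset.sum_insert ha]
    exact (hc a (Finset.mem_insert_self a s)).add
      (ih fun i hi => hc i (Finset.mem_insert_of_mem hi))

theorem deriv (hc : JF φ ND c) (hφ : ContDiff ℝ ∞ φ) (v : R2) :
    JF φ ND fun F p => fderiv ℝ (c F) p v := by
  obtain ⟨r, D, G, hD, hG, he, hn⟩ := hc
  let a : R2 × Jet (r + 1) →L[ℝ] R2 × Jet r :=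
    (ContinuousLinearMap.id ℝ R2).prodMap (cutJet (Nat.le_succ r))
  refine ⟨r + 1, a ⁻¹' D,
    fun z => fderiv ℝ G (a z) (v, upJet z.2 (fderiv ℝ φ z.1 v)),
    hD.preimage a.continuous, ?_, fun F hF p hp => ?_, fun F hF p hp => hn F hF p hp⟩
  · refine ((hG.fderiv_of_isOpen hD (m := ∞) le_rfl).comp a.contDiff.contDiffOn
      fun z hz => hz).clm_apply ?_
    refine (contDiff_const.prodMk ?_).contDiffOn
    exact (contDiff_upJet r).comp (contDiff_snd.prodMk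
      (((hφ.fderiv_right (m := ∞) (by simp)).comp contDiff_fst).clm_apply contDiff_const))
  · have hjc : ContDiff ℝ ∞ fun q => (q, jetFD r F (φ q)) :=
      contDiff_id.prodMk ((contDiff_jetFD r hF).comp hφ)
    have hp' : (p, jetFD r F (φ p)) ∈ D := hp
    have hev : c F =ᶠ[𝓝 p] fun q => G (q, jetFD r F (φ q)) := by
      filter_upwards [(hD.preimage hjc.continuous).mem_nhds hp'] with q hq
      exact he F hF q hq
    have h1 : HasFDerivAt G (fderiv ℝ G (p, jetFD r F (φ p))) (p, jetFD r F (φ p)) :=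
      ((hG.contDiffAt (hD.mem_nhds hp')).differentiableAt (by simp)).hasFDerivAt
    have h2 : HasFDerivAt (fun q => jetFD r F (φ q))
        ((fderiv ℝ (jetFD r F) (φ p)).comp (fderiv ℝ φ p)) p :=
      (((contDiff_jetFD r hF).differentiable (by simp)).differentiableAt.hasFDerivAt).comp p
        ((hφ.differentiable (by simp)).differentiableAt.hasFDerivAt)
    have h3 := h1.comp p ((hasFDerivAt_id p).prodMk h2)
    show fderiv ℝ (c F) p v = _
    rw [hev.fderiv_eq, show (fun q => G (q, jetFD r F (φ q))) = G ∘ fun q => (id q, jetFD r F (φ q))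
      from rfl, h3.fderiv]
    show fderiv ℝ G (p, jetFD r F (φ p)) (v, fderiv ℝ (jetFD r F) (φ p) (fderiv ℝ φ p v)) = _
    rw [fderiv_jetFD r hF]
    rfl

end JF

/-- A function of plane maps, read in the chart `φ`. -/
abbrev CF (φ : R2 → E2) (ND : (E2 → E4) → R2 → Prop) (c : (R2 → E4) → R2 → U) : Prop :=
  JF φ ND fun F => c (F ∘ φ)

/-- Nondegeneracy in the chart. -/
def NDeg (φ : R2 → E2) (F : E2 → E4) (p : R2) : Prop :=
  Algebra.detg (F ∘ φ) p ≠ 0 ∧ Algebra.Wsq (fun _ => 1) (F ∘ φ) p ≠ 0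

section Criterion

open Algebra

variable (hφ : ContDiff ℝ ∞ φ)
include hφ

theorem cf_dx {c : (R2 → E4) → R2 → U} (hc : CF φ ND c) :
    CF φ ND fun F => Algebra.dx (c F) :=
  JF.deriv hc hφ (1, 0)

theorem cf_dy {c : (R2 → E4) → R2 → U} (hc : CF φ ND c) :
    CF φ ND fun F => Algebra.dy (c F) :=
  JF.deriv hc hφ (0, 1)

theorem cf_first : CF φ ND (fun F => Algebra.dx F) ∧ CF φ ND (fun F => Algebra.dy F) :=
  ⟨cf_dx hφ (c := fun F => F) JF.base, cf_dy hφ (c := fun F => F) JF.base⟩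

theorem cf_second : CF φ ND F11 ∧ CF φ ND F12 ∧ CF φ ND F22 :=
  ⟨cf_dx hφ (cf_first hφ).1, cf_dy hφ (cf_first hφ).1, cf_dy hφ (cf_first hφ).2⟩

theorem cf_metric : CF φ ND g11 ∧ CF φ ND g12 ∧ CF φ ND g22 ∧ CF φ ND detg := by
  obtain ⟨h1, h2⟩ := cf_first (ND := ND) hφ
  exact ⟨h1.inner' h1, h1.inner' h2, h2.inner' h2,
    ((h1.inner' h1).mul (h2.inner' h2)).sub (h1.inner' h2).sq⟩

theorem cf_rinv {c : (R2 → E4) → R2 → ℝ} (hc : CF φ ND c)
    (hne : ∀ F, ContDiff ℝ ∞ F → ∀ p, ND F p → c (F ∘ φ) p ≠ 0) :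
    CF φ ND fun F => rinv (fun _ : R2 => (1 : ℝ)) (c F) :=
  (hc.inv hne).congr fun F p => by simp [rinv]

variable (hd : ∀ F, ND F = NDeg φ F)
include hd

theorem cf_frame : CF φ ND (v1 (fun _ : R2 => (1 : ℝ))) ∧ CF φ ND (v2 (fun _ : R2 => (1 : ℝ))) ∧ CF φ ND (Algebra.n0 (fun _ : R2 => (1 : ℝ))) ∧
    CF φ ND (Algebra.n1 (fun _ : R2 => (1 : ℝ))) ∧ CF φ ND (Wsq (fun _ : R2 => (1 : ℝ))) ∧ CF φ ND (iW (fun _ : R2 => (1 : ℝ))) := by
  obtain ⟨h1, h2⟩ := cf_first (ND := ND) hφ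
  obtain ⟨-, -, h22⟩ := cf_second (ND := ND) hφ
  obtain ⟨m11, m12, m22, md⟩ := cf_metric (ND := ND) hφ
  have hi := cf_rinv hφ md fun F _ p hp => ((hd F) ▸ hp : NDeg φ F p).1
  have hv1 : CF φ ND (v1 (fun _ : R2 => (1 : ℝ))) := hi.smul ((m22.smul h1).sub (m12.smul h2))
  have hv2 : CF φ ND (v2 (fun _ : R2 => (1 : ℝ))) := hi.smul ((m11.smul h2).sub (m12.smul h1))
  have hn0 : CF φ ND (Algebra.n0 (fun _ : R2 => (1 : ℝ))) :=
    (h22.sub ((h22.inner' h1).smul hv1)).sub ((h22.inner' h2).smul hv2)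
  have hw : CF φ ND (Wsq (fun _ : R2 => (1 : ℝ))) := hn0.inner' hn0
  have hcross : ContDiff ℝ ∞ fun z : (E4 × E4) × E4 => cross4 z.1.1 z.1.2 z.2 := by
    refine contDiff_piLp' 2 fun i => ?_
    fin_cases i <;> simp [cross4] <;> fun_prop
  exact ⟨hv1, hv2, hn0, ((h1.prod h2).prod hn0).comp hcross, hw,
    cf_rinv hφ hw fun F _ p hp => ((hd F) ▸ hp : NDeg φ F p).2⟩

theorem cf_coeffs : CF φ ND (ca (fun _ : R2 => (1 : ℝ))) ∧ CF φ ND (cb (fun _ : R2 => (1 : ℝ))) ∧ CF φ ND (cP (fun _ : R2 => (1 : ℝ))) ∧ CF φ ND (cR (fun _ : R2 => (1 : ℝ))) ∧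
    CF φ ND (cc (fun _ : R2 => (1 : ℝ))) := by
  obtain ⟨h11, h12, -⟩ := cf_second (ND := ND) hφ
  obtain ⟨-, -, hn0, hn1, -, hw⟩ := cf_frame hφ hd
  have hP : CF φ ND (cP (fun _ : R2 => (1 : ℝ))) := (h11.inner' hn1).mul hw
  have hR : CF φ ND (cR (fun _ : R2 => (1 : ℝ))) := ((JF.const (2 : ℝ)).mul (h12.inner' hn1)).mul hw
  exact ⟨((h11.inner' hn0).mul hw).neg, (((JF.const (2 : ℝ)).mul (h12.inner' hn0)).mul hw).neg,
    hP, hR, hP.prod hR⟩

theorem cf_christoffel : CF φ ND (G111 (fun _ : R2 => (1 : ℝ))) ∧ CF φ ND (G112 (fun _ : R2 => (1 : ℝ))) ∧ CF φ ND (G122 (fun _ : R2 => (1 : ℝ))) ∧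
    CF φ ND (G211 (fun _ : R2 => (1 : ℝ))) ∧ CF φ ND (G212 (fun _ : R2 => (1 : ℝ))) ∧ CF φ ND (G222 (fun _ : R2 => (1 : ℝ))) := by
  obtain ⟨h11, h12, h22⟩ := cf_second (ND := ND) hφ
  obtain ⟨hv1, hv2, -⟩ := cf_frame hφ hd
  exact ⟨h11.inner' hv1, h12.inner' hv1, h22.inner' hv1, h11.inner' hv2, h12.inner' hv2,
    h22.inner' hv2⟩

theorem cf_N : CF φ ND (N1 (fun _ : R2 => (1 : ℝ))) ∧ CF φ ND (N2 (fun _ : R2 => (1 : ℝ))) := by
  obtain ⟨ha, hb, -⟩ := cf_coeffs hφ hd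
  obtain ⟨a1, a2, a3, b1, b2, b3⟩ := cf_christoffel hφ hd
  have two : JF φ ND fun _ _ => (2 : ℝ) := JF.const 2
  exact ⟨((a1.add (ha.mul a3)).neg).prod (((two.mul a2).add (hb.mul a3)).neg),
    (((b1.add (ha.mul b3)).neg).sub (cf_dy hφ ha)).prod
      ((((two.mul b2).add (hb.mul b3)).neg).sub (cf_dy hφ hb))⟩

omit hd in
theorem cf_det2 {u v : (R2 → E4) → R2 → R2} (hu : CF φ ND u) (hv : CF φ ND v) :
    CF φ ND fun F p => det2 (u F p) (v F p) :=
  hu.map₂ hv (by unfold det2; fun_prop)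

theorem cf_mul {u : (R2 → E4) → R2 → R2} (hu : CF φ ND u) :
    (CF φ ND fun F => mulN (fun _ : R2 => (1 : ℝ)) F (u F)) ∧ CF φ ND fun F => mulM (fun _ : R2 => (1 : ℝ)) F (u F) := by
  obtain ⟨h1, h2⟩ := cf_N hφ hd
  obtain ⟨ha, hb, -⟩ := cf_coeffs hφ hd
  exact ⟨(hu.fst.smul h1).add (hu.snd.smul h2),
    (ha.neg.mul hu.snd).prod (hu.fst.neg.sub (hb.mul hu.snd))⟩

omit hd in
/-- Both parts of a row are jet functions. -/
def CFRow (φ : R2 → E2) (ND : (E2 → E4) → R2 → Prop) (E : (R2 → E4) → Row) : Prop :=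
  (CF φ ND fun F => (E F).u) ∧ CF φ ND fun F => (E F).v

theorem cf_dXY {E : (R2 → E4) → Row} (hE : CFRow φ ND E) :
    (CF φ ND fun F => dXu (fun _ : R2 => (1 : ℝ)) F (E F)) ∧ (CF φ ND fun F => dXv (fun _ : R2 => (1 : ℝ)) F (E F)) ∧
      (CF φ ND fun F => dYu (E F)) ∧ CF φ ND fun F => dYv (E F) := by
  obtain ⟨ha, hb, -⟩ := cf_coeffs hφ hd
  obtain ⟨h1, h2⟩ := cf_N hφ hd
  obtain ⟨hu, hv⟩ := hE
  exact ⟨((cf_dx hφ hu).add (cf_mul hφ hd hu).1).add
      ((hv.fst.smul (cf_dy hφ h1)).add (hv.snd.smul (cf_dy hφ h2))),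
    (((cf_mul hφ hd hu).2.add (cf_dx hφ hv)).add (cf_mul hφ hd hv).1).add
      (((cf_dy hφ ha).neg.mul hv.snd).prod ((cf_dy hφ hb).neg.mul hv.snd)),
    cf_dy hφ hu, hu.add (cf_dy hφ hv)⟩

theorem cfRow_basic : CFRow φ ND (rowC (fun _ : R2 => (1 : ℝ))) ∧ CFRow φ ND (rowX (fun _ : R2 => (1 : ℝ))) ∧ CFRow φ ND (rowY (fun _ : R2 => (1 : ℝ))) ∧
    CFRow φ ND (rowBox (fun _ : R2 => (1 : ℝ))) := by
  obtain ⟨ha, hb, -, -, hc⟩ := cf_coeffs hφ hd
  have hX : CFRow φ ND (rowX (fun _ : R2 => (1 : ℝ))) :=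
    ⟨(cf_dx hφ hc).add (cf_mul hφ hd hc).1, (cf_mul hφ hd hc).2⟩
  have hY : CFRow φ ND (rowY (fun _ : R2 => (1 : ℝ))) := ⟨cf_dy hφ hc, hc⟩
  obtain ⟨xu, xv, xyu, xyv⟩ := cf_dXY hφ hd hX
  obtain ⟨-, -, yyu, yyv⟩ := cf_dXY hφ hd hY
  exact ⟨⟨hc, JF.const 0⟩, hX, hY,
    (xu.add (hb.smul xyu)).sub (ha.smul yyu), (xv.add (hb.smul xyv)).sub (ha.smul yyv)⟩

omit hd in
theorem cf_det4 {A B C D : (R2 → E4) → Row} (hA : CFRow φ ND A) (hB : CFRow φ ND B)
    (hC : CFRow φ ND C) (hD : CFRow φ ND D) :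
    CF φ ND fun F => det4 (A F) (B F) (C F) (D F) := by
  refine ((((hA.1.prod hA.2).prod (hB.1.prod hB.2)).prod
    ((hC.1.prod hC.2).prod (hD.1.prod hD.2))).comp (h := fun z =>
      Matrix.det !![z.1.1.1.1, z.1.1.1.2, z.1.1.2.1, z.1.1.2.2;
        z.1.2.1.1, z.1.2.1.2, z.1.2.2.1, z.1.2.2.2;
        z.2.1.1.1, z.2.1.1.2, z.2.1.2.1, z.2.1.2.2;
        z.2.2.1.1, z.2.2.1.2, z.2.2.2.1, z.2.2.2.2]) ?_).congr fun F p => rfl
  simp only [Matrix.det_apply']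
  refine ContDiff.sum fun σ _ => contDiff_const.mul (contDiff_prod fun i _ => ?_)
  generalize σ i = j
  fin_cases i <;> fin_cases j <;> simp <;> fun_prop

theorem cfRow_chain : ∀ k, CFRow φ ND fun F => chain (fun _ : R2 => (1 : ℝ)) F k
  | 0 => (cfRow_basic hφ hd).2.1
  | k + 1 => by
    obtain ⟨hu, hv⟩ := cfRow_chain k
    obtain ⟨-, -, hP, hR, hc⟩ := cf_coeffs hφ hd
    have hpi : CF φ ND (perp (fun _ : R2 => (1 : ℝ))) := hR.neg.prod hP
    have hk1 : CF φ ND (k1 (fun _ : R2 => (1 : ℝ))) := cf_det2 hφ hpi hc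
    have hM : CF φ ND fun F => mulM (fun _ : R2 => (1 : ℝ)) F (perp (fun _ : R2 => (1 : ℝ)) F) := (cf_mul hφ hd hpi).2
    have hk2 : CF φ ND (k2 (fun _ : R2 => (1 : ℝ))) := cf_det2 hφ hM hc
    have hd1 := cf_det2 hφ hpi hv
    have hn : CFRow φ ND fun F => norm1 (fun _ : R2 => (1 : ℝ)) F (chain (fun _ : R2 => (1 : ℝ)) F k) :=
      ⟨(hk1.smul hu).sub (hd1.smul (cf_dy hφ hc)), (hk1.smul hv).sub (hd1.smul hc)⟩
    obtain ⟨xu, xv, yu, yv⟩ := cf_dXY hφ hd hn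
    have hq := (cf_det2 hφ hv hc).mul (cf_det2 hφ hpi hM)
    exact ⟨((hk1.smul xu).sub (hk2.smul yu)).sub (hq.smul (cf_dy hφ (cf_dy hφ hc))),
      ((hk1.smul xv).sub (hk2.smul yv)).sub
        (hq.smul ((JF.const (2 : ℝ)).smul (cf_dy hφ hc)))⟩

theorem cf_criterion : CF φ ND (criterion (fun _ : R2 => (1 : ℝ))) := by
  obtain ⟨ha, hb, hP, hR, -⟩ := cf_coeffs hφ hd
  obtain ⟨a1, a2, a3, b1, b2, b3⟩ := cf_christoffel hφ hd
  obtain ⟨hC, hX, hY, hB⟩ := cfRow_basic hφ hd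
  have h4 : CF φ ND (delta4 (fun _ : R2 => (1 : ℝ))) := cf_det4 hφ hC hX hY hB
  have dxx := cf_dx hφ (cf_dx hφ h4)
  have dxy := cf_dy hφ (cf_dx hφ h4)
  have dyy := cf_dy hφ (cf_dy hφ h4)
  have h1 := cf_dx hφ h4
  have h2 := cf_dy hφ h4
  have hp : CF φ ND fun F => pHess (fun _ : R2 => (1 : ℝ)) F (delta4 (fun _ : R2 => (1 : ℝ)) F) :=
    (((hR.neg).mul ((dxx.sub (a1.mul h1)).sub (b1.mul h2))).add
      (((JF.const (2 : ℝ)).mul hP).mul ((dxy.sub (a2.mul h1)).sub (b2.mul h2)))).add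
      (((hb.mul hP).sub (ha.mul hR)).mul ((dyy.sub (a3.mul h1)).sub (b3.mul h2)))
  have hm : CF φ ND (mainMult (fun _ : R2 => (1 : ℝ))) :=
    (((cf_dx hφ hp).sq).add ((hb.mul (cf_dx hφ hp)).mul (cf_dy hφ hp))).sub
      (ha.mul (cf_dy hφ hp).sq)
  exact hm.sq.add (JF.finSum _ fun k _ => JF.finSum _ fun j _ =>
    (cf_det4 hφ hC hY (cfRow_chain hφ hd j) (cfRow_chain hφ hd k)).sq)

end Criterion

/-- `GoodAt` is open in the point and in some finite jet. -/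
theorem exists_goodAt_stable {f : E2 → E4} (hf : ContDiff ℝ ∞ f) {y : E2} (h : GoodAt f y) :
    ∃ (r : ℕ), ∀ᶠ z in 𝓝 (y, jetFD r f y), ∀ F : E2 → E4, ContDiff ℝ ∞ F →
      jetFD r F z.1 = z.2 → GoodAt F z.1 := by
  obtain ⟨φ, q, hφ, rfl, hinj, hd, hw, hcr⟩ := h
  obtain ⟨r, D, G, hD, hG, he, hn⟩ :=
    ((cf_metric (ND := NDeg φ) hφ).2.2.2.prod
      (((cf_frame hφ fun _ => rfl).2.2.2.2.1).prod (cf_criterion hφ fun _ => rfl)))
  have hq : (q, jetFD r f (φ q)) ∈ D := hn f hf q ⟨hd, hw⟩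
  have eq := he f hf q hq
  have hopen : IsOpen {u : ℝ × ℝ × ℝ | u.1 ≠ 0 ∧ u.2.1 ≠ 0 ∧ u.2.2 ≠ 0} :=
    (isOpen_ne.preimage continuous_fst).inter
      ((isOpen_ne.preimage (continuous_fst.comp continuous_snd)).inter
        (isOpen_ne.preimage (continuous_snd.comp continuous_snd)))
  have hO : D ∩ G ⁻¹' {u | u.1 ≠ 0 ∧ u.2.1 ≠ 0 ∧ u.2.2 ≠ 0} ∈ 𝓝 (q, jetFD r f (φ q)) := by
    refine (hG.continuousOn.isOpen_inter_preimage hD hopen).mem_nhds ⟨hq, ?_⟩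
    show _ ∧ _ ∧ _
    rw [← eq]
    exact ⟨hd, hw, hcr⟩
  have hbij : Bijective (fderiv ℝ φ q) := by
    refine ⟨hinj, ?_⟩
    exact (LinearMap.injective_iff_surjective_of_finrank_eq_finrank (by simp)).1 hinj
  let e := ContinuousLinearEquiv.ofBijective (fderiv ℝ φ q)
    (LinearMap.ker_eq_bot.2 hbij.1) (LinearMap.range_eq_top.2 hbij.2)
  have hstr : HasStrictFDerivAt φ (e : R2 →L[ℝ] E2) q := by
    have := (hφ.contDiffAt (x := q)).hasStrictFDerivAt (by simp)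
    exact this
  have hinjN : ∀ᶠ p in 𝓝 q, Injective (fderiv ℝ φ p) :=
    (hφ.continuous_fderiv (by simp)).continuousAt.eventually
      (ContinuousLinearMap.isOpen_injective.mem_nhds hinj)
  obtain ⟨A, hA, B, hB, hAB⟩ := mem_nhds_prod_iff.1 hO
  refine ⟨r, ?_⟩
  have hmem : (φ '' (A ∩ {p | Injective (fderiv ℝ φ p)})) ×ˢ B ∈ 𝓝 (φ q, jetFD r f (φ q)) := by
    refine prod_mem_nhds ?_ hB
    rw [← hstr.map_nhds_eq_of_equiv]
    exact image_mem_map (inter_mem hA hinjN)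
  filter_upwards [hmem] with z hz F hF hj
  obtain ⟨⟨p, ⟨hpA, hpi⟩, hp⟩, hzB⟩ := hz
  have hmemD := hAB (show (p, jetFD r F (φ p)) ∈ A ×ˢ B from ⟨hpA, by rw [hp, hj]; exact hzB⟩)
  have hv := hmemD.2
  simp only [mem_preimage, mem_setOf_eq, ← he F hF p hmemD.1] at hv
  exact ⟨φ, p, hφ, hp, hpi, hv⟩

/-- Maps whose jets are uniformly close to those of a map good on a compact set are good there. -/
theorem exists_good_radius {f : E2 → E4} (hf : ContDiff ℝ ∞ f) {C : Set E2} (hC : IsCompact C)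
    (h : ∀ y ∈ C, GoodAt f y) :
    ∃ (r : ℕ), ∃ ε > (0 : ℝ), ∀ F : E2 → E4, ContDiff ℝ ∞ F → ∀ y ∈ C,
      (∀ i ≤ r, ‖iteratedFDeriv ℝ i F y - iteratedFDeriv ℝ i f y‖ < ε) → GoodAt F y := by
  refine hC.induction_on (p := fun S => ∃ (r : ℕ), ∃ ε > (0 : ℝ), ∀ F : E2 → E4,
    ContDiff ℝ ∞ F → ∀ y ∈ S,
    (∀ i ≤ r, ‖iteratedFDeriv ℝ i F y - iteratedFDeriv ℝ i f y‖ < ε) → GoodAt F y)
    ⟨0, 1, one_pos, fun _ _ _ hy => absurd hy (notMem_empty _)⟩ ?_ ?_ ?_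
  · rintro s t hst ⟨r, ε, hε, H⟩
    exact ⟨r, ε, hε, fun F hF y hy hc => H F hF y (hst hy) hc⟩
  · rintro s t ⟨r, ε, hε, H⟩ ⟨r', ε', hε', H'⟩
    refine ⟨max r r', min ε ε', lt_min hε hε', fun F hF y hy hc => ?_⟩
    rcases hy with hy | hy
    · exact H F hF y hy fun i hi =>
        (hc i (le_max_of_le_left hi)).trans_le (min_le_left _ _)
    · exact H' F hF y hy fun i hi =>
        (hc i (le_max_of_le_right hi)).trans_le (min_le_right _ _)
  · intro y hy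
    obtain ⟨r, hr⟩ := exists_goodAt_stable hf (h y hy)
    obtain ⟨A, hA, B, hB, hAB⟩ := mem_nhds_prod_iff.1 hr
    obtain ⟨ε, hε, hεB⟩ := Metric.mem_nhds_iff.1 hB
    have hA' : A ∩ {z | dist (jetFD r f z) (jetFD r f y) < ε / 2} ∈ 𝓝 y :=
      inter_mem hA ((contDiff_jetFD r hf).continuous.continuousAt.eventually
        (Metric.ball_mem_nhds _ (half_pos hε)))
    refine ⟨_, mem_nhdsWithin_of_mem_nhds hA', r, ε / 2, half_pos hε, fun F hF z hz hc => ?_⟩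
    refine hAB (show (z, jetFD r F z) ∈ A ×ˢ B from ⟨hz.1, hεB ?_⟩) F hF rfl
    have h1 : dist (jetFD r F z) (jetFD r f z) < ε / 2 := by
      rw [dist_eq_norm, pi_norm_lt_iff (half_pos hε)]
      exact fun i => hc i (Nat.lt_succ_iff.1 i.2)
    calc dist (jetFD r F z) (jetFD r f y)
        ≤ dist (jetFD r F z) (jetFD r f z) + dist (jetFD r f z) (jetFD r f y) := dist_triangle _ _ _
      _ < ε := by linarith [hz.2.out]

end

end Vale.Agent.P205.Full
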