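import Vale.Agent.P205.Full.Algebra.Scalar
import Vale.Agent.P205.Full.Bridge.Periodize
import Vale.Agent.P205.Full.Bridge.GoodR

/-!
# P205: round one in one coordinate cell

The remaining form is `B dy²`, so its kernel lines are the `x` lines.  A change which is small in
`C ^ r` keeps the rest of rank one and makes the map good on `C`; the immersion, the sign of the
rest and the normal acceleration follow from the smallness.
-/

namespace Vale.Agent.P205.Round1

open scoped ContDiff
open Set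
open Vale.Agent.P205.Algebra Vale.Agent.P205.Bridge

noncomputable section

/-- Round one in one coordinate cell. -/
def PlaneGenericStatement : Prop :=
  ∀ (N K C : Set R2) (B : R2 → ℝ) (f : R2 → V4) (r : ℕ) (ε : ℝ),
    IsOpen N → N ⊆ sq → IsCompact K → K ⊆ N → IsCompact C → C ⊆ interior K →
    ContDiff ℝ ∞ B → ContDiff ℝ ∞ f → (∀ p ∈ N, detg f p ≠ 0) → (∀ p ∈ N, 0 < B p) →
    (∀ p ∈ N, F11 f p ∉ range (fderiv ℝ f p)) → 0 < ε →
    ∃ F : R2 → V4, ContDiff ℝ ∞ F ∧ (∀ p ∉ K, F p = f p) ∧
      (∀ p ∈ N, rdet (metF f p + ![0, 0, B p] - metF F p) = 0) ∧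
      (∀ p ∈ C, GoodR F p) ∧
      ∀ i ≤ r, ∀ p, ‖iteratedFDeriv ℝ i (fun q => F q - f q) p‖ ≤ ε

end

end Vale.Agent.P205.Round1
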