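import Vale.Agent.P205.Full.Bridge.Plane
import Vale.Agent.P205.Full.Round1.Statement
import Vale.Agent.P205.Full.Round1.JetFn

/-!
# P205: round one reduces to one coordinate cell

`genericStatement_of_plane`: in coordinates in which the remaining form is `B dy²` the plane step
gives a change which is small in a high `C ^ r`.  Immersion, sign and smallness of the rest, normal
acceleration along its kernel and goodness at old points are open conditions, so they persist.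
-/

namespace Vale.Agent.P205.Round1

open scoped ContDiff Topology RealInnerProductSpace
open Set Function Filter Metric
open Vale.Agent.P205.Algebra Vale.Agent.P205.Full Vale.Agent.P205.Bridge

noncomputable section

/-- The acceleration along the image of `v`, read in the coordinates. -/
lemma normalAccel_map {f : E2 → E4} {Φ : R2 → E2} {p : R2} (v : R2) (hf : ContDiff ℝ ∞ f)
    (hΦ : ContDiff ℝ ∞ Φ) (hs : Surjective (fderiv ℝ Φ p)) :
    NormalAccel f (Φ p) (fderiv ℝ Φ p v) ↔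
      fderiv ℝ (fun q => fderiv ℝ (f ∘ Φ) q v) p v ∉ range (fderiv ℝ (f ∘ Φ) p) := by
  rw [normalAccel_iff hf.contDiffAt]
  have hf' : Differentiable ℝ (fderiv ℝ f) :=
    (hf.fderiv_right (m := ∞) le_rfl).differentiable (by simp)
  have hv : Differentiable ℝ fun q => fderiv ℝ Φ q v :=
    ((hΦ.fderiv_right (m := ∞) le_rfl).clm_apply contDiff_const).differentiable (by simp)
  have hc : DifferentiableAt ℝ (fun q => fderiv ℝ f (Φ q)) p :=
    (hf' _).comp p (hΦ.differentiable (by simp) p)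
  have e : (fun q => fderiv ℝ (f ∘ Φ) q v) = fun q => fderiv ℝ f (Φ q) (fderiv ℝ Φ q v) :=
    funext fun q => by
      rw [fderiv_comp q (hf.differentiable (by simp) _) (hΦ.differentiable (by simp) q)]
      rfl
  have h2 : fderiv ℝ (fun q => fderiv ℝ (f ∘ Φ) q v) p v
      = fderiv ℝ (fderiv ℝ f) (Φ p) (fderiv ℝ Φ p v) (fderiv ℝ Φ p v)
        + fderiv ℝ f (Φ p) (fderiv ℝ (fun q => fderiv ℝ Φ q v) p v) := by
    rw [e, fderiv_clm_apply hc (hv p),
      show fderiv ℝ (fun q => fderiv ℝ f (Φ q)) p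
        = (fderiv ℝ (fderiv ℝ f) (Φ p)).comp (fderiv ℝ Φ p) from
        fderiv_comp p (hf' _) (hΦ.differentiable (by simp) p)]
    simp only [add_apply, ContinuousLinearMap.comp_apply, ContinuousLinearMap.flip_apply]
    exact add_comm _ _
  have hr : range (fderiv ℝ (f ∘ Φ) p) = range (fderiv ℝ f (Φ p)) := by
    rw [fderiv_comp p (hf.differentiable (by simp) _) (hΦ.differentiable (by simp) p)]
    exact hs.range_comp _
  rw [hr, h2]
  constructor
  · rintro h ⟨u, hu⟩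
    exact h ⟨u - fderiv ℝ (fun q => fderiv ℝ Φ q v) p v, by rw [map_sub, hu, add_sub_cancel_right]⟩
  · rintro h ⟨u, hu⟩
    exact h ⟨u + fderiv ℝ (fun q => fderiv ℝ Φ q v) p v, by rw [map_add, hu]⟩

/-- A symmetric form with zero determinant and a positive entry has rank one and an explicit
kernel. -/
lemma rankOne_of_det {T : E2 →L[ℝ] E2 →L[ℝ] ℝ} {D : R2 →L[ℝ] E2} (hD : Surjective D)
    {e₁ e₂ : E2} (he₁ : D (1, 0) = e₁) (he₂ : D (0, 1) = e₂) (hsym : T e₁ e₂ = T e₂ e₁)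
    (hdet : T e₁ e₁ * T e₂ e₂ = T e₁ e₂ ^ 2) (hpos : 0 < T e₂ e₂) :
    RankOne T ∧ ∀ u, T u u = 0 → ∃ r : ℝ, u = r • (T e₂ e₂ • e₁ - T e₁ e₂ • e₂) := by
  have hdec : ∀ u, ∃ a b : ℝ, u = a • e₁ + b • e₂ := fun u => by
    obtain ⟨v, rfl⟩ := hD u
    refine ⟨v.1, v.2, ?_⟩
    conv_lhs => rw [show v = v.1 • ((1 : ℝ), (0 : ℝ)) + v.2 • ((0 : ℝ), (1 : ℝ)) by ext <;> simp]
    rw [map_add, map_smul, map_smul, he₁, he₂]
  have hexp : ∀ a b c d : ℝ, T (a • e₁ + b • e₂) (c • e₁ + d • e₂) * T e₂ e₂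
      = (a * T e₁ e₂ + b * T e₂ e₂) * (c * T e₁ e₂ + d * T e₂ e₂) := fun a b c d => by
    simp only [map_add, map_smul, add_apply, _root_.smul_apply,
      smul_eq_mul, ← hsym]
    linear_combination (a * c) * hdet
  have hl : ∀ a b : ℝ, T e₂ (a • e₁ + b • e₂) = a * T e₁ e₂ + b * T e₂ e₂ := fun a b => by
    simp only [map_add, map_smul, smul_eq_mul, hsym]
  refine ⟨⟨(√(T e₂ e₂))⁻¹ • T e₂, fun h => ?_, fun v w => ?_⟩, fun u hu => ?_⟩
  · have := congrArg (fun l : E2 →L[ℝ] ℝ => l e₂) h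
    simp only [_root_.smul_apply, smul_eq_mul, zero_apply] at this
    rcases mul_eq_zero.1 this with h0 | h0
    · exact (Real.sqrt_ne_zero'.2 hpos) (inv_eq_zero.1 h0)
    · exact hpos.ne' h0
  · obtain ⟨a, b, rfl⟩ := hdec v
    obtain ⟨c, d, rfl⟩ := hdec w
    have hne := hpos.ne'
    simp only [_root_.smul_apply, smul_eq_mul, hl]
    field_simp
    rw [Real.sq_sqrt hpos.le]
    linear_combination hexp a b c d
  · obtain ⟨a, b, rfl⟩ := hdec u
    have h0 : a * T e₁ e₂ + b * T e₂ e₂ = 0 :=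
      mul_self_eq_zero.1 (by rw [← hexp, hu, zero_mul])
    refine ⟨a / T e₂ e₂, ?_⟩
    rw [smul_sub, smul_smul, smul_smul, div_mul_cancel₀ _ hpos.ne', sub_eq_add_neg, ← neg_smul]
    congr 2
    field_simp
    linarith

/-- The pullback of the inner product by a linear map. -/
def pullB (A : E2 →L[ℝ] E4) : E2 →L[ℝ] E2 →L[ℝ] ℝ := (innerSL ℝ).bilinearComp A A

lemma pullB_apply (A : E2 →L[ℝ] E4) (v w : E2) : pullB A v w = ⟪A v, A w⟫ := rfl

lemma injective_coprod_iff (A : E2 →L[ℝ] E4) (w : E4) :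
    Injective (A.coprod ((ContinuousLinearMap.id ℝ ℝ).smulRight w)) ↔
      Injective A ∧ w ∉ range A := by
  constructor
  · refine fun h => ⟨fun u v huv => ?_, ?_⟩
    · exact congrArg Prod.fst (h (show A.coprod ((ContinuousLinearMap.id ℝ ℝ).smulRight w) (u, 0)
        = A.coprod ((ContinuousLinearMap.id ℝ ℝ).smulRight w) (v, 0) by simp [huv]))
    · rintro ⟨v, rfl⟩
      exact one_ne_zero (congrArg Prod.snd (h (show A.coprod
        ((ContinuousLinearMap.id ℝ ℝ).smulRight (A v)) (-v, 1) = A.coprod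
          ((ContinuousLinearMap.id ℝ ℝ).smulRight (A v)) (0, 0) by simp)))
  · rintro ⟨hA, hw⟩
    refine (injective_iff_map_eq_zero _).2 fun ⟨v, t⟩ h => ?_
    simp only [ContinuousLinearMap.coprod_apply, ContinuousLinearMap.smulRight_apply,
      ContinuousLinearMap.id_apply] at h
    by_cases ht : t = 0
    · subst ht
      simp only [zero_smul, add_zero] at h
      exact Prod.ext (hA (h.trans (map_zero A).symm)) rfl
    · refine absurd ⟨-(t⁻¹ • v), ?_⟩ hw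
      rw [map_neg, map_smul, eq_neg_of_add_eq_zero_left h, smul_neg, neg_neg, smul_smul,
        inv_mul_cancel₀ ht, one_smul]

/-- Coordinates in the unit square in which the rank one form is `s dy²`. -/
lemma exists_square_chart {U K : Set E2} (hU : IsOpen U) (hK₀ : IsCompact K) (hK₀U : K ⊆ U)
    {ξ : E2 →L[ℝ] ℝ} (hξ : ξ ≠ 0) {σ : Form2} (hσ : ContDiff ℝ ∞ σ)
    (hrank : ∀ y ∈ U, RankOne (σ y))
    (htrans : ∀ y ∈ U, ∀ u : E2, u ≠ 0 → σ y u u = 0 → ξ u ≠ 0) :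
    ∃ (Φ : R2 → E2) (Ψ : E2 → R2) (N : Set R2) (s : R2 → ℝ),
      ContDiff ℝ ∞ Φ ∧ ContDiff ℝ ∞ Ψ ∧ (∀ y, Φ (Ψ y) = y) ∧ (∀ p, Ψ (Φ p) = p) ∧
      (∀ p, Injective (fderiv ℝ Φ p) ∧ Surjective (fderiv ℝ Φ p)) ∧
      IsOpen N ∧ N ⊆ sq ∧ Ψ '' K ⊆ N ∧ (∀ p ∈ N, Φ p ∈ U) ∧ ContDiff ℝ ∞ s ∧
      ∀ p ∈ N, 0 < s p ∧
        ∀ v w, σ (Φ p) (fderiv ℝ Φ p v) (fderiv ℝ Φ p w) = s p * v.2 * w.2 := by
  obtain ⟨Φ₀, Ψ₀, V, hΦ₀, hΨ₀, hΦΨ₀, hΨΦ₀, hV, hKV, hVU, -, hΦi₀, hVs⟩ :=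
    exists_adapted_chart hU hK₀ hK₀U hξ hσ hrank htrans
  obtain ⟨ρ, hρ0, hρ⟩ : ∃ ρ, 0 < ρ ∧ Ψ₀ '' K ⊆ closedBall 0 ρ := by
    obtain ⟨ρ, hρ⟩ := (hK₀.image hΨ₀.continuous).isBounded.subset_closedBall 0
    exact ⟨max ρ 1, by positivity, hρ.trans (closedBall_subset_closedBall (le_max_left _ _))⟩
  obtain ⟨R, hR⟩ : ∃ R, R = 4 * ρ := ⟨_, rfl⟩
  have hR0 : 0 < R := by linarith
  set Φ : R2 → E2 := fun p => Φ₀ (R * (p.1 - 1 / 2), R * (p.2 - 1 / 2)) with hΦdef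
  set Ψ : E2 → R2 := fun y => ((Ψ₀ y).1 / R + 1 / 2, (Ψ₀ y).2 / R + 1 / 2) with hΨdef
  have hΦ : ContDiff ℝ ∞ Φ := hΦ₀.comp (by fun_prop)
  have hΨ : ContDiff ℝ ∞ Ψ :=
    (((contDiff_fst.comp hΨ₀).div_const R).add contDiff_const).prodMk
      (((contDiff_snd.comp hΨ₀).div_const R).add contDiff_const)
  have hΦΨ : ∀ y, Φ (Ψ y) = y := fun y => by
    simp only [Φ, Ψ, add_sub_cancel_right, mul_div_cancel₀ _ hR0.ne', Prod.mk.eta, hΦΨ₀]
  have hΨΦ : ∀ p, Ψ (Φ p) = p := fun p => by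
    simp only [Φ, Ψ, hΨΦ₀, mul_div_cancel_left₀ _ hR0.ne', sub_add_cancel]
  have hdΦ : ∀ p v, fderiv ℝ Φ p v
      = fderiv ℝ Φ₀ (R * (p.1 - 1 / 2), R * (p.2 - 1 / 2)) (R • v) := fun p v => by
    have h1 := (((hasFDerivAt_fst (𝕜 := ℝ) (p := p) (E := ℝ) (F := ℝ)).sub_const (1 / 2)).const_mul R).prodMk
      ((hasFDerivAt_snd.sub_const (1 / 2)).const_mul R)
    have h2 := ((hΦ₀.differentiable (by simp) _).hasFDerivAt.comp p h1).fderiv
    refine (congrArg (fun T : R2 →L[ℝ] E2 => T v) h2).trans ?_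
    rfl
  have hΦi : ∀ p, Injective (fderiv ℝ Φ p) := fun p v w h => by
    rw [hdΦ, hdΦ] at h
    exact smul_right_injective R2 hR0.ne' (hΦi₀ _ h)
  have hΦs : ∀ p, Surjective (fderiv ℝ Φ p) := fun p =>
    (LinearMap.injective_iff_surjective_of_finrank_eq_finrank (by simp)
      (f := (fderiv ℝ Φ p : R2 →ₗ[ℝ] E2))).1 (hΦi p)
  set s : R2 → ℝ := fun p => σ (Φ p) (fderiv ℝ Φ p (0, 1)) (fderiv ℝ Φ p (0, 1))
  have hs : ContDiff ℝ ∞ s :=
    ((hσ.comp hΦ).clm_apply ((hΦ.fderiv_right (m := ∞) le_rfl).clm_apply contDiff_const)).clm_apply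
      ((hΦ.fderiv_right (m := ∞) le_rfl).clm_apply contDiff_const)
  have hsv : ∀ p, Φ p ∈ V → 0 < s p ∧
      ∀ v w, σ (Φ p) (fderiv ℝ Φ p v) (fderiv ℝ Φ p w) = s p * v.2 * w.2 := by
    intro p hp
    obtain ⟨hpos, hform⟩ := hVs _ hp
    set D := fderiv ℝ Φ₀ (R * (p.1 - 1 / 2), R * (p.2 - 1 / 2))
    set S := σ (Φ p) (D (0, 1)) (D (0, 1))
    have hv : ∀ v w, σ (Φ p) (fderiv ℝ Φ p v) (fderiv ℝ Φ p w) = S * (R * v.2) * (R * w.2) :=
      fun v w => by rw [hdΦ, hdΦ]; exact hform (R • v) (R • w)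
    have hsp : s p = S * R * R := by
      show σ (Φ p) _ _ = _
      rw [hv]; ring
    refine ⟨hsp ▸ mul_pos (mul_pos hpos hR0) hR0, fun v w => ?_⟩
    rw [hv, hsp]; ring
  set N : Set R2 := sq ∩ Φ ⁻¹' V
  have hN : IsOpen N := isOpen_sq.inter (hV.preimage hΦ.continuous)
  have hKN : Ψ '' K ⊆ N := by
    rintro _ ⟨y, hy, rfl⟩
    refine ⟨?_, by rw [mem_preimage, hΦΨ]; exact hKV hy⟩
    have h := hρ (mem_image_of_mem Ψ₀ hy)
    rw [mem_closedBall_zero_iff, Prod.norm_def, max_le_iff, Real.norm_eq_abs, Real.norm_eq_abs,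
      abs_le, abs_le] at h
    have hsq : ∀ x : ℝ, -ρ ≤ x → x ≤ ρ → x / R + 1 / 2 ∈ Ioo (0 : ℝ) 1 := fun x h1 h2 => by
      constructor
      · have : -(1 / 4) ≤ x / R := by rw [le_div_iff₀ hR0]; linarith
        linarith
      · have : x / R ≤ 1 / 4 := by rw [div_le_iff₀ hR0]; linarith
        linarith
    exact ⟨hsq _ h.1.1 h.1.2, hsq _ h.2.1 h.2.2⟩
  have hNU : ∀ p ∈ N, Φ p ∈ U := fun p hp => hVU hp.2
  exact ⟨Φ, Ψ, N, s, hΦ, hΨ, hΦΨ, hΨΦ, fun p => ⟨hΦi p, hΦs p⟩, hN, inter_subset_left, hKN, hNU, hs,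
    fun p hp => hsv p hp.2⟩

/-- The rest of the rank one equation, at a value of the derivative. -/
def restA (σ : Form2) (f : E2 → E4) (y : E2) (A : E2 →L[ℝ] E4) : E2 →L[ℝ] E2 →L[ℝ] ℝ :=
  σ y + pullB (fderiv ℝ f y) - pullB A

lemma restA_apply (σ : Form2) (f : E2 → E4) (y : E2) (A : E2 →L[ℝ] E4) (v w : E2) :
    restA σ f y A v w = σ y v w + ⟪fderiv ℝ f y v, fderiv ℝ f y w⟫ - ⟪A v, A w⟫ := rfl

/-- A bound for the change of the pulled back inner product. -/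
def gap (f : E2 → E4) (y : E2) (A : E2 →L[ℝ] E4) : ℝ :=
  ‖fderiv ℝ f y - A‖ * (‖fderiv ℝ f y‖ + ‖A‖)

lemma norm_restA_sub_le {σ : Form2} {f : E2 → E4} {y : E2} {A : E2 →L[ℝ] E4} {ε : ℝ}
    (hε : 0 ≤ ε) (h : gap f y A ≤ ε) : ‖restA σ f y A - σ y‖ ≤ ε := by
  refine ContinuousLinearMap.opNorm_le_bound _ hε fun v =>
    ContinuousLinearMap.opNorm_le_bound _ (by positivity) fun w => ?_
  set B := fderiv ℝ f y
  show ‖restA σ f y A v w - σ y v w‖ ≤ _
  rw [restA_apply, show σ y v w + ⟪B v, B w⟫ - ⟪A v, A w⟫ - σ y v w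
      = ⟪B v, (B - A) w⟫ + ⟪(B - A) v, A w⟫ by
    simp only [_root_.sub_apply, inner_sub_left, inner_sub_right]; ring]
  refine (norm_add_le _ _).trans ?_
  have h1 : ‖⟪B v, (B - A) w⟫‖ ≤ ‖B‖ * ‖v‖ * (‖B - A‖ * ‖w‖) :=
    (norm_inner_le_norm (B v) ((B - A) w)).trans
      (mul_le_mul (B.le_opNorm v) ((B - A).le_opNorm w) (norm_nonneg _) (by positivity))
  have h2 : ‖⟪(B - A) v, A w⟫‖ ≤ ‖B - A‖ * ‖v‖ * (‖A‖ * ‖w‖) :=
    (norm_inner_le_norm ((B - A) v) (A w)).trans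
      (mul_le_mul ((B - A).le_opNorm v) (A.le_opNorm w) (norm_nonneg _) (by positivity))
  calc _ ≤ ‖B‖ * ‖v‖ * (‖B - A‖ * ‖w‖) + ‖B - A‖ * ‖v‖ * (‖A‖ * ‖w‖) := add_le_add h1 h2
    _ = gap f y A * (‖v‖ * ‖w‖) := by simp only [gap, B]; ring
    _ ≤ ε * (‖v‖ * ‖w‖) := mul_le_mul_of_nonneg_right h (by positivity)
    _ = _ := by ring

/-- The kernel vector of the rest in a frame `e₁, e₂`. -/
def kerA (σ : Form2) (f : E2 → E4) (e₁ e₂ : E2 → E2) (y : E2) (A : E2 →L[ℝ] E4) : E2 :=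
  restA σ f y A (e₂ y) (e₂ y) • e₁ y - restA σ f y A (e₁ y) (e₂ y) • e₂ y

/-- The open conditions on a point and the values of the first two derivatives. -/
def jetCond (σ : Form2) (f : E2 → E4) (e₁ e₂ : E2 → E2) (ε : ℝ) :
    Set (E2 × (E2 →L[ℝ] E4) × (E2 →L[ℝ] E2 →L[ℝ] E4)) :=
  {z | Injective (z.2.1.coprod ((ContinuousLinearMap.id ℝ ℝ).smulRight
        (z.2.2 (kerA σ f e₁ e₂ z.1 z.2.1) (kerA σ f e₁ e₂ z.1 z.2.1)))) ∧
      0 < restA σ f z.1 z.2.1 (e₂ z.1) (e₂ z.1) ∧ gap f z.1 z.2.1 < ε}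

lemma isOpen_jetCond {f : E2 → E4} (hf : ContDiff ℝ ∞ f) {σ : Form2} (hσ : Continuous σ)
    {e₁ e₂ : E2 → E2} (he₁ : Continuous e₁) (he₂ : Continuous e₂) (ε : ℝ) :
    IsOpen (jetCond σ f e₁ e₂ ε) := by
  have hfd : Continuous (fderiv ℝ f) := hf.continuous_fderiv (by simp)
  have hrc : ∀ {u v : E2 × (E2 →L[ℝ] E4) × (E2 →L[ℝ] E2 →L[ℝ] E4) → E2}, Continuous u →
      Continuous v → Continuous fun z => restA σ f z.1 z.2.1 (u z) (v z) := fun {u v} hu hv => by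
    simp only [restA_apply]
    exact ((((hσ.comp continuous_fst).clm_apply hu).clm_apply hv).add
      (((hfd.comp continuous_fst).clm_apply hu).inner
        ((hfd.comp continuous_fst).clm_apply hv))).sub
      (((continuous_fst.comp continuous_snd).clm_apply hu).inner
        ((continuous_fst.comp continuous_snd).clm_apply hv))
  have c1 : Continuous fun z : E2 × (E2 →L[ℝ] E4) × (E2 →L[ℝ] E2 →L[ℝ] E4) => e₁ z.1 :=
    he₁.comp continuous_fst
  have c2 : Continuous fun z : E2 × (E2 →L[ℝ] E4) × (E2 →L[ℝ] E2 →L[ℝ] E4) => e₂ z.1 :=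
    he₂.comp continuous_fst
  have ck : Continuous fun z : E2 × (E2 →L[ℝ] E4) × (E2 →L[ℝ] E2 →L[ℝ] E4) =>
      kerA σ f e₁ e₂ z.1 z.2.1 :=
    ((hrc c2 c2).smul c1).sub ((hrc c1 c2).smul c2)
  have hn : Continuous fun z : E2 × (E2 →L[ℝ] E4) × (E2 →L[ℝ] E2 →L[ℝ] E4) => gap f z.1 z.2.1 :=
    ((hfd.comp continuous_fst).sub (continuous_fst.comp continuous_snd)).norm.mul
      ((hfd.comp continuous_fst).norm.add (continuous_fst.comp continuous_snd).norm)
  refine IsOpen.inter ?_ (IsOpen.inter (isOpen_lt continuous_const (hrc c2 c2))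
    (isOpen_lt hn continuous_const))
  refine ContinuousLinearMap.isOpen_injective.preimage ?_
  refine continuous_clm_apply.2 fun v => ?_
  simp only [ContinuousLinearMap.coprod_apply, ContinuousLinearMap.smulRight_apply,
      ContinuousLinearMap.id_apply]
  exact ((continuous_fst.comp continuous_snd).clm_apply continuous_const).add
    ((continuous_const (y := v.2)).smul (((continuous_snd.comp continuous_snd).clm_apply ck).clm_apply ck))

/-- Immersion, sign and smallness of the rest and acceleration of its kernel are open in the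
first two derivatives, uniformly on a compact set. -/
lemma exists_jet_radius {f : E2 → E4} (hf : ContDiff ℝ ∞ f) {σ : Form2} (hσ : Continuous σ)
    {e₁ e₂ : E2 → E2} (he₁ : Continuous e₁) (he₂ : Continuous e₂) {K : Set E2} (hK : IsCompact K)
    {ε : ℝ} (hε : 0 < ε) (h : ∀ y ∈ K, Injective (fderiv ℝ f y) ∧ 0 < σ y (e₂ y) (e₂ y) ∧
      σ y (e₁ y) (e₂ y) = 0 ∧ NormalAccel f y (e₁ y)) :
    ∃ δ > 0, ∀ y ∈ K, ∀ A H2, dist A (fderiv ℝ f y) < δ →
      dist H2 (fderiv ℝ (fderiv ℝ f) y) < δ →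
      (Injective A ∧ H2 (kerA σ f e₁ e₂ y A) (kerA σ f e₁ e₂ y A) ∉ range A) ∧
      0 < restA σ f y A (e₂ y) (e₂ y) ∧ gap f y A < ε := by
  have hfd : Continuous (fderiv ℝ f) := hf.continuous_fderiv (by simp)
  have hfd2 : Continuous (fderiv ℝ (fderiv ℝ f)) :=
    (hf.fderiv_right (m := ∞) le_rfl).continuous_fderiv (by simp)
  have hΩ := isOpen_jetCond hf hσ he₁ he₂ ε
  have hgΩ : ∀ y ∈ K, (y, fderiv ℝ f y, fderiv ℝ (fderiv ℝ f) y) ∈ jetCond σ f e₁ e₂ ε := by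
    intro y hy
    obtain ⟨hinj, hpos, h12, hacc⟩ := h y hy
    have r22 : restA σ f y (fderiv ℝ f y) (e₂ y) (e₂ y) = σ y (e₂ y) (e₂ y) := by
      rw [restA_apply, add_sub_cancel_right]
    have r12 : restA σ f y (fderiv ℝ f y) (e₁ y) (e₂ y) = 0 := by
      rw [restA_apply, add_sub_cancel_right, h12]
    refine ⟨(injective_coprod_iff _ _).2 ⟨hinj, ?_⟩, r22.symm ▸ hpos, ?_⟩
    · show fderiv ℝ (fderiv ℝ f) y (kerA σ f e₁ e₂ y (fderiv ℝ f y))
        (kerA σ f e₁ e₂ y (fderiv ℝ f y)) ∉ _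
      rw [show kerA σ f e₁ e₂ y (fderiv ℝ f y) = σ y (e₂ y) (e₂ y) • e₁ y by simp [kerA, r22, r12]]
      exact (normalAccel_iff hf.contDiffAt).1 (normalAccel_smul hf hpos.ne' hacc)
    · simp [gap, hε]
  obtain ⟨δ, hδ, hsub⟩ : ∃ δ > 0, ∀ y ∈ K, ∀ A H2, dist A (fderiv ℝ f y) < δ →
      dist H2 (fderiv ℝ (fderiv ℝ f) y) < δ → (y, A, H2) ∈ jetCond σ f e₁ e₂ ε := by
    refine hK.induction_on (p := fun S => ∃ δ > 0, ∀ y ∈ S, ∀ A H2,
      dist A (fderiv ℝ f y) < δ → dist H2 (fderiv ℝ (fderiv ℝ f) y) < δ →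
        (y, A, H2) ∈ jetCond σ f e₁ e₂ ε)
      ⟨1, one_pos, fun _ hy => absurd hy (notMem_empty _)⟩ ?_ ?_ ?_
    · rintro S T hST ⟨δ, hδ, H⟩
      exact ⟨δ, hδ, fun y hy => H y (hST hy)⟩
    · rintro S T ⟨δ, hδ, H⟩ ⟨δ', hδ', H'⟩
      refine ⟨min δ δ', lt_min hδ hδ', fun y hy A H2 hA hH => ?_⟩
      rcases hy with hy | hy
      · exact H y hy A H2 (hA.trans_le (min_le_left _ _)) (hH.trans_le (min_le_left _ _))
      · exact H' y hy A H2 (hA.trans_le (min_le_right _ _)) (hH.trans_le (min_le_right _ _))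
    · intro y hy
      obtain ⟨S₁, hS₁, S, hS, hsub₁⟩ := mem_nhds_prod_iff.1 (hΩ.mem_nhds (hgΩ y hy))
      obtain ⟨S₂, hS₂, S₃, hS₃, hsub₂⟩ := mem_nhds_prod_iff.1 hS
      obtain ⟨a, ha, hball⟩ := (Metric.mem_nhds_iff (α := E2 →L[ℝ] E4)).1 hS₂
      obtain ⟨b, hb, hball'⟩ := (Metric.mem_nhds_iff (α := E2 →L[ℝ] E2 →L[ℝ] E4)).1 hS₃
      have ev1 : ∀ᶠ z in 𝓝 y, dist (fderiv ℝ f z) (fderiv ℝ f y) < a / 2 :=
        Metric.tendsto_nhds.1 hfd.continuousAt (a / 2) (half_pos ha)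
      have ev2 : ∀ᶠ z in 𝓝 y,
          dist (fderiv ℝ (fderiv ℝ f) z) (fderiv ℝ (fderiv ℝ f) y) < b / 2 :=
        (hfd2.tendsto y).eventually
          (Metric.ball_mem_nhds (α := E2 →L[ℝ] E2 →L[ℝ] E4) _ (half_pos hb))
      refine ⟨_, mem_nhdsWithin_of_mem_nhds (inter_mem hS₁ (ev1.and ev2)), min (a / 2) (b / 2),
        lt_min (half_pos ha) (half_pos hb), fun z hz A H2 hA hH => hsub₁ ⟨hz.1, hsub₂ ⟨?_, ?_⟩⟩⟩
      · exact hball (mem_ball.2 ((dist_triangle A _ _).trans_lt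
          (by linarith [hA.trans_le (min_le_left _ _), hz.2.1])))
      · exact hball' (mem_ball.2 ((dist_triangle H2 _ _).trans_lt
          (by linarith [hH.trans_le (min_le_right _ _), hz.2.2])))
  refine ⟨δ, hδ, fun y hy A H2 hA hH => ?_⟩
  obtain ⟨h1, h2, h3⟩ := hsub y hy A H2 hA hH
  exact ⟨(injective_coprod_iff _ _).1 h1, h2, h3⟩

/-- Round one follows from its coordinate form. -/
theorem genericStatement_of_plane (H : PlaneGenericStatement) : GenericStatement := by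
  intro U K₀ C C' ξ f σ ε hU hK₀ hK₀U hC hCi hC' hC'U hf hσ hinj hrank hacc htrans hgood hε
  rcases U.eq_empty_or_nonempty with rfl | ⟨y₀, hy₀⟩
  · refine ⟨f, σ, hf, hσ, fun _ _ => rfl, hinj, fun y hy => (notMem_empty y hy).elim, hrank, hacc,
      fun y hy => ?_, fun y hy => (notMem_empty y hy).elim⟩
    rcases hy with hy | hy
    · exact (notMem_empty y (hK₀U (interior_subset (hCi hy)))).elim
    · exact (notMem_empty y (hC'U hy)).elim
  have hξ : ξ ≠ 0 := by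
    rintro rfl
    obtain ⟨l, -, hl⟩ := hrank y₀ hy₀
    obtain ⟨u, hu, hu0⟩ := (Submodule.ne_bot_iff _).1
      (LinearMap.ker_ne_bot_of_finrank_lt (f := ((l : E2 →L[ℝ] ℝ) : E2 →ₗ[ℝ] ℝ)) (by simp))
    exact htrans y₀ hy₀ u hu0 (by rw [hl, show l u = 0 from hu, zero_mul]) (by simp)
  obtain ⟨Φ, Ψ, N, s, hΦ, hΨ, hΦΨ, hΨΦ, hΦis, hN, hNsq, hKN, hNU, hs, hsv⟩ :=
    exists_square_chart hU hK₀ hK₀U hξ hσ hrank htrans
  have hΦi := fun p => (hΦis p).1
  have hΦs := fun p => (hΦis p).2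
  set e₁ : E2 → E2 := fun y => fderiv ℝ Φ (Ψ y) (1, 0)
  set e₂ : E2 → E2 := fun y => fderiv ℝ Φ (Ψ y) (0, 1)
  have he₁ : Continuous e₁ :=
    ((hΦ.continuous_fderiv (by simp)).comp hΨ.continuous).clm_apply continuous_const
  have he₂ : Continuous e₂ :=
    ((hΦ.continuous_fderiv (by simp)).comp hΨ.continuous).clm_apply continuous_const
  have hCK : Ψ '' C ⊆ interior (Ψ '' K₀) := by
    refine subset_trans ?_ (interior_maximal (s := Ψ '' K₀) (t := Φ ⁻¹' interior K₀)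
      (fun p hp => ⟨Φ p, interior_subset hp, hΨΦ p⟩) (isOpen_interior.preimage hΦ.continuous))
    rintro _ ⟨y, hy, rfl⟩
    show Φ (Ψ y) ∈ interior K₀
    rw [hΦΨ]; exact hCi hy
  obtain ⟨δ, hδ, hδΩ⟩ := exists_jet_radius hf hσ.continuous he₁ he₂ hK₀ hε fun y hy => by
    obtain ⟨hs0, hform⟩ := hsv _ (hKN (mem_image_of_mem Ψ hy))
    rw [hΦΨ] at hform
    refine ⟨hinj y (hK₀U hy), ?_, ?_, hacc y (hK₀U hy) _ (fun h0 => ?_) ?_⟩
    · rw [hform]; simpa using hs0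
    · rw [hform]; simp
    · exact one_ne_zero (congrArg Prod.fst (hΦi (Ψ y) (h0.trans (map_zero _).symm)))
    · rw [hform]; simp
  obtain ⟨r₀, ε₀, hε₀, hgood₀⟩ := exists_good_radius hf hC' hgood
  -- size of the derivatives of the coordinates
  obtain ⟨M, hM1, hM⟩ : ∃ M : ℝ, 1 ≤ M ∧
      ∀ i ≤ max 2 r₀, ∀ y ∈ K₀ ∪ C', ‖iteratedFDeriv ℝ i Ψ y‖ ≤ M := by
    choose M hM using fun i : ℕ => (hK₀.union hC').exists_bound_of_continuousOn
      (hΨ.continuous_iteratedFDeriv (m := i) (by exact_mod_cast le_top)).continuousOn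
    refine ⟨1 + ∑ i ∈ Finset.range (max 2 r₀ + 1), |M i|,
      le_add_of_nonneg_right (Finset.sum_nonneg fun i _ => abs_nonneg _), fun i hi y hy => ?_⟩
    have := Finset.single_le_sum (f := fun i => |M i|) (fun i _ => abs_nonneg _)
      (Finset.mem_range.2 (Nat.lt_succ_of_le hi))
    linarith [hM i y hy, le_abs_self (M i)]
  set n₀ := max 2 r₀
  set η := min δ ε₀ / 2 with hηdef
  have hη : 0 < η := half_pos (lt_min hδ hε₀)
  set ε₁ := η / (n₀.factorial * M ^ n₀)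
  have hε₁ : 0 < ε₁ := by positivity
  obtain ⟨G, hG, hGoff, hGdet, hGgood, hGclose⟩ := H N (Ψ '' K₀) (Ψ '' C) s (f ∘ Φ) n₀ ε₁ hN
    hNsq (hK₀.image hΨ.continuous) hKN (hC.image hΨ.continuous) hCK hs (hf.comp hΦ)
    (fun p hp => by
      refine (detg_pos_of_injective ?_).ne'
      rw [fderiv_comp p (hf.differentiable (by simp) _) (hΦ.differentiable (by simp) p)]
      exact (hinj _ (hNU p hp)).comp (hΦi p))
    (fun p hp => (hsv p hp).1)
    (fun p hp => (normalAccel_map (1, 0) hf hΦ (hΦs p)).1 <| hacc _ (hNU p hp) _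
      (fun h0 => one_ne_zero (congrArg Prod.fst (hΦi p (h0.trans (map_zero _).symm))))
      (by rw [(hsv p hp).2]; simp))
    hε₁
  set d : R2 → V4 := fun q => G q - (f ∘ Φ) q
  have hd : ContDiff ℝ ∞ d := hG.sub (hf.comp hΦ)
  set F : E2 → E4 := fun y => f y + d (Ψ y) with hFdef
  have hF : ContDiff ℝ ∞ F := hf.add (hd.comp hΨ)
  have hFsub : (fun y => F y - f y) = d ∘ Ψ := funext fun y => add_sub_cancel_left _ _
  have hFG : F ∘ Φ = G := funext fun p => by simp [F, d, hΨΦ]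
  have hFoff : ∀ y ∉ K₀, F y = f y := fun y hy => by
    have : Ψ y ∉ Ψ '' K₀ := by
      rintro ⟨z, hz, hzy⟩
      rw [← hΦΨ y, ← hzy, hΦΨ] at hy
      exact hy hz
    simp [F, d, hGoff _ this]
  have hFnear : ∀ y ∉ K₀, F =ᶠ[𝓝 y] f := fun y hy =>
    eventually_of_mem (hK₀.isClosed.isOpen_compl.mem_nhds hy) hFoff
  have hclose : ∀ i ≤ n₀, ∀ y ∈ K₀ ∪ C', ‖iteratedFDeriv ℝ i (fun z => F z - f z) y‖ ≤ η := by
    intro i hi y hy
    rw [hFsub]
    refine (norm_iteratedFDeriv_comp_le hd hΨ (by exact_mod_cast le_top) y (C := ε₁) (D := M)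
      (fun j hj => hGclose j (hj.trans hi) _)
      (fun j h1 h2 => (hM j (h2.trans hi) y hy).trans (le_self_pow₀ hM1 (by omega)))).trans ?_
    calc (i.factorial : ℝ) * ε₁ * M ^ i ≤ n₀.factorial * ε₁ * M ^ n₀ :=
          mul_le_mul (mul_le_mul_of_nonneg_right (by exact_mod_cast Nat.factorial_le hi) hε₁.le)
            (pow_le_pow_right₀ hM1 hi) (by positivity) (by positivity)
      _ = η := by simp only [ε₁]; field_simp
  have hη2 : η < min δ ε₀ := half_lt_self (lt_min hδ hε₀)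
  have hmem : ∀ y ∈ K₀, (Injective (fderiv ℝ F y) ∧ fderiv ℝ (fderiv ℝ F) y
        (kerA σ f e₁ e₂ y (fderiv ℝ F y)) (kerA σ f e₁ e₂ y (fderiv ℝ F y)) ∉ range (fderiv ℝ F y)) ∧
      0 < restA σ f y (fderiv ℝ F y) (e₂ y) (e₂ y) ∧
      gap f y (fderiv ℝ F y) < ε := fun y hy => by
    have hsub : fderiv ℝ (fun z => F z - f z) = fun z => fderiv ℝ F z - fderiv ℝ f z :=
      funext fun z => fderiv_fun_sub (hF.differentiable (by simp) z) (hf.differentiable (by simp) z)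
    refine hδΩ y hy _ _ ?_ ?_
    · rw [dist_eq_norm, ← congrFun hsub y, ← norm_iteratedFDeriv_one]
      exact (hclose 1 ((by omega : 1 ≤ 2).trans (le_max_left _ _)) y (Or.inl hy)).trans_lt
        (hη2.trans_le (min_le_left _ _))
    · have h2 : fderiv ℝ (fderiv ℝ fun z => F z - f z) y
          = fderiv ℝ (fderiv ℝ F) y - fderiv ℝ (fderiv ℝ f) y := by
        rw [hsub]
        exact fderiv_fun_sub ((hF.fderiv_right (m := ∞) le_rfl).differentiable (by simp) y)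
          ((hf.fderiv_right (m := ∞) le_rfl).differentiable (by simp) y)
      refine lt_of_eq_of_lt (show dist (fderiv ℝ (fderiv ℝ F) y) (fderiv ℝ (fderiv ℝ f) y)
        = ‖fderiv ℝ (fderiv ℝ F) y - fderiv ℝ (fderiv ℝ f) y‖
        from dist_eq_norm (fderiv ℝ (fderiv ℝ F) y) (fderiv ℝ (fderiv ℝ f) y)) ?_
      rw [← h2, ← norm_iteratedFDeriv_one, norm_iteratedFDeriv_fderiv]
      exact (hclose 2 (le_max_left _ _) y (Or.inl hy)).trans_lt (hη2.trans_le (min_le_left _ _))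
  set τ : Form2 := fun y => restA σ f y (fderiv ℝ F y)
  have hτoff : ∀ y ∉ K₀, τ y = σ y := fun y hy => by
    refine ContinuousLinearMap.ext fun v => ContinuousLinearMap.ext fun w => ?_
    show restA σ f y (fderiv ℝ F y) v w = σ y v w
    rw [restA_apply, (hFnear y hy).fderiv_eq, add_sub_cancel_right]
  have hτ : ∀ y ∈ K₀, RankOne (τ y) ∧ NormalAccelKer F τ y := by
    intro y hy
    obtain ⟨⟨hinjF, haccF⟩, hpos, -⟩ := hmem y hy
    obtain ⟨l, -, hl⟩ := hrank y (hK₀U hy)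
    have hp : Ψ y ∈ N := hKN (mem_image_of_mem Ψ hy)
    have hsym : τ y (e₁ y) (e₂ y) = τ y (e₂ y) (e₁ y) := by
      simp only [τ, restA_apply, hl, real_inner_comm (fderiv ℝ f y (e₂ y)),
        real_inner_comm (fderiv ℝ F y (e₂ y)), mul_comm (l (e₂ y))]
    have hfd' : ∀ v, fderiv ℝ f y (fderiv ℝ Φ (Ψ y) v) = fderiv ℝ (f ∘ Φ) (Ψ y) v := fun v => by
      rw [fderiv_comp _ (hf.differentiable (by simp) _) (hΦ.differentiable (by simp) _), hΦΨ]
      rfl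
    have hFd' : ∀ v, fderiv ℝ F y (fderiv ℝ Φ (Ψ y) v) = fderiv ℝ G (Ψ y) v := fun v => by
      rw [← hFG, fderiv_comp _ (hF.differentiable (by simp) _) (hΦ.differentiable (by simp) _), hΦΨ]
      rfl
    have hσv : ∀ v w, σ y (fderiv ℝ Φ (Ψ y) v) (fderiv ℝ Φ (Ψ y) w) = s (Ψ y) * v.2 * w.2 := by
      have h := (hsv _ hp).2
      rwa [hΦΨ] at h
    have hdet := hGdet _ hp
    simp only [rdet, Pi.add_apply, Pi.sub_apply, Matrix.cons_val_zero, Matrix.cons_val_one,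
      Matrix.cons_val, add_zero] at hdet
    have hdet' : τ y (e₁ y) (e₁ y) * τ y (e₂ y) (e₂ y) = τ y (e₁ y) (e₂ y) ^ 2 := by
      simp only [τ, restA_apply, e₁, e₂, hfd', hFd', hσv, inner_fderiv_eq]
      linear_combination hdet
    obtain ⟨hr1, hker⟩ := rankOne_of_det (hΦs (Ψ y)) rfl rfl hsym hdet' hpos
    refine ⟨hr1, fun u hu h0 => ?_⟩
    obtain ⟨r, rfl⟩ := hker u h0
    exact normalAccel_smul hF (fun h => hu (by rw [h, zero_smul]))
      ((normalAccel_iff hF.contDiffAt).2 haccF)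
  refine ⟨F, τ, hF, ?_, hFoff, fun y hy => ?_, fun y _ v w => ?_, fun y hy => ?_, fun y hy => ?_,
    fun y hy => ?_, fun y hy => ?_⟩
  · refine contDiff_clm_apply_iff.2 fun v => contDiff_clm_apply_iff.2 fun w => ?_
    simp only [τ, restA_apply]
    have d : ∀ {g : E2 → E4}, ContDiff ℝ ∞ g → ∀ u, ContDiff ℝ ∞ fun y => fderiv ℝ g y u :=
      fun hg u => (hg.fderiv_right (m := ∞) le_rfl).clm_apply contDiff_const
    exact (((hσ.clm_apply contDiff_const).clm_apply contDiff_const).add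
      ((d hf v).inner ℝ (d hf w))).sub ((d hF v).inner ℝ (d hF w))
  · by_cases h : y ∈ K₀
    · exact (hmem y h).1.1
    · rw [(hFnear y h).fderiv_eq]; exact hinj y hy
  · simp only [τ, restA_apply, pullE2]; ring
  · by_cases h : y ∈ K₀
    · exact (hτ y h).1
    · rw [hτoff y h]; exact hrank y hy
  · by_cases h : y ∈ K₀
    · exact (hτ y h).2
    · intro u hu h0
      rw [hτoff y h] at h0
      exact (hacc y hy u hu h0).congr (hFnear y h).symm
  · rcases hy with hy | hy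
    · obtain ⟨φ, q, hφ, hq, hφi, hc⟩ := hGgood _ (mem_image_of_mem Ψ hy)
      refine ⟨Φ ∘ φ, q, hΦ.comp hφ, by rw [comp_apply, hq, hΦΨ], ?_, ?_⟩
      · rw [fderiv_comp q (hΦ.differentiable (by simp) _) (hφ.differentiable (by simp) q)]
        exact (hΦi _).comp hφi
      · rw [← comp_assoc, hFG]; exact hc
    · refine hgood₀ F hF y hy fun i hi => ?_
      rw [← iteratedFDeriv_sub_apply (hF.of_le (by exact_mod_cast le_top)).contDiffAt
        (hf.of_le (by exact_mod_cast le_top)).contDiffAt]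
      exact (hclose i (hi.trans (le_max_right _ _)) y (Or.inr hy)).trans_lt
        (hη2.trans_le (min_le_right _ _))
  · refine norm_restA_sub_le hε.le ?_
    by_cases h : y ∈ K₀
    · exact (hmem y h).2.2.le
    · rw [(hFnear y h).fderiv_eq]; simp [gap, hε.le]

end

end Vale.Agent.P205.Round1
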