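import Vale.Agent.P205.Full.Round1.Exact
import Vale.Agent.P205.Generic.Weight

/-!
# P205, round one: families which solve the rank one equation to any order

`exists_approx` adds to a family `H0 (s, p)` through `f` a multiple of the normal vector
`cut • nX f` so that the rank one defect is `O (‖s‖ ^ (n + 1))` in every `C ^ i`.
-/

namespace Vale.Agent.P205.Round1

open scoped ContDiff Topology RealInnerProductSpace
open Set Filter Finset Metric Vale.Agent.P205.Correction Vale.Agent.P205.Algebra Vale.Agent.P205.Bridge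

noncomputable section

variable {P : Type*} [NormedAddCommGroup P] [NormedSpace ℝ P]
variable {V W X : Type*} [NormedAddCommGroup V] [NormedSpace ℝ V] [NormedAddCommGroup W]
  [NormedSpace ℝ W] [NormedAddCommGroup X] [NormedSpace ℝ X]

/-- Order at least `j` in the parameter, in every derivative along the plane. -/
def Ord (j : ℕ) (u : P × R2 → V) : Prop :=
  ContDiff ℝ ∞ u ∧ ∀ i, ∃ C, 0 ≤ C ∧ ∀ s : P, ‖s‖ ≤ 1 → ∀ p,
    ‖iteratedFDeriv ℝ i (fun q => u (s, q)) p‖ ≤ C * ‖s‖ ^ j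

/-- The derivative along the plane. -/
def dP (u : P × R2 → V) (z : P × R2) : R2 →L[ℝ] V :=
  (fderiv ℝ u z).comp (ContinuousLinearMap.inr ℝ P R2)

lemma contDiff_slice {u : P × R2 → V} (hu : ContDiff ℝ ∞ u) (s : P) :
    ContDiff ℝ ∞ fun q => u (s, q) := hu.comp (contDiff_prodMk_right s)

lemma fderiv_slice {u : P × R2 → V} (hu : ContDiff ℝ ∞ u) (s : P) (p : R2) :
    fderiv ℝ (fun q => u (s, q)) p = dP u (s, p) :=
  ((((hu.differentiable (by simp)).differentiableAt).hasFDerivAt).comp p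
    (hasFDerivAt_prodMk_right s p)).fderiv

lemma contDiff_dP {u : P × R2 → V} (hu : ContDiff ℝ ∞ u) : ContDiff ℝ ∞ (dP u) :=
  (hu.fderiv_right (m := ∞) le_rfl).clm_comp contDiff_const

lemma contDiff_bilin {E : Type*} [NormedAddCommGroup E] [NormedSpace ℝ E] (β : V →L[ℝ] W →L[ℝ] X)
    {u : E → V} {w : E → W} (hu : ContDiff ℝ ∞ u) (hw : ContDiff ℝ ∞ w) :
    ContDiff ℝ ∞ fun z => β (u z) (w z) :=
  (β.contDiff.comp hu).clm_apply hw

namespace Ord

variable {j k : ℕ} {u v : P × R2 → V}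

lemma mono (h : Ord k u) (hjk : j ≤ k) : Ord j u := by
  refine ⟨h.1, fun i => ?_⟩
  obtain ⟨C, hC, h⟩ := h.2 i
  exact ⟨C, hC, fun s hs p => (h s hs p).trans
    (mul_le_mul_of_nonneg_left (pow_le_pow_of_le_one (norm_nonneg s) hs hjk) hC)⟩

lemma add (hu : Ord j u) (hv : Ord j v) : Ord j fun z => u z + v z := by
  refine ⟨hu.1.add hv.1, fun i => ?_⟩
  obtain ⟨C, hC, h⟩ := hu.2 i
  obtain ⟨C', hC', h'⟩ := hv.2 i
  refine ⟨C + C', add_nonneg hC hC', fun s hs p => ?_⟩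
  have e : (fun q => u (s, q) + v (s, q)) = (fun q => u (s, q)) + fun q => v (s, q) := rfl
  rw [e, iteratedFDeriv_add_apply ((contDiff_slice hu.1 s).of_le (by exact_mod_cast le_top)).contDiffAt
    ((contDiff_slice hv.1 s).of_le (by exact_mod_cast le_top)).contDiffAt, add_mul]
  exact (norm_add_le _ _).trans (add_le_add (h s hs p) (h' s hs p))

lemma fderiv (hu : Ord j u) : Ord j (dP u) := by
  refine ⟨contDiff_dP hu.1, fun i => ?_⟩
  obtain ⟨C, hC, h⟩ := hu.2 (i + 1)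
  refine ⟨C, hC, fun s hs p => ?_⟩
  have e : (fun q => dP u (s, q)) = _root_.fderiv ℝ fun q => u (s, q) :=
    funext fun q => (fderiv_slice hu.1 s q).symm
  rw [e, norm_iteratedFDeriv_fderiv]
  exact h s hs p

lemma bilin {w : P × R2 → W} (β : V →L[ℝ] W →L[ℝ] X) (hu : Ord j u) (hw : Ord k w) :
    Ord (j + k) fun z => β (u z) (w z) := by
  refine ⟨(β.contDiff.comp hu.1).clm_apply hw.1, fun i => ?_⟩
  choose C hC h using hu.2
  choose C' hC' h' using hw.2
  refine ⟨‖β‖ * ∑ l ∈ range (i + 1), (i.choose l : ℝ) * C l * C' (i - l), ?_, fun s hs p => ?_⟩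
  · exact mul_nonneg β.opNorm_nonneg
      (sum_nonneg fun l _ => mul_nonneg (mul_nonneg (Nat.cast_nonneg _) (hC _)) (hC' _))
  refine (β.norm_iteratedFDeriv_le_of_bilinear (contDiff_slice hu.1 s) (contDiff_slice hw.1 s) p
    (n := i) (by exact_mod_cast le_top)).trans ?_
  rw [mul_assoc, sum_mul]
  refine mul_le_mul_of_nonneg_left (sum_le_sum fun l _ => ?_) β.opNorm_nonneg
  calc (i.choose l : ℝ) * ‖iteratedFDeriv ℝ l (fun q => u (s, q)) p‖ *
        ‖iteratedFDeriv ℝ (i - l) (fun q => w (s, q)) p‖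
      ≤ (i.choose l : ℝ) * (C l * ‖s‖ ^ j) * (C' (i - l) * ‖s‖ ^ k) := by
        have := hC l
        exact mul_le_mul (mul_le_mul_of_nonneg_left (h l s hs p) (Nat.cast_nonneg _)) (h' _ s hs p)
          (norm_nonneg _) (by positivity)
    _ = (i.choose l : ℝ) * C l * C' (i - l) * ‖s‖ ^ (j + k) := by rw [pow_add]; ring

lemma clm (L : V →L[ℝ] W) (hu : Ord j u) : Ord j fun z => L (u z) := by
  refine ⟨L.contDiff.comp hu.1, fun i => ?_⟩
  obtain ⟨C, hC, h⟩ := hu.2 i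
  refine ⟨‖L‖ * C, mul_nonneg (norm_nonneg _) hC, fun s hs p => ?_⟩
  rw [mul_assoc]
  exact (L.norm_iteratedFDeriv_comp_left (contDiff_slice hu.1 s).contDiffAt
    (by exact_mod_cast le_top)).trans (mul_le_mul_of_nonneg_left (h s hs p) (norm_nonneg _))

lemma const_smul (c : ℝ) (hu : Ord j u) : Ord j fun z => c • u z :=
  hu.clm (c • ContinuousLinearMap.id ℝ V)

lemma sub (hu : Ord j u) (hv : Ord j v) : Ord j fun z => u z - v z := by
  have h := hu.add (hv.const_smul (-1))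
  simpa only [neg_one_smul, ← sub_eq_add_neg] using h

variable [FiniteDimensional ℝ P]

lemma iteratedFDeriv_slice {w : P × R2 → W} (hw : ContDiff ℝ ∞ w) (i : ℕ) (s : P) (p : R2) :
    iteratedFDeriv ℝ i (fun q => w (s, q)) p
      = (iteratedFDeriv ℝ i w (s, p)).compContinuousLinearMap
          fun _ => ContinuousLinearMap.inr ℝ P R2 := by
  have e : (fun q => w (s, q))
      = (fun z => w (z + (s, 0))) ∘ ContinuousLinearMap.inr ℝ P R2 := by
    funext q; simp
  rw [e, ContinuousLinearMap.iteratedFDeriv_comp_right _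
    (show ContDiff ℝ ∞ fun z => w (z + (s, (0 : R2))) from
      hw.comp (contDiff_id.add contDiff_const)) p (by exact_mod_cast le_top), iteratedFDeriv_comp_add_right]
  simp

/-- A compactly supported family is of order zero, and of order one if it vanishes at zero. -/
lemma of_compact {K : Set R2} (hK : IsCompact K) {w : P × R2 → W} (hw : ContDiff ℝ ∞ w)
    (h0 : ∀ s, ∀ p ∉ K, w (s, p) = 0) : Ord 0 w ∧ ((∀ p, w (0, p) = 0) → Ord 1 w) := by
  have hd : ∀ i, ContDiff ℝ ∞ fun z : P × R2 =>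
      (iteratedFDeriv ℝ i w z).compContinuousLinearMap fun _ => ContinuousLinearMap.inr ℝ P R2 :=
    fun i => (ContinuousMultilinearMap.compContinuousLinearMapL (𝕜 := ℝ) (F := W)
      (fun _ : Fin i => ContinuousLinearMap.inr ℝ P R2)).contDiff.comp
        (hw.iteratedFDeriv_right (m := ∞) (by exact_mod_cast le_top))
  have hout : ∀ i s, ∀ p ∉ K, iteratedFDeriv ℝ i (fun q => w (s, q)) p = 0 := fun i s p hp => by
    have e : (fun q => w (s, q)) =ᶠ[𝓝 p] 0 :=
      eventually_of_mem (hK.isClosed.isOpen_compl.mem_nhds hp) fun q hq => h0 s q hq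
    rw [(e.iteratedFDeriv ℝ i).eq_of_nhds]
    simp
  refine ⟨⟨hw, fun i => ?_⟩, fun hz => ⟨hw, fun i => ?_⟩⟩
  · obtain ⟨C, hC⟩ := ((isCompact_closedBall (0 : P) 1).prod hK).exists_bound_of_continuousOn
      (hd i).continuous.continuousOn
    refine ⟨max C 0, le_max_right _ _, fun s hs p => ?_⟩
    rw [pow_zero, mul_one]
    by_cases hp : p ∈ K
    · rw [iteratedFDeriv_slice hw]
      exact (hC (s, p) ⟨by simpa using hs, hp⟩).trans (le_max_left _ _)
    · rw [hout i s p hp, norm_zero]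
      exact le_max_right _ _
  · obtain ⟨C, hC⟩ := ((isCompact_closedBall (0 : P) 1).prod hK).exists_bound_of_continuousOn
      ((hd i).continuous_fderiv (by simp)).continuousOn
    refine ⟨max C 0, le_max_right _ _, fun s hs p => ?_⟩
    by_cases hp : p ∈ K
    · have h := (convex_closedBall (0 : P) 1).norm_image_sub_le_of_norm_fderiv_le
        (f := fun t => (iteratedFDeriv ℝ i w (t, p)).compContinuousLinearMap
          fun _ => ContinuousLinearMap.inr ℝ P R2)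
        (C := max C 0) (fun t _ => (((hd i).comp (contDiff_prodMk_left p)).differentiable
          (by simp)).differentiableAt) (fun t ht => ?_)
        (mem_closedBall_self zero_le_one) (show s ∈ closedBall (0 : P) 1 by simpa using hs)
      · rw [← iteratedFDeriv_slice hw, ← iteratedFDeriv_slice hw, sub_zero,
          show (fun q => w (0, q)) = fun _ => (0 : W) from funext hz] at h
        simpa using h
      · have hc := ((((hd i).differentiable (by simp)).differentiableAt (x := (t, p))).hasFDerivAt).comp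
          t (hasFDerivAt_prodMk_left (𝕜 := ℝ) t p)
        refine le_of_eq_of_le (congrArg norm hc.fderiv) ?_
        refine (ContinuousLinearMap.opNorm_comp_le _ _).trans ?_
        calc _ ≤ max C 0 * 1 := mul_le_mul ((hC (t, p) ⟨ht, hp⟩).trans (le_max_left _ _))
              (ContinuousLinearMap.opNorm_le_bound _ zero_le_one fun x => by simp)
              (norm_nonneg _) (le_max_right _ _)
          _ = max C 0 := mul_one _
    · rw [hout i s p hp, norm_zero]
      positivity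

end Ord

/-- A product with a cut is smooth. -/
lemma contDiff_cut {N : Set R2} (hN : IsOpen N) {χ : R2 → ℝ} {u : R2 → V} {K : Set R2}
    (hχ : ContDiff ℝ ∞ χ) (hK : IsCompact K) (hKN : K ⊆ N) (h0 : ∀ p ∉ K, χ p = 0)
    (hu : ContDiffOn ℝ ∞ u N) : ContDiff ℝ ∞ fun p => χ p • u p := by
  refine contDiff_iff_contDiffAt.2 fun p => ?_
  by_cases hp : p ∈ K
  · exact hχ.contDiffAt.smul (hu.contDiffAt (hN.mem_nhds (hKN hp)))
  · refine (contDiffAt_const (c := (0 : V))).congr_of_eventuallyEq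
      (eventually_of_mem (hK.isClosed.isOpen_compl.mem_nhds hp) fun q hq => ?_)
    show χ q • u q = 0
    rw [h0 q hq, zero_smul]

lemma contDiff_first {f : R2 → V4} (hf : ContDiff ℝ ∞ f) :
    ContDiff ℝ ∞ (Algebra.dx f) ∧ ContDiff ℝ ∞ (Algebra.dy f) :=
  ⟨(hf.fderiv_right (m := ∞) le_rfl).clm_apply contDiff_const,
    (hf.fderiv_right (m := ∞) le_rfl).clm_apply contDiff_const⟩

lemma contDiffOn_nX {N : Set R2} {f : R2 → V4} (hf : ContDiff ℝ ∞ f)
    (hi : ∀ p ∈ N, detg f p ≠ 0) (G : R2 → Fin 3 → ℝ) (hG : ContDiff ℝ ∞ G) :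
    ContDiffOn ℝ ∞ (nX (fun _ : R2 => (1 : ℝ)) f) N ∧ ContDiffOn ℝ ∞ (coefX (fun _ : R2 => (1 : ℝ)) G f) N := by
  obtain ⟨h1, h2⟩ := contDiff_first hf
  have h11 := (contDiff_first h1).1
  have h12 := (contDiff_first h1).2
  have h22 := (contDiff_first h2).2
  have hd : ContDiffOn ℝ ∞ (rinv (fun _ : R2 => (1 : ℝ)) (detg f)) N :=
    (((h1.inner ℝ h1).mul (h2.inner ℝ h2)).sub ((h1.inner ℝ h2).pow 2)).contDiffOn.inv
      (fun p hp => hi p hp) |>.congr fun p _ => by simp [rinv, detg, g11, g12, g22]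
  have hv1 : ContDiffOn ℝ ∞ (v1 (fun _ : R2 => (1 : ℝ)) f) N :=
    hd.smul (((h2.inner ℝ h2).smul h1).sub ((h1.inner ℝ h2).smul h2)).contDiffOn
  have hv2 : ContDiffOn ℝ ∞ (v2 (fun _ : R2 => (1 : ℝ)) f) N :=
    hd.smul (((h1.inner ℝ h1).smul h2).sub ((h1.inner ℝ h2).smul h1)).contDiffOn
  have hn : ContDiffOn ℝ ∞ (nX (fun _ : R2 => (1 : ℝ)) f) N :=
    (h11.contDiffOn.sub ((h11.inner ℝ h1).contDiffOn.smul hv1)).sub
      ((h11.inner ℝ h2).contDiffOn.smul hv2)
  refine ⟨hn, ?_⟩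
  have g : ∀ k : Fin 3, ContDiff ℝ ∞ fun p => G p k := fun k => (contDiff_apply _ _ k).comp hG
  exact ((((g 0).sub (h1.inner ℝ h1)).contDiffOn.mul (h22.contDiffOn.inner ℝ hn)).add
    (((g 2).sub (h2.inner ℝ h2)).contDiffOn.mul (h11.contDiffOn.inner ℝ hn))).sub
      ((contDiffOn_const.mul ((g 1).sub (h1.inner ℝ h2)).contDiffOn).mul
        (h12.contDiffOn.inner ℝ hn))

lemma nX_orth {f : R2 → V4} {p : R2} (hd : detg f p ≠ 0) :
    ⟪Algebra.dx f p, nX (fun _ : R2 => (1 : ℝ)) f p⟫ = 0 ∧ ⟪Algebra.dy f p, nX (fun _ : R2 => (1 : ℝ)) f p⟫ = 0 := by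
  have e := real_inner_comm (Algebra.dx f p) (Algebra.dy f p)
  simp only [detg, g11, g12, g22] at hd
  constructor <;>
    (simp only [nX, v1, v2, rinv, detg, g11, g12, g22, inner_sub_right, inner_smul_right, e,
      real_inner_comm (F11 f p), sub_self, add_zero]
     field_simp
     ring)

/-- The symmetrised metric map. -/
def symB (A B : R2 →L[ℝ] V4) : Fin 3 → ℝ := metB A B + metB B A

/-- The linearised equation along a multiple of the normal `nX`. -/
lemma mdet_lin_normal {N : Set R2} (hN : IsOpen N) {f : R2 → V4} (hf : ContDiff ℝ ∞ f)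
    (hi : ∀ q ∈ N, detg f q ≠ 0) (G : R2 → Fin 3 → ℝ) {w : R2 → V4} (hw : ContDiff ℝ ∞ w)
    {p : R2} (hp : p ∈ N) (a : R2 → ℝ) (he : ∀ q ∈ N, w q = a q • nX (fun _ : R2 => (1 : ℝ)) f q) :
    mdet (G p - metF f p) (symB (fderiv ℝ f p) (fderiv ℝ w p)) = -(coefX (fun _ : R2 => (1 : ℝ)) G f p * a p) := by
  obtain ⟨h1, h2⟩ := contDiff_first hf
  have key : ∀ {u : R2 → V4}, ContDiff ℝ ∞ u → (∀ q ∈ N, ⟪u q, nX (fun _ : R2 => (1 : ℝ)) f q⟫ = 0) → ∀ v,
      ⟪u p, fderiv ℝ w p v⟫ = -(a p * ⟪fderiv ℝ u p v, nX (fun _ : R2 => (1 : ℝ)) f p⟫) := fun {u} hu h v => by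
    have e : (fun q => ⟪u q, w q⟫) =ᶠ[𝓝 p] fun _ => (0 : ℝ) :=
      eventually_of_mem (hN.mem_nhds hp) fun q hq => by
        show ⟪u q, w q⟫ = 0
        rw [he q hq, inner_smul_right, h q hq, mul_zero]
    have d := fderiv_inner_apply ℝ ((hu.differentiable (by simp)) p)
      ((hw.differentiable (by simp)) p) v
    rw [e.fderiv_eq] at d
    simp only [fderiv_fun_const, Pi.zero_apply, zero_apply, he p hp, inner_smul_right] at d
    linarith
  have kx := key h1 fun q hq => (nX_orth (hi q hq)).1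
  have ky := key h2 fun q hq => (nX_orth (hi q hq)).2
  have hc : fderiv ℝ (Algebra.dy f) p (1, 0) = F12 f p :=
    Generic.dx_dy_comm isOpen_univ hf.contDiffOn (mem_univ p)
  obtain ⟨a1, a2, a3, a4⟩ :
      ⟪fderiv ℝ f p (1, 0), fderiv ℝ w p (1, 0)⟫ = -(a p * ⟪F11 f p, nX (fun _ : R2 => (1 : ℝ)) f p⟫) ∧
      ⟪fderiv ℝ f p (1, 0), fderiv ℝ w p (0, 1)⟫ = -(a p * ⟪F12 f p, nX (fun _ : R2 => (1 : ℝ)) f p⟫) ∧
      ⟪fderiv ℝ f p (0, 1), fderiv ℝ w p (1, 0)⟫ = -(a p * ⟪F12 f p, nX (fun _ : R2 => (1 : ℝ)) f p⟫) ∧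
      ⟪fderiv ℝ f p (0, 1), fderiv ℝ w p (0, 1)⟫ = -(a p * ⟪F22 f p, nX (fun _ : R2 => (1 : ℝ)) f p⟫) :=
    ⟨kx _, kx _, hc ▸ ky (1, 0), ky _⟩
  simp only [symB, mdet_apply, metB_apply, metF, coefX, Pi.add_apply, Pi.sub_apply,
    Matrix.cons_val, real_inner_comm (fderiv ℝ f p (1, 0)) (fderiv ℝ w p (1, 0)),
    real_inner_comm (fderiv ℝ f p (1, 0)) (fderiv ℝ w p (0, 1)),
    real_inner_comm (fderiv ℝ f p (0, 1)) (fderiv ℝ w p (1, 0)),
    real_inner_comm (fderiv ℝ f p (0, 1)) (fderiv ℝ w p (0, 1)), a1, a2, a3, a4]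
  ring

/-- The algebra of one correction step. -/
lemma rdet_step {E E0 L L0 L' Q : Fin 3 → ℝ} {D : ℝ} (hD : rdet E = D) (h0 : mdet E0 L0 = D / 2)
    (hL : L' = L - L0) :
    rdet (E - (L + Q)) = (-2 : ℝ) • (mdet (E - E0) L + mdet E0 L' + mdet E Q)
      + mdet (L + Q) (L + Q) := by
  subst hL
  simp only [rdet] at hD
  simp only [mdet_apply, rdet, Pi.sub_apply, Pi.add_apply, smul_eq_mul] at h0 ⊢
  linarith

/-- The rank one defect of a family, cut by `χ`. -/
def defect (G : R2 → Fin 3 → ℝ) (χ : R2 → ℝ) (H : P × R2 → V4) (z : P × R2) : ℝ :=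
  χ z.2 * rdet (G z.2 - metB (dP H z) (dP H z))

lemma contDiff_defect {G : R2 → Fin 3 → ℝ} (hG : ContDiff ℝ ∞ G) {χ : R2 → ℝ}
    (hχ : ContDiff ℝ ∞ χ) {H : P × R2 → V4} (hH : ContDiff ℝ ∞ H) :
    ContDiff ℝ ∞ (defect G χ H) ∧
      ContDiff ℝ ∞ fun z : P × R2 => G z.2 - metB (dP H z) (dP H z) := by
  have hu : ContDiff ℝ ∞ fun z : P × R2 => G z.2 - metB (dP H z) (dP H z) :=
    (hG.comp contDiff_snd).sub (contDiff_bilin metB (contDiff_dP hH) (contDiff_dP hH))
  have hd : ContDiff ℝ ∞ fun u : Fin 3 → ℝ => rdet u := by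
    unfold rdet
    exact ((contDiff_apply ℝ ℝ (0 : Fin 3)).mul (contDiff_apply ℝ ℝ (2 : Fin 3))).sub
      ((contDiff_apply ℝ ℝ (1 : Fin 3)).pow 2)
  exact ⟨(hχ.comp contDiff_snd).mul (hd.comp hu), hu⟩

lemma metB_slice {H : P × R2 → V4} (hH : ContDiff ℝ ∞ H) (s : P) (x : R2) :
    metB (dP H (s, x)) (dP H (s, x)) = metF (fun r => H (s, r)) x := by
  rw [← fderiv_slice hH, metB_self]

/-- The fixed data of the iteration. -/
structure Iter (N K : Set R2) (f : R2 → V4) (G : R2 → Fin 3 → ℝ) where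
  /-- the cut -/
  χ : R2 → ℝ
  /-- the support of the cut -/
  K' : Set R2
  hN : IsOpen N
  hK : IsCompact K
  hKN : K ⊆ N
  hK' : IsCompact K'
  hK'N : K' ⊆ N
  hχ : ContDiff ℝ ∞ χ
  hχ1 : ∀ p ∈ K, χ =ᶠ[𝓝 p] fun _ => 1
  hχ0 : ∀ p ∉ K', χ p = 0
  hf : ContDiff ℝ ∞ f
  hG : ContDiff ℝ ∞ G
  h0 : ∀ p ∈ N, rdet (G p - metF f p) = 0
  hi : ∀ p ∈ N, detg f p ≠ 0
  hc : ∀ p ∈ N, coefX (fun _ : R2 => (1 : ℝ)) G f p ≠ 0

namespace Iter

variable {N K : Set R2} {f : R2 → V4} {G : R2 → Fin 3 → ℝ} (I : Iter N K f G)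

/-- The multiplier of one step. -/
def q (p : R2) : ℝ := I.χ p • (2 * coefX (fun _ : R2 => (1 : ℝ)) G f p)⁻¹

/-- The cut normal. -/
def v (p : R2) : V4 := I.χ p • nX (fun _ : R2 => (1 : ℝ)) f p

include I in
lemma one {p : R2} (hp : p ∈ K) : I.χ p = 1 := (I.hχ1 p hp).eq_of_nhds

lemma smooth_qv : ContDiff ℝ ∞ I.q ∧ ContDiff ℝ ∞ I.v := by
  obtain ⟨hn, hco⟩ := contDiffOn_nX I.hf I.hi G I.hG
  exact ⟨contDiff_cut I.hN I.hχ I.hK' I.hK'N I.hχ0
      ((contDiffOn_const.mul hco).inv fun p hp => mul_ne_zero two_ne_zero (I.hc p hp)),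
    contDiff_cut I.hN I.hχ I.hK' I.hK'N I.hχ0 hn⟩

/-- Families through `f`, equal to `f` outside `K`. -/
def Through (H : P × R2 → V4) : Prop :=
  ContDiff ℝ ∞ H ∧ (∀ p, H (0, p) = f p) ∧ ∀ s, ∀ p ∉ K, H (s, p) = f p

lemma defect_zero {H : P × R2 → V4} (hH : Through (K := K) (f := f) H) :
    (∀ p, defect G I.χ H (0, p) = 0) ∧ ∀ s, ∀ p ∉ K, defect G I.χ H (s, p) = 0 := by
  have key : ∀ s p, ((fun r => H (s, r)) =ᶠ[𝓝 p] f) → defect G I.χ H (s, p) = 0 := fun s p he => by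
    by_cases hp : p ∈ I.K'
    · simp [defect, metB_slice hH.1, metF_congr he, I.h0 p (I.hK'N hp)]
    · simp [defect, I.hχ0 p hp]
  exact ⟨fun p => key 0 p (Eventually.of_forall hH.2.1), fun s p hp => key s p
    (eventually_of_mem (I.hK.isClosed.isOpen_compl.mem_nhds hp) fun r hr => hH.2.2 s r hr)⟩

variable [FiniteDimensional ℝ P]

/-- One step gains one order. -/
theorem step {H : P × R2 → V4} (hH : Through (K := K) (f := f) H) {n : ℕ}
    (hO : Ord (n + 1) (defect G I.χ H)) :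
    Ord (n + 1) (fun z => -(I.q z.2 * defect G I.χ H z)) ∧
    Ord (n + 2) (defect G I.χ fun z => H z + (-(I.q z.2 * defect G I.χ H z)) • I.v z.2) := by
  obtain ⟨hq, hv⟩ := I.smooth_qv
  obtain ⟨hd0, hdK⟩ := I.defect_zero hH
  set D := defect G I.χ H with hD
  set ψ : P × R2 → ℝ := fun z => -(I.q z.2 * D z) with hψdef
  have hq0 : Ord 0 fun z : P × R2 => I.q z.2 := (Ord.of_compact I.hK' (hq.comp contDiff_snd)
    fun _ p hp => by simp [q, I.hχ0 p hp]).1
  have hv0 : Ord 0 fun z : P × R2 => I.v z.2 := (Ord.of_compact I.hK' (hv.comp contDiff_snd)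
    fun _ p hp => by simp [Iter.v, I.hχ0 p hp]).1
  have hψ : Ord (n + 1) ψ := by
    simpa [ψ] using ((hq0.bilin (ContinuousLinearMap.mul ℝ ℝ) hO).const_smul (-1))
  refine ⟨hψ, ?_⟩
  set Vv : P × R2 → V4 := fun z => ψ z • I.v z.2 with hVdef
  have hV : Ord (n + 1) Vv := by
    simpa using hψ.bilin (ContinuousLinearMap.lsmul ℝ ℝ : ℝ →L[ℝ] V4 →L[ℝ] V4) hv0
  have hdV : Ord (n + 1) (dP Vv) := hV.fderiv
  set E : P × R2 → Fin 3 → ℝ := fun z => I.χ z.2 • (G z.2 - metB (dP H z) (dP H z)) with hE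
  set A : P × R2 → R2 →L[ℝ] V4 := fun z => I.χ z.2 • dP H z with hA
  have hEs : ContDiff ℝ ∞ E :=
    (I.hχ.comp contDiff_snd).smul (contDiff_defect I.hG I.hχ hH.1).2
  have hAs : ContDiff ℝ ∞ A := (I.hχ.comp contDiff_snd).smul (contDiff_dP hH.1)
  have hz : ContDiff ℝ ∞ fun z : P × R2 => ((0 : P), z.2) := contDiff_const.prodMk contDiff_snd
  set E0 : P × R2 → Fin 3 → ℝ := fun z => E (0, z.2) with hE0
  set A0 : P × R2 → R2 →L[ℝ] V4 := fun z => A (0, z.2) with hA0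
  have oE := (Ord.of_compact (P := P) I.hK' hEs fun s p hp => by simp [E, I.hχ0 p hp]).1
  have oE0 := (Ord.of_compact (P := P) I.hK' (hEs.comp hz)
    fun s p hp => by simp [E, I.hχ0 p hp]).1
  have oA := (Ord.of_compact (P := P) I.hK' hAs fun s p hp => by simp [A, I.hχ0 p hp]).1
  have oE1 : Ord 1 fun z => E z - E0 z := (Ord.of_compact I.hK' (hEs.sub (hEs.comp hz))
    fun s p hp => by simp [E, E0, I.hχ0 p hp]).2 fun p => sub_self _
  have oA1 : Ord 1 fun z => A z - A0 z := (Ord.of_compact I.hK' (hAs.sub (hAs.comp hz))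
    fun s p hp => by simp [A, A0, I.hχ0 p hp]).2 fun p => sub_self _
  have hS : ∀ {k : ℕ} {a : P × R2 → R2 →L[ℝ] V4}, Ord k a →
      Ord (k + (n + 1)) fun z => symB (a z) (dP Vv z) := fun {k a} ha =>
    (ha.bilin metB hdV).add (ha.bilin metB.flip hdV)
  have oQ : Ord (n + 1 + (n + 1)) fun z => metB (dP Vv z) (dP Vv z) := hdV.bilin metB hdV
  have hR : Ord (n + 2) fun z =>
      (-2 : ℝ) • (mdet (E z - E0 z) (symB (A z) (dP Vv z))
        + mdet (E0 z) (symB (A z - A0 z) (dP Vv z)) + mdet (E z) (metB (dP Vv z) (dP Vv z)))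
      + mdet (symB (A z) (dP Vv z) + metB (dP Vv z) (dP Vv z))
          (symB (A z) (dP Vv z) + metB (dP Vv z) (dP Vv z)) :=
    (((((oE1.bilin mdet (hS oA)).mono (by omega)).add
        ((oE0.bilin mdet (hS oA1)).mono (by omega))).add
          ((oE.bilin mdet oQ).mono (by omega))).const_smul (-2)).add
      ((((hS oA).add (oQ.mono (by omega))).bilin mdet
        ((hS oA).add (oQ.mono (by omega)))).mono (by omega))
  refine (congrArg (Ord (n + 2)) (funext fun z => ?_)).mp hR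
  obtain ⟨s, p⟩ := z
  have hd' : dP (fun z => H z + Vv z) (s, p) = dP H (s, p) + dP Vv (s, p) := by
    simp only [dP, fderiv_fun_add (hH.1.differentiable (by simp)).differentiableAt
      (hV.1.differentiable (by simp)).differentiableAt, ContinuousLinearMap.add_comp]
  show _ = I.χ p * rdet (G p - metB (dP (fun z => H z + Vv z) (s, p))
    (dP (fun z => H z + Vv z) (s, p)))
  rw [hd']
  by_cases hp : p ∈ K
  · have h1 := I.one hp
    have lin0 : mdet (E0 (s, p)) (symB (A0 (s, p)) (dP Vv (s, p))) = D (s, p) / 2 := by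
      have e0 : (fun r => H ((0 : P), r)) = f := funext hH.2.1
      have eA : A0 (s, p) = fderiv ℝ f p := by
        simp only [hA0, hA, h1, one_smul, ← fderiv_slice hH.1, e0]
      have eE : E0 (s, p) = G p - metF f p := by
        simp only [hE0, hE, h1, one_smul, metB_slice hH.1, e0]
      rw [eA, eE, ← fderiv_slice hV.1, mdet_lin_normal I.hN I.hf I.hi G (contDiff_slice hV.1 s)
        (I.hKN hp) (fun r => ψ (s, r) * I.χ r) (fun r _ => by simp [Vv, Iter.v, mul_smul])]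
      have := I.hc p (I.hKN hp)
      simp only [hψdef, q, h1, one_smul, mul_one]
      field_simp
    have hDp : rdet (E (s, p)) = D (s, p) := by simp [hD, defect, hE, h1]
    have hu : G p - metB (dP H (s, p) + dP Vv (s, p)) (dP H (s, p) + dP Vv (s, p))
        = E (s, p) - (symB (A (s, p)) (dP Vv (s, p)) + metB (dP Vv (s, p)) (dP Vv (s, p))) := by
      simp only [hE, hA, h1, one_smul, symB, map_add, add_apply]
      abel
    rw [h1, one_mul, hu]
    refine (rdet_step hDp lin0 ?_).symm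
    simp only [symB, map_sub, sub_apply]
    abel
  · have hz' : dP Vv (s, p) = 0 := by
      rw [← fderiv_slice hV.1]
      have : (fun r => Vv (s, r)) =ᶠ[𝓝 p] fun _ => (0 : V4) :=
        eventually_of_mem (I.hK.isClosed.isOpen_compl.mem_nhds hp) fun r hr => by
          simp [Vv, ψ, hdK s r hr]
      simp [this.fderiv_eq]
    have := hdK s p hp
    rw [hD] at this
    rw [hz', add_zero]
    simp only [defect] at this
    simp [symB, this]

end Iter

/-- A family through `f` is corrected to any order by a multiple of the normal `nX`.  Up to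
second order the multiplier is `-q` times the first defect, `q = 1 / (2 coefX)` on `K`. -/
theorem exists_approx [FiniteDimensional ℝ P] {N K : Set R2} (hN : IsOpen N) (hK : IsCompact K)
    (hKN : K ⊆ N) {f : R2 → V4} (hf : ContDiff ℝ ∞ f) {G : R2 → Fin 3 → ℝ}
    (hG : ContDiff ℝ ∞ G) (h0 : ∀ p ∈ N, rdet (G p - metF f p) = 0)
    (hi : ∀ p ∈ N, detg f p ≠ 0) (hc : ∀ p ∈ N, coefX (fun _ : R2 => (1 : ℝ)) G f p ≠ 0) {H0 : P × R2 → V4}
    (hH : ContDiff ℝ ∞ H0) (hH0 : ∀ p, H0 (0, p) = f p)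
    (hoff : ∀ s, ∀ p ∉ K, H0 (s, p) = f p) :
    ∃ (χ q : R2 → ℝ) (v : R2 → V4), ContDiff ℝ ∞ q ∧ ContDiff ℝ ∞ v ∧
      (∀ p ∈ K, χ p = 1 ∧ q p = (2 * coefX (fun _ : R2 => (1 : ℝ)) G f p)⁻¹ ∧ v p = nX (fun _ : R2 => (1 : ℝ)) f p) ∧
      ∀ n : ℕ, ∃ y : P × R2 → ℝ, ContDiff ℝ ∞ y ∧ (∀ p, y (0, p) = 0) ∧
        (∀ s, ∀ p ∉ K, y (s, p) = 0) ∧
        (1 ≤ n → Ord 2 fun z => y z + q z.2 * defect G χ H0 z) ∧
        ∀ i, ∃ C, 0 ≤ C ∧ ∀ s : P, ‖s‖ ≤ 1 → ∀ p ∈ K,
          ‖iteratedFDeriv ℝ i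
            (fun x => rdet (G x - metF (fun r => H0 (s, r) + y (s, r) • v r) x)) p‖
              ≤ C * ‖s‖ ^ (n + 1) := by
  obtain ⟨χ, K', hK', hK'N, -, hχ, -, hχ1, hχ0⟩ := exists_bump hK hN hKN
  let I : Iter N K f G := ⟨χ, K', hN, hK, hKN, hK', hK'N, hχ, hχ1, hχ0, hf, hG, h0, hi, hc⟩
  obtain ⟨hq, hv⟩ := I.smooth_qv
  refine ⟨χ, I.q, I.v, hq, hv, fun p hp => ⟨I.one hp,
    by simp [Iter.q, I.one hp], by simp [Iter.v, I.one hp]⟩, fun n => ?_⟩
  suffices h : ∃ y : P × R2 → ℝ, ContDiff ℝ ∞ y ∧ (∀ p, y (0, p) = 0) ∧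
      (∀ s, ∀ p ∉ K, y (s, p) = 0) ∧ (1 ≤ n → Ord 2 fun z => y z + I.q z.2 * defect G χ H0 z) ∧
      (n = 0 → y = fun _ => 0) ∧
      Ord (n + 1) (defect G χ fun z => H0 z + y z • I.v z.2) by
    obtain ⟨y, hy, hy0, hyK, hy2, -, -, hb⟩ := h
    have hy' : ContDiff ℝ ∞ fun z => H0 z + y z • I.v z.2 :=
      hH.add (hy.smul (hv.comp contDiff_snd))
    refine ⟨y, hy, hy0, hyK, hy2, fun i => ?_⟩
    obtain ⟨C, hC, hb⟩ := hb i
    refine ⟨C, hC, fun s hs p hp => ?_⟩
    have e : (fun x => rdet (G x - metF (fun r => H0 (s, r) + y (s, r) • I.v r) x))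
        =ᶠ[𝓝 p] fun x => defect G χ (fun z => H0 z + y z • I.v z.2) (s, x) := by
      filter_upwards [hχ1 p hp] with x hx
      simp only [defect, hx, one_mul, metB_slice hy']
    rw [(e.iteratedFDeriv ℝ i).eq_of_nhds]
    exact hb s hs p
  induction n with
  | zero =>
    have h : Iter.Through (K := K) (f := f) H0 := ⟨hH, hH0, hoff⟩
    refine ⟨fun _ => 0, contDiff_const, fun _ => rfl, fun _ _ _ => rfl, by simp, fun _ => rfl, ?_⟩
    simp only [zero_smul, add_zero]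
    exact (Ord.of_compact hK (contDiff_defect hG hχ hH).1 (I.defect_zero h).2).2 (I.defect_zero h).1
  | succ n ih =>
    obtain ⟨y, hy, hy0, hyK, hy2, hyz, hO⟩ := ih
    have h : Iter.Through (K := K) (f := f) fun z => H0 z + y z • I.v z.2 :=
      ⟨hH.add (hy.smul (hv.comp contDiff_snd)), fun p => by simp [hH0, hy0],
        fun s p hp => by simp [hoff s p hp, hyK s p hp]⟩
    obtain ⟨hψ, hnew⟩ := I.step h hO
    obtain ⟨hd0, hdK⟩ := I.defect_zero h
    refine ⟨fun z => y z + -(I.q z.2 * defect G χ (fun z => H0 z + y z • I.v z.2) z),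
      hy.add hψ.1, fun p => ?_, fun s p hp => ?_, fun _ => ?_, fun h' => by omega, ?_⟩
    · have := hd0 p
      simp_all [I]
    · have := hdK s p hp
      simp_all [I]
    · rcases Nat.eq_zero_or_pos n with hn0 | hn0
      · obtain rfl := hyz hn0
        refine (congrArg (Ord 2) (funext fun z => ?_)).mp
          ((Ord.of_compact (P := P) (W := ℝ) hK (w := fun _ => 0) contDiff_const
            fun _ _ _ => rfl).2 (fun _ => rfl) |>.bilin (ContinuousLinearMap.mul ℝ ℝ)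
          ((Ord.of_compact (P := P) (W := ℝ) hK (w := fun _ => 0) contDiff_const
            fun _ _ _ => rfl).2 fun _ => rfl))
        simp
      · refine (congrArg (Ord 2) (funext fun z => ?_)).mp
          ((hy2 hn0).add (hψ.mono (show 2 ≤ n + 1 by omega)))
        show _ + _ = _
        simp only [I]
        ring
    · refine (congrArg (fun H => Ord (n + 2) (defect G χ H)) (funext fun z => ?_)).mp hnew
      simp only [I, add_smul]
      abel


end

end Vale.Agent.P205.Round1
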