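import Vale.Agent.P205.Full.Round1.Jets

/-!
# P205, round one: jets of products, and an induction on jets

`kill_jets` shows that a functional of finite jets at a point which annihilates a first order operator
`A₀ ∂x + A₁ ∂y + A₂` with `A₀ ≠ 0` annihilates every function.
-/

namespace Vale.Agent.P205.Round1

open scoped ContDiff Topology
open Set Filter Vale.Agent.P205.Full

noncomputable section

section Flat

variable {E V : Type*} [NormedAddCommGroup E] [NormedSpace ℝ E] [NormedAddCommGroup V]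
  [NormedSpace ℝ V]

/-- All derivatives of order less than `n` vanish. -/
def FlatAt (n : ℕ) (w : E → V) (y : E) : Prop := ∀ i < n, iteratedFDeriv ℝ i w y = 0

lemma flatAt_zero (w : E → V) (y : E) : FlatAt 0 w y := fun i hi => absurd hi (Nat.not_lt_zero i)

lemma FlatAt.smul {n : ℕ} {w : E → V} {h : E → ℝ} {y : E} (hw : ContDiff ℝ ∞ w)
    (hh : ContDiff ℝ ∞ h) (hn : FlatAt n w y) (h0 : h y = 0) :
    FlatAt (n + 1) (fun z => h z • w z) y := fun i hi => by
  refine norm_le_zero_iff.1 ((norm_iteratedFDeriv_smul_le hh hw y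
    (n := i) (by exact_mod_cast le_top)).trans (le_of_eq (Finset.sum_eq_zero fun j hj => ?_)))
  rcases Nat.eq_zero_or_pos j with rfl | hj0
  · simp [h0]
  · simp [hn (i - j) (by have := Finset.mem_range.1 hj; omega)]

lemma FlatAt.pow_smul {n : ℕ} {w : E → V} {h : E → ℝ} {y : E} (hw : ContDiff ℝ ∞ w)
    (hh : ContDiff ℝ ∞ h) (hn : FlatAt n w y) (h0 : h y = 0) :
    ∀ a : ℕ, FlatAt (n + a) (fun z => h z ^ a • w z) y
  | 0 => by simpa using hn
  | a + 1 => by
    have h2 := (FlatAt.pow_smul hw hh hn h0 a).smul ((hh.pow a).smul hw) hh h0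
    have e : (fun z => h z ^ (a + 1) • w z) = fun z => h z • (h z ^ a • w z) := by
      funext z; rw [smul_smul, pow_succ']
    rw [e, ← add_assoc]
    exact h2

end Flat

/-- The monomial centred at `p₀`. -/
def mono (p₀ : R2) (a b : ℕ) (p : R2) : ℝ := (p.1 - p₀.1) ^ a * (p.2 - p₀.2) ^ b

lemma contDiff_mono (p₀ : R2) (a b : ℕ) : ContDiff ℝ ∞ (mono p₀ a b) := by
  unfold mono; fun_prop

/-- A jet of order below the degree does not see the monomial. -/
lemma J_mono_smul {r a b : ℕ} (hab : r < a + b) {p₀ q : R2} {φ : R2 → R2} (hφ : ContDiff ℝ ∞ φ)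
    (hq : φ q = p₀) {w : R2 → E4} (hw : ContDiff ℝ ∞ w) :
    J r (fun x => mono p₀ a b (φ x) • w x) q = 0 := by
  have hu : ContDiff ℝ ∞ fun z => (φ (ι.symm z)).1 - p₀.1 :=
    (contDiff_fst.comp (hφ.comp ι.symm.contDiff)).sub contDiff_const
  have hv : ContDiff ℝ ∞ fun z => (φ (ι.symm z)).2 - p₀.2 :=
    (contDiff_snd.comp (hφ.comp ι.symm.contDiff)).sub contDiff_const
  have h := ((flatAt_zero (w ∘ ι.symm) (ι q)).pow_smul (contDiff_on_E2 hw) hv (by simp [hq]) b).pow_smul
    ((hv.pow b).smul (contDiff_on_E2 hw)) hu (by simp [hq]) a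
  funext i
  have hi := h (i : ℕ) (by have := i.2; omega)
  simpa [J, jetFD, mono, Function.comp_def, smul_smul] using hi

/-- A functional of `r`-jets at `p₀` annihilating a first order operator annihilates everything. -/
theorem kill_jets {r : ℕ} {p₀ : R2} (L : (R2 → ℝ) → ℝ)
    (hflat : ∀ g : R2 → ℝ, ContDiff ℝ ∞ g → ∀ a b, r < a + b →
      L (fun p => mono p₀ a b p * g p) = 0)
    (hadd : ∀ g h : R2 → ℝ, ContDiff ℝ ∞ g → ContDiff ℝ ∞ h → L (fun p => g p + h p) = L g + L h)
    (hcongr : ∀ g h : R2 → ℝ, ContDiff ℝ ∞ g → ContDiff ℝ ∞ h → g =ᶠ[𝓝 p₀] h → L g = L h)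
    {A0 A1 A2 I : R2 → ℝ} (h0 : ContDiff ℝ ∞ A0) (h1 : ContDiff ℝ ∞ A1) (h2 : ContDiff ℝ ∞ A2)
    (hI : ContDiff ℝ ∞ I) (hAI : ∀ᶠ p in 𝓝 p₀, A0 p * I p = 1)
    (hop : ∀ α : R2 → ℝ, ContDiff ℝ ∞ α →
      L (fun p => A0 p * fderiv ℝ α p (1, 0) + A1 p * fderiv ℝ α p (0, 1) + A2 p * α p) = 0) :
    ∀ g : R2 → ℝ, ContDiff ℝ ∞ g → L g = 0 := by
  suffices H : ∀ k a b : ℕ, r + 1 ≤ a + b + k → ∀ g : R2 → ℝ, ContDiff ℝ ∞ g →
      L (fun p => mono p₀ a b p * g p) = 0 by
    intro g hg
    have h := H (r + 1) 0 0 (by omega) g hg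
    simpa [mono] using h
  intro k
  induction k with
  | zero => exact fun a b hab g hg => hflat g hg a b (by omega)
  | succ k ih =>
    intro a b
    induction b using Nat.strong_induction_on generalizing a with
    | _ b ihb =>
    intro hab g hg
    set w : R2 → ℝ := fun p => g p * I p / (a + 1) with hwdef
    have hw : ContDiff ℝ ∞ w := (hg.mul hI).div_const _
    set α : R2 → ℝ := fun p => mono p₀ (a + 1) b p * w p with hαdef
    have hα : ContDiff ℝ ∞ α := (contDiff_mono _ _ _).mul hw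
    have dw : ∀ v, ContDiff ℝ ∞ fun p => fderiv ℝ w p v := fun v =>
      (hw.fderiv_right (m := ∞) le_rfl).clm_apply contDiff_const
    set R : R2 → ℝ := fun p => A0 p * fderiv ℝ w p (1, 0) + A1 p * fderiv ℝ w p (0, 1) + A2 p * w p
      with hRdef
    have hR : ContDiff ℝ ∞ R := ((h0.mul (dw _)).add (h1.mul (dw _))).add (h2.mul hw)
    set S : R2 → ℝ := fun p => A1 p * (b : ℝ) * w p with hSdef
    have hS : ContDiff ℝ ∞ S := (h1.mul contDiff_const).mul hw
    have hmain := hop α hα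
    have e : (fun p => A0 p * fderiv ℝ α p (1, 0) + A1 p * fderiv ℝ α p (0, 1) + A2 p * α p)
        =ᶠ[𝓝 p₀] fun p => mono p₀ a b p * g p +
          (mono p₀ (a + 1) (b - 1) p * S p + mono p₀ (a + 1) b p * R p) := by
      filter_upwards [hAI] with p hp
      have hd : HasFDerivAt (fun x : R2 => mono p₀ (a + 1) b x)
          ((((a + 1 : ℕ) : ℝ) * (p.1 - p₀.1) ^ a * (p.2 - p₀.2) ^ b) • ContinuousLinearMap.fst ℝ ℝ ℝ
            + ((p.1 - p₀.1) ^ (a + 1) * ((b : ℝ) * (p.2 - p₀.2) ^ (b - 1)))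
              • ContinuousLinearMap.snd ℝ ℝ ℝ) p := by
        have hx := ((hasFDerivAt_fst (𝕜 := ℝ) (p := p)).sub_const p₀.1).pow (a + 1)
        have hy := ((hasFDerivAt_snd (𝕜 := ℝ) (p := p)).sub_const p₀.2).pow b
        refine (hx.fun_mul hy).congr_fderiv ?_
        refine ContinuousLinearMap.ext fun v => ?_
        simp [nsmul_eq_mul]
        ring
      have hwd := ((hw.differentiable (by simp)) p).hasFDerivAt
      have hαd : HasFDerivAt α _ p := hd.fun_mul hwd
      rw [hαd.fderiv]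
      have hg' : A0 p * ((a : ℝ) + 1) * w p = g p := by
        simp only [w]
        field_simp
        linear_combination g p * hp
      simp only [add_apply, smul_apply, ContinuousLinearMap.coe_fst', ContinuousLinearMap.coe_snd',
        smul_eq_mul, mul_one, mul_zero, add_zero, zero_add, α, R, S]
      rw [← hg']
      unfold mono
      push_cast
      ring
    have sm : ∀ a b, ∀ {u : R2 → ℝ}, ContDiff ℝ ∞ u → ContDiff ℝ ∞ fun p => mono p₀ a b p * u p :=
      fun a b _ hu => (contDiff_mono p₀ a b).mul hu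
    rw [hcongr _ _ (by
        have := fun v => (hα.fderiv_right (m := ∞) le_rfl).clm_apply (contDiff_const (c := v))
        exact ((h0.mul (this _)).add (h1.mul (this _))).add (h2.mul hα))
        ((sm _ _ hg).add ((sm _ _ hS).add (sm _ _ hR))) e] at hmain
    rw [hadd _ _ (sm _ _ hg) ((sm _ _ hS).add (sm _ _ hR)),
      hadd _ _ (sm _ _ hS) (sm _ _ hR), ih (a + 1) b (by omega) R hR, add_zero] at hmain
    have hzero : L (fun p => mono p₀ (a + 1) (b - 1) p * S p) = 0 := by
      rcases Nat.eq_zero_or_pos b with rfl | hb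
      · exact ih (a + 1) 0 (by omega) S hS
      · exact ihb (b - 1) (by omega) (a + 1) (by omega) S hS
    linarith

end

end Vale.Agent.P205.Round1
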