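import Vale.Agent.P205.Full.Round1.Family
import Vale.Agent.P205.Full.Round1.Flat

/-!
# P205, round one: the admissible directions fill the jets

A direction is a field `X` and a motion `α` of the chart along the first coordinate; the variation
read in the moving chart `φ` is `(X + c (X) nX - α f_x) ∘ φ`.  A functional of jets which
annihilates all of them annihilates every field.
-/

namespace Vale.Agent.P205.Round1

open scoped ContDiff Topology RealInnerProductSpace
open Set Filter Vale.Agent.P205.Full Vale.Agent.P205.Algebra Vale.Agent.P205.Bridge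
  Vale.Agent.P205.Correction

noncomputable section

/-- The coefficient of the correcting multiple of `nX`. -/
def corrC (G : R2 → Fin 3 → ℝ) (f X : R2 → V4) (p : R2) : ℝ :=
  mdet (G p - metF f p) (linM f X p) / coefX (fun _ : R2 => (1 : ℝ)) G f p

/-- The variation of a direction. -/
def vdir (G : R2 → Fin 3 → ℝ) (f X : R2 → V4) (α : R2 → ℝ) (p : R2) : V4 :=
  X p + corrC G f X p • nX (fun _ : R2 => (1 : ℝ)) f p - α p • Algebra.dx f p

/-- The symbol of the correction along `x`. -/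
def tilt (G : R2 → Fin 3 → ℝ) (f : R2 → V4) (p : R2) : ℝ :=
  mdet (G p - metF f p) ![2 * g11 f p, g12 f p, 0]

variable {N K : Set R2} {f : R2 → V4} {G : R2 → Fin 3 → ℝ}

/-- A function which is smooth on `N` and vanishes off a compact subset is smooth. -/
lemma contDiff_of_support {V : Type*} [NormedAddCommGroup V] [NormedSpace ℝ V] (hN : IsOpen N)
    (hK : IsCompact K) (hKN : K ⊆ N) {u : R2 → V} (hu : ContDiffOn ℝ ∞ u N)
    (h0 : ∀ p ∉ K, u p = 0) : ContDiff ℝ ∞ u := by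
  refine contDiff_iff_contDiffAt.2 fun p => ?_
  by_cases hp : p ∈ K
  · exact hu.contDiffAt (hN.mem_nhds (hKN hp))
  · exact (contDiffAt_const (c := (0 : V))).congr_of_eventuallyEq
      (eventually_of_mem (hK.isClosed.isOpen_compl.mem_nhds hp) fun q hq => h0 q hq)

lemma linM_zero {X : R2 → V4} (hK : IsCompact K) (hX0 : ∀ p ∉ K, X p = 0) {p : R2} (hp : p ∉ K) :
    linM f X p = 0 := by
  have e : X =ᶠ[𝓝 p] fun _ => 0 :=
    eventually_of_mem (hK.isClosed.isOpen_compl.mem_nhds hp) fun q hq => hX0 q hq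
  funext l
  fin_cases l <;> simp [linM, Algebra.dx, Algebra.dy, e.fderiv_eq]

variable (hN : IsOpen N) (hf : ContDiff ℝ ∞ f) (hG : ContDiff ℝ ∞ G)
  (hi : ∀ p ∈ N, detg f p ≠ 0) (hc : ∀ p ∈ N, coefX (fun _ : R2 => (1 : ℝ)) G f p ≠ 0)
include hN hf hG hi hc

/-- The correction coefficient and the variation are smooth. -/
lemma contDiff_vdir (hK : IsCompact K) (hKN : K ⊆ N) {X : R2 → V4} (hX : ContDiff ℝ ∞ X)
    (hX0 : ∀ p ∉ K, X p = 0) :
    ContDiff ℝ ∞ (corrC G f X) ∧ ContDiff ℝ ∞ (fun p => corrC G f X p • nX (fun _ : R2 => (1 : ℝ)) f p) ∧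
      ∀ α : R2 → ℝ, ContDiff ℝ ∞ α → ContDiff ℝ ∞ (vdir G f X α) := by
  obtain ⟨h1, h2⟩ := contDiff_first hf
  obtain ⟨x1, x2⟩ := contDiff_first hX
  have hM : ContDiff ℝ ∞ (linM f X) := by
    refine contDiff_pi.2 fun l => ?_
    fin_cases l
    exacts [contDiff_const.mul (h1.inner ℝ x1), (h1.inner ℝ x2).add (h2.inner ℝ x1),
      contDiff_const.mul (h2.inner ℝ x2)]
  have hE : ContDiff ℝ ∞ fun p => G p - metF f p := by
    refine hG.sub (contDiff_pi.2 fun l => ?_)
    fin_cases l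
    exacts [h1.inner ℝ h1, h1.inner ℝ h2, h2.inner ℝ h2]
  obtain ⟨hn, hco⟩ := contDiffOn_nX hf hi G hG
  have hnum : ContDiff ℝ ∞ fun p => mdet (G p - metF f p) (linM f X p) :=
    contDiff_bilin mdet hE hM
  have hC : ContDiff ℝ ∞ (corrC G f X) :=
    contDiff_of_support hN hK hKN (hnum.contDiffOn.div hco hc)
      fun p hp => by simp [corrC, linM_zero hK hX0 hp]
  have hv : ContDiff ℝ ∞ fun p => corrC G f X p • nX (fun _ : R2 => (1 : ℝ)) f p :=
    contDiff_of_support hN hK hKN (hC.contDiffOn.smul hn)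
      fun p hp => by simp [corrC, linM_zero hK hX0 hp]
  exact ⟨hC, hv, fun α hα => (hX.add hv).sub (hα.smul h1)⟩

/-- A functional of jets annihilating all admissible variations annihilates everything. -/
theorem directions_fill (hK : IsCompact K) (hKN : K ⊆ N) {φ : R2 → R2} (hφ : ContDiff ℝ ∞ φ)
    {q : R2} (hq : φ q ∈ interior K) (hinj : Function.Injective (fderiv ℝ φ q))
    (ht : tilt G f (φ q) ≠ 0) {r : ℕ} (ℓ : Jet r →L[ℝ] ℝ)
    (hker : ∀ (X : R2 → V4) (α : R2 → ℝ), ContDiff ℝ ∞ X → ContDiff ℝ ∞ α → (∀ p ∉ K, X p = 0) →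
      (∀ p ∉ K, α p = 0) → ℓ (J r (vdir G f X α ∘ φ) q) = 0) :
    ∀ Z : R2 → V4, ContDiff ℝ ∞ Z → ℓ (J r Z q) = 0 := by
  set p₀ := φ q with hp₀
  obtain ⟨h1, h2⟩ := contDiff_first hf
  have h11 := (contDiff_first h1).1
  have h12 := (contDiff_first h1).2
  obtain ⟨hn, hco⟩ := contDiffOn_nX hf hi G hG
  have hpN : p₀ ∈ N := hKN (interior_subset hq)
  have hE : ContDiff ℝ ∞ fun p => G p - metF f p := by
    refine hG.sub (contDiff_pi.2 fun l => ?_)
    fin_cases l
    exacts [h1.inner ℝ h1, h1.inner ℝ h2, h2.inner ℝ h2]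
  set E := fun p => G p - metF f p
  set c0 := fun p => ![2 * g11 f p, g12 f p, 0] with hc0
  set c1 := fun p => ![0, g11 f p, 2 * g12 f p] with hc1
  set c2 := fun p => ![2 * ⟪Algebra.dx f p, F11 f p⟫,
    ⟪Algebra.dx f p, F12 f p⟫ + ⟪Algebra.dy f p, F11 f p⟫, 2 * ⟪Algebra.dy f p, F12 f p⟫] with hc2
  have sc : ContDiff ℝ ∞ c0 ∧ ContDiff ℝ ∞ c1 ∧ ContDiff ℝ ∞ c2 := by
    refine ⟨contDiff_pi.2 fun l => ?_, contDiff_pi.2 fun l => ?_, contDiff_pi.2 fun l => ?_⟩ <;>
      fin_cases l <;> simp [c0, c1, c2, g11, g12, -inner_self_eq_norm_sq_to_K]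
    exacts [contDiff_const.mul (h1.inner ℝ h1), h1.inner ℝ h2, contDiff_const,
      contDiff_const, h1.inner ℝ h1, contDiff_const.mul (h1.inner ℝ h2),
      contDiff_const.mul (h1.inner ℝ h11), (h1.inner ℝ h12).add (h2.inner ℝ h11),
      contDiff_const.mul (h2.inner ℝ h12)]
  have sN : ∀ {c : R2 → Fin 3 → ℝ}, ContDiff ℝ ∞ c →
      ContDiffOn ℝ ∞ (fun p => mdet (E p) (c p) / coefX (fun _ : R2 => (1 : ℝ)) G f p) N := fun h =>
    (contDiff_bilin mdet hE h).contDiffOn.div hco hc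
  set W : Set R2 := interior K ∩ (fun p => mdet (E p) (c0 p)) ⁻¹' {0}ᶜ with hW
  have hWo : IsOpen W := isOpen_interior.inter
    (isOpen_compl_singleton.preimage (contDiff_bilin mdet hE sc.1).continuous)
  obtain ⟨b⟩ : Nonempty (∃ θ : R2 → ℝ, ContDiff ℝ ∞ θ ∧ θ =ᶠ[𝓝 p₀] 1 ∧
      ∃ S, IsCompact S ∧ S ⊆ W ∧ ∀ p ∉ S, θ p = 0) := by
    obtain ⟨ε, hε, hεW⟩ := Metric.isOpen_iff.1 hWo p₀ ⟨hq, ht⟩
    let b : ContDiffBump p₀ := ⟨ε / 4, ε / 2, by linarith, by linarith⟩
    exact ⟨b, b.contDiff, b.eventuallyEq_one, Metric.closedBall p₀ (ε / 2),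
      isCompact_closedBall _ _, (Metric.closedBall_subset_ball (by linarith)).trans hεW,
      fun p hp => by
        rw [← Function.notMem_support, b.support_eq]
        exact fun h => hp (Metric.ball_subset_closedBall h)⟩
  obtain ⟨θ, hθ, hθ1, S, hS, hSW, hθ0⟩ := b
  have hSK : S ⊆ K := fun p hp => interior_subset (hSW hp).1
  have hSN : S ⊆ N := hSK.trans hKN
  have hoff : ∀ p ∉ K, θ p = 0 := fun p hp => hθ0 p fun h => hp (hSK h)
  have cut : ∀ {V : Type} [NormedAddCommGroup V] [NormedSpace ℝ V] {u : R2 → V},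
      ContDiffOn ℝ ∞ u N → ContDiff ℝ ∞ fun p => θ p • u p := fun hu =>
    contDiff_cut hN hθ hS hSN hθ0 hu
  set NX : R2 → V4 := fun p => θ p • nX (fun _ : R2 => (1 : ℝ)) f p
  have hNX : ContDiff ℝ ∞ NX := cut hn
  set A0 : R2 → ℝ := fun p => θ p • (mdet (E p) (c0 p) / coefX (fun _ : R2 => (1 : ℝ)) G f p)
  set A1 : R2 → ℝ := fun p => θ p • (mdet (E p) (c1 p) / coefX (fun _ : R2 => (1 : ℝ)) G f p)
  set A2 : R2 → ℝ := fun p => θ p • (mdet (E p) (c2 p) / coefX (fun _ : R2 => (1 : ℝ)) G f p)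
  set I : R2 → ℝ := fun p => θ p • (coefX (fun _ : R2 => (1 : ℝ)) G f p / mdet (E p) (c0 p))
  have hI : ContDiff ℝ ∞ I := contDiff_cut hWo hθ hS hSW hθ0
    ((hco.mono (inter_subset_left.trans (interior_subset.trans hKN))).div
      (contDiff_bilin mdet hE sc.1).contDiffOn fun p hp => hp.2)
  have hWN : W ∈ 𝓝 p₀ := hWo.mem_nhds ⟨hq, ht⟩
  let L : (R2 → ℝ) → ℝ := fun g => ℓ (J r (fun x => g (φ x) • NX (φ x)) q)
  have hLs : ∀ {g : R2 → ℝ}, ContDiff ℝ ∞ g → ContDiff ℝ ∞ fun x => g (φ x) • NX (φ x) :=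
    fun hg => (hg.comp hφ).smul (hNX.comp hφ)
  have germ : ∀ {u w : R2 → V4}, u =ᶠ[𝓝 p₀] w → J r (u ∘ φ) q = J r (w ∘ φ) q := fun h =>
    J_congr r (h.comp_tendsto (hφ.continuous.tendsto q))
  have hL0 : ∀ g : R2 → ℝ, ContDiff ℝ ∞ g → L g = 0 := by
    refine kill_jets (r := r) (p₀ := p₀) L (fun g hg a b hab => ?_) (fun g h hg hh => ?_)
      (fun g h hg hh e => congrArg ℓ (germ (u := fun p => g p • NX p) (w := fun p => h p • NX p)
        (e.mono fun p hp => congrArg (fun t : ℝ => t • NX p) hp)))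
      (cut (sN sc.1)) (cut (sN sc.2.1)) (cut (sN sc.2.2)) hI ?_ ?_
    · show ℓ _ = 0
      simp only [mul_smul]
      rw [J_mono_smul hab hφ hp₀.symm (hLs hg), map_zero]
    · show ℓ _ = ℓ _ + ℓ _
      simp only [add_smul]
      rw [J_add r (hLs hg) (hLs hh), map_add]
    · filter_upwards [hθ1, hWN] with p hp hpW
      have := hc p (hKN (interior_subset hpW.1))
      have h3 : mdet (E p) (c0 p) ≠ 0 := hpW.2
      simp only [A0, I, hp, Pi.one_apply, one_smul]
      field_simp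
    · intro α hα
      set β : R2 → ℝ := fun p => θ p * α p
      have hβ : ContDiff ℝ ∞ β := hθ.mul hα
      set X : R2 → V4 := fun p => β p • Algebra.dx f p
      have hX : ContDiff ℝ ∞ X := hβ.smul h1
      have hX0 : ∀ p ∉ K, X p = 0 := fun p hp => by simp [X, β, hoff p hp]
      refine Eq.trans (congrArg ℓ (germ (u := fun p => (A0 p * fderiv ℝ α p (1, 0)
          + A1 p * fderiv ℝ α p (0, 1) + A2 p * α p) • NX p) (w := vdir G f X β) ?_))
        (hker X β hX hβ hX0 fun p hp => by simp [β, hoff p hp])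
      filter_upwards [hθ1.eventuallyEq_nhds, hWN] with p hp hpW
      have hβe : β =ᶠ[𝓝 p] α := hp.mono fun y hy => by simp [β, hy]
      have eX : X =ᶠ[𝓝 p] fun y => α y • Algebra.dx f y :=
        hβe.mono fun y hy => by simp [X, hy]
      have hp1 : θ p = 1 := by simpa using hp.eq_of_nhds
      have dα := (hα.differentiable (by simp)) p
      have dd := (h1.differentiable (by simp)) p
      have ed : ∀ v, fderiv ℝ X p v = fderiv ℝ α p v • Algebra.dx f p
          + α p • fderiv ℝ (Algebra.dx f) p v := fun v => by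
        rw [eX.fderiv_eq, fderiv_fun_smul dα dd]
        simp [add_comm]
      have ex : Algebra.dx X p = fderiv ℝ α p (1, 0) • Algebra.dx f p + α p • F11 f p := ed _
      have ey : Algebra.dy X p = fderiv ℝ α p (0, 1) • Algebra.dx f p + α p • F12 f p := ed _
      have el : linM f X p = fderiv ℝ α p (1, 0) • c0 p + fderiv ℝ α p (0, 1) • c1 p
          + α p • c2 p := by
        funext l
        fin_cases l <;> simp [linM, ex, ey, c0, c1, c2, g11, g12, inner_add_right,
          inner_smul_right, real_inner_comm (Algebra.dx f p) (Algebra.dy f p)] <;> ring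
      simp only [vdir, corrC, el, map_add, map_smul, smul_eq_mul, X, β, A0, A1, A2, NX, hp1,
        one_smul, one_mul, E]
      rw [add_sub_cancel_left]
      congr 1
      ring
  have hfull : ∀ X : R2 → V4, ContDiff ℝ ∞ X → (∀ p ∉ K, X p = 0) → ℓ (J r (X ∘ φ) q) = 0 := by
    intro X hX hX0
    obtain ⟨hC, hv, -⟩ := contDiff_vdir hN hf hG hi hc hK hKN hX hX0
    have h := hker X (fun _ => 0) hX contDiff_const hX0 fun _ _ => rfl
    rw [show vdir G f X (fun _ => 0) ∘ φ = fun x => X (φ x) + corrC G f X (φ x) • nX (fun _ : R2 => (1 : ℝ)) f (φ x) from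
      funext fun x => by simp [vdir], J_add r (f := fun x => X (φ x))
        (g := fun x => corrC G f X (φ x) • nX (fun _ : R2 => (1 : ℝ)) f (φ x)) (hX.comp hφ) (hv.comp hφ), map_add] at h
    have e : ℓ (J r (fun x => corrC G f X (φ x) • nX (fun _ : R2 => (1 : ℝ)) f (φ x)) q) = L (corrC G f X) :=
      congrArg ℓ (germ (u := fun p => corrC G f X p • nX (fun _ : R2 => (1 : ℝ)) f p)
        (w := fun p => corrC G f X p • NX p) (hθ1.mono fun p hp => by simp [NX, hp]))
    rw [e, hL0 _ hC, add_zero] at h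
    exact h
  intro Z hZ
  obtain ⟨e, he⟩ : ∃ e : R2 ≃L[ℝ] R2, (e : R2 →L[ℝ] R2) = fderiv ℝ φ q :=
    ⟨ContinuousLinearEquiv.ofBijective (fderiv ℝ φ q) (LinearMap.ker_eq_bot.2 hinj)
      (LinearMap.range_eq_top.2
        ((LinearMap.injective_iff_surjective (f := (fderiv ℝ φ q : R2 →ₗ[ℝ] R2))).1 hinj)), rfl⟩
  have hd : HasFDerivAt φ (e : R2 →L[ℝ] R2) q := by
    rw [he]; exact ((hφ.differentiable (by simp)) q).hasFDerivAt
  set ψ := (hφ.contDiffAt (x := q)).toOpenPartialHomeomorph φ hd (by simp) with hψ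
  have hmem : q ∈ ψ.source := (hφ.contDiffAt).mem_toOpenPartialHomeomorph_source hd (by simp)
  have himg : p₀ ∈ ψ.target := (hφ.contDiffAt).image_mem_toOpenPartialHomeomorph_target hd (by simp)
  let inv : R2 → R2 := ⇑ψ.symm
  have hinv0 : inv p₀ = q := ψ.left_inv hmem
  have hsmooth : ∀ y ∈ ψ.target, Function.Injective (fderiv ℝ φ (inv y)) →
      ContDiffAt ℝ ∞ inv y := fun y hy hy' =>
    ψ.contDiffAt_symm hy (f₀' := ContinuousLinearEquiv.ofBijective (fderiv ℝ φ (inv y))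
      (LinearMap.ker_eq_bot.2 hy') (LinearMap.range_eq_top.2
        ((LinearMap.injective_iff_surjective (f := (fderiv ℝ φ (inv y) : R2 →ₗ[ℝ] R2))).1 hy')))
      ((hφ.differentiable (by simp)) _).hasFDerivAt hφ.contDiffAt
  obtain ⟨ε, hε, hεS⟩ : ∃ ε > 0, ∀ x ∈ Metric.ball p₀ ε, x ∈ interior K ∧ ContDiffAt ℝ ∞ inv x := by
    have hj : ∀ᶠ y in 𝓝 p₀, Function.Injective (fderiv ℝ φ (inv y)) :=
      (((hφ.continuous_fderiv (by simp)).continuousAt).comp (ψ.continuousAt_symm himg)).eventually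
        (ContinuousLinearMap.isOpen_injective.mem_nhds
          (by rw [Function.comp_apply, show ψ.symm p₀ = q from hinv0]; exact hinj))
    obtain ⟨ε, hε, h⟩ := Metric.eventually_nhds_iff.1 ((isOpen_interior.eventually_mem hq).and
      ((ψ.open_target.eventually_mem himg).and hj))
    exact ⟨ε, hε, fun x hx => ⟨(h (Metric.mem_ball.1 hx)).1,
      hsmooth x (h (Metric.mem_ball.1 hx)).2.1 (h (Metric.mem_ball.1 hx)).2.2⟩⟩
  let bb : ContDiffBump p₀ := ⟨ε / 4, ε / 2, by linarith, by linarith⟩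
  set X : R2 → V4 := fun p => bb p • Z (inv p)
  have hbs : ∀ p ∉ Metric.closedBall p₀ (ε / 2), bb p = 0 := fun p hp => by
    rw [← Function.notMem_support, bb.support_eq]
    exact fun h => hp (Metric.ball_subset_closedBall h)
  have hX : ContDiff ℝ ∞ X := contDiff_cut Metric.isOpen_ball bb.contDiff
    (isCompact_closedBall p₀ (ε / 2)) (Metric.closedBall_subset_ball (by linarith)) hbs
    fun p hp => ((hZ.contDiffAt).comp p (hεS p hp).2).contDiffWithinAt
  have hX0 : ∀ p ∉ K, X p = 0 := fun p hp => by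
    show bb p • _ = 0
    rw [hbs p fun h => hp (interior_subset
      (hεS p (Metric.closedBall_subset_ball (by linarith) h)).1), zero_smul]
  have hleft : ∀ᶠ x in 𝓝 q, inv (φ x) = x := ψ.eventually_left_inverse hmem
  have e1 : X ∘ φ =ᶠ[𝓝 q] Z := by
    filter_upwards [hleft, (hφ.continuous.tendsto q).eventually bb.eventuallyEq_one] with x hx hb
    simp only [Pi.one_apply] at hb
    show bb (φ x) • Z (inv (φ x)) = Z x
    rw [hb, hx, one_smul]
  rw [← J_congr r e1]
  exact hfull X hX hX0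

end

end Vale.Agent.P205.Round1
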