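import Vale.Agent.P205.Full.Round1.Jets
import Vale.Agent.P205.Full.Round1.Directions
import Vale.Agent.P205.Generic.Smooth

/-!
# P205, round one: the conditions of the strata are functions of jets

The functionals of the stages are `CF` on nondegenerate maps, and they feed the criterion.
-/

namespace Vale.Agent.P205.Round1

open scoped ContDiff RealInnerProductSpace
open Vale.Agent.P205.Full Vale.Agent.P205.Algebra
open Vale.Agent.P205.Generic (one Cls Closed Framed tq jac sx dck kdet quad0 sexticPoly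
  eval_sexticPoly sextic qform h0 h1 K11 K12 K22)

noncomputable section

variable {U : Type*} [NormedAddCommGroup U] [NormedSpace ℝ U]

/-- Three jet functions as one. -/
theorem cf_vec3 {φ : R2 → E2} {ND : (E2 → E4) → R2 → Prop} {c₀ c₁ c₂ : (R2 → E4) → R2 → U}
    (h₀ : CF φ ND c₀) (h₁ : CF φ ND c₁) (h₂ : CF φ ND c₂) :
    CF φ ND fun F p l => ![c₀, c₁, c₂] l F p := by
  refine ((h₀.prod (h₁.prod h₂)).comp (h := fun z : U × U × U => ![z.1, z.2.1, z.2.2])
    (contDiff_pi.2 fun l => ?_)).congr fun F p => ?_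
  · fin_cases l
    exacts [contDiff_fst, contDiff_fst.comp contDiff_snd, contDiff_snd.comp contDiff_snd]
  · funext l
    fin_cases l <;> rfl

/-- The class of jet functions, as a class of functionals. -/
def clsJet : Cls := fun _ _ _ Φ => CF ι (NDeg ι) (Φ one)

lemma closed_jet : Closed clsJet :=
  { const := fun v => JF.const v
    add := fun h h' => JF.add h h'
    bilin := fun L h h' => JF.map₂ h h' (h := fun a b => L a b)
      ((L.contDiff.comp contDiff_fst).clm_apply contDiff_snd)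
    dx := fun h => cf_dx ι.contDiff h
    dy := fun h => cf_dy ι.contDiff h }

lemma framed_jet : Framed clsJet :=
  { toClosed := closed_jet
    base := JF.base
    comp := fun hg h => JF.comp h hg
    idet := fun h => cf_rinv ι.contDiff h fun _ _ _ hp => hp.1
    iW := fun h => cf_rinv ι.contDiff h fun _ _ _ hp => hp.2 }

theorem cf_cP : CF ι (NDeg ι) (cP one) := framed_jet.inv0.cP
theorem cf_cR : CF ι (NDeg ι) (cR one) := framed_jet.inv0.cR
theorem cf_tq : CF ι (NDeg ι) tq := framed_jet.inv0.tq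
theorem cf_jac : CF ι (NDeg ι) jac := framed_jet.inv0.jac
theorem cf_dck (k : ℕ) : CF ι (NDeg ι) (dck k) := framed_jet.inv0.dck k
theorem cf_kdet (j k : ℕ) : CF ι (NDeg ι) (kdet j k) := framed_jet.inv0.kdet j k
theorem cf_mainMult : CF ι (NDeg ι) (mainMult one) := framed_jet.inv0.mainMult
theorem cf_quad0 : CF ι (NDeg ι) (quad0 one) := framed_jet.inv0.quad0
theorem cf_k1 : CF ι (NDeg ι) (k1 one) := framed_jet.inv0.k1

theorem cf_sx (k : ℕ) : CF ι (NDeg ι) (sx k) := by
  let g : ℕ → (ℝ × ℝ × ℝ × ℝ × ℝ) × ℝ → ℝ := fun k z =>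
    (Polynomial.derivative^[k]
      (sexticPoly z.1.1 z.1.2.1 z.1.2.2.1 z.1.2.2.2.1 z.1.2.2.2.2)).eval z.2
  have hg : ∀ k, ContDiff ℝ ∞ (g k) := by
    intro k
    induction k with
    | zero =>
      rw [show g 0 = fun z => sextic z.1.1 z.1.2.1 z.2 z.1.2.2.1 z.1.2.2.2.1 z.1.2.2.2.2 from
        funext fun z => eval_sexticPoly _ _ _ _ _ _]
      simp only [sextic, qform, h0, h1, K11, K12, K22]
      fun_prop
    | succ k ih =>
      convert (ih.fderiv_right (m := ∞) le_rfl).clm_apply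
        (contDiff_const (c := ((0 : ℝ × ℝ × ℝ × ℝ × ℝ), (1 : ℝ)))) using 1
      funext z
      have h2 := ((ih.differentiable (by simp) z).hasFDerivAt.comp z.2
        (hasFDerivAt_prodMk_right z.1 z.2)).hasDerivAt.deriv
      simp only [g, Function.iterate_succ_apply', Function.comp_def, ← Polynomial.deriv] at h2 ⊢
      exact h2
  have h := framed_jet.inv0
  exact framed_jet.comp (hg k) (h.pair
    (h.pair h.ca (h.pair h.cb (h.pair (h.dy h.cP) (h.pair (h.dx h.cR) (h.dy h.cR))))) (h.dx h.cP))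

/-- Nondegeneracy of the metric alone. -/
def ND1 (F : E2 → E4) (p : R2) : Prop := detg (F ∘ ι) p ≠ 0

theorem cf_detg : CF ι ND1 detg := (cf_metric ι.contDiff).2.2.2

theorem cf_nX : CF ι ND1 (nX one) := by
  obtain ⟨h1, h2⟩ := cf_first (ND := ND1) ι.contDiff
  obtain ⟨h11, -, -⟩ := cf_second (ND := ND1) ι.contDiff
  obtain ⟨m11, m12, m22, md⟩ := cf_metric (ND := ND1) ι.contDiff
  have hi : CF ι ND1 fun F => rinv one (detg F) := cf_rinv ι.contDiff md fun _ _ _ hp => hp
  have hv1 : CF ι ND1 (v1 one) := hi.smul ((m22.smul h1).sub (m12.smul h2))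
  have hv2 : CF ι ND1 (v2 one) := hi.smul ((m11.smul h2).sub (m12.smul h1))
  exact (h11.sub ((h11.inner' h1).smul hv1)).sub ((h11.inner' h2).smul hv2)

variable {G : R2 → Fin 3 → ℝ} (hG : ContDiff ℝ ∞ G)
include hG

theorem cf_coefX : CF ι ND1 (coefX one G) := by
  obtain ⟨h11, h12, h22⟩ := cf_second (ND := ND1) ι.contDiff
  obtain ⟨m11, m12, m22, -⟩ := cf_metric (ND := ND1) ι.contDiff
  have g : ∀ i, JF (ι : R2 → E2) ND1 fun _ p => G p i := fun i => JF.fix (contDiff_pi.1 hG i)
  exact (((g 0).sub m11).mul (h22.inner' cf_nX) |>.add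
    (((g 2).sub m22).mul (h11.inner' cf_nX))).sub
    (((JF.const (2 : ℝ)).mul ((g 1).sub m12)).mul (h12.inner' cf_nX))

theorem cf_coefRaw : CF ι ND1 (coefRaw G) := by
  obtain ⟨h11, h12, h22⟩ := cf_second (ND := ND1) ι.contDiff
  obtain ⟨m11, m12, m22, -⟩ := cf_metric (ND := ND1) ι.contDiff
  have g : ∀ i, JF (ι : R2 → E2) ND1 fun _ p => G p i := fun i => JF.fix (contDiff_pi.1 hG i)
  exact (((g 0).sub m11).mul (h22.inner' h11) |>.add
    (((g 2).sub m22).mul (h11.inner' h11))).sub
    (((JF.const (2 : ℝ)).mul ((g 1).sub m12)).mul (h12.inner' h11))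

theorem cf_tilt : CF ι ND1 (tilt G) := by
  obtain ⟨m11, m12, m22, -⟩ := cf_metric (ND := ND1) ι.contDiff
  have g : ∀ i, JF (ι : R2 → E2) ND1 fun _ p => G p i := fun i => JF.fix (contDiff_pi.1 hG i)
  refine ((((g 2).sub m22).mul m11).sub (((g 1).sub m12).mul m12)).congr fun F p => ?_
  simp only [tilt, mdet_apply, metF, Pi.sub_apply, Matrix.cons_val_zero, Matrix.cons_val_one, Matrix.cons_val]
  ring

omit hG

/-- A nonzero multiplier or determinant of the chain makes the criterion nonzero. -/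
theorem criterion_ne_of_parts {g : R2 → V4} {q : R2}
    (h : mainMult one g q ≠ 0 ∨ ∃ j k, j < k ∧ k ≤ 5 ∧ kdet j k g q ≠ 0) :
    criterion one g q ≠ 0 := by
  have hs : ∀ k, 0 ≤ ∑ j ∈ Finset.range k, detChain one g j k q ^ 2 := fun k =>
    Finset.sum_nonneg fun _ _ => sq_nonneg _
  refine ne_of_gt ?_
  rw [criterion]
  rcases h with h | ⟨j, k, hjk, hk, h⟩
  · exact add_pos_of_pos_of_nonneg (sq_pos_iff.2 h) (Finset.sum_nonneg fun k _ => hs k)
  · have hd : detChain one g j k q ≠ 0 := fun e => h (by rw [kdet, e, mul_zero])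
    refine add_pos_of_nonneg_of_pos (sq_nonneg _) (lt_of_lt_of_le (sq_pos_iff.2 hd) ?_)
    exact (Finset.single_le_sum (f := fun j => detChain one g j k q ^ 2) (fun _ _ => sq_nonneg _)
      (Finset.mem_range.2 hjk)).trans
        (Finset.single_le_sum (fun k _ => hs k) (Finset.mem_range.2 (by omega)))

/-- On `c = 0` the Jacobian and the sextic give the multiplier. -/
theorem mainMult_ne_of_jac_sx {g : R2 → V4} (hg : ContDiff ℝ ∞ g) {q : R2} (hd : detg g q ≠ 0)
    (hw : Wsq one g q ≠ 0) (hP : cP one g q = 0) (hR : cR one g q = 0) (hj : jac g q ≠ 0)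
    (hs : sx 0 g q ≠ 0) : mainMult one g q ≠ 0 := by
  rw [Generic.mainMult_eq_of_zero_at isOpen_univ hg.contDiffOn (Set.mem_univ q) hd hw hP hR]
  exact mul_ne_zero (pow_ne_zero 2 hj) hs

end

end Vale.Agent.P205.Round1
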