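import Vale.Agent.P205.Full.Algebra.Scalar
import Vale.Agent.P205.Full.Bridge.Exact

/-!
# P205, round one: exact correction of a small change in a plane cell

`exists_exact_near` turns a map which solves the rank one equation `rdet (G - metF F0) = 0` up to
`δ ^ n` on a compact subset `K` of the cell into an exact solution which is `δ ^ k` close in
`C ^ m`.  The hypothesis on `coefRaw` makes the regularised coefficient positive.
-/

namespace Vale.Agent.P205.Round1

open scoped ContDiff Topology RealInnerProductSpace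
open Set Filter Finset Vale.Agent.P205.Correction Vale.Agent.P205.Algebra Vale.Agent.P205.Bridge
  Vale.Agent.P205.Bridge.Cell

noncomputable section

/-- The coefficient with `F_xx` in place of its normal part. -/
def coefRaw (g : R2 → Fin 3 → ℝ) (F : R2 → V4) (p : R2) : ℝ :=
  (g p 0 - g11 F p) * ⟪F22 F p, F11 F p⟫ + (g p 2 - g22 F p) * ⟪F11 F p, F11 F p⟫
    - 2 * (g p 1 - g12 F p) * ⟪F12 F p, F11 F p⟫

lemma rdet_smul (c : ℝ) (u : Fin 3 → ℝ) : rdet (c • u) = c ^ 2 * rdet u := by
  simp [rdet]; ring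

/-- The regularised coefficient is a mean of the coefficient and the raw one. -/
lemma coefX_eq_mean {η : R2 → ℝ} {g : R2 → Fin 3 → ℝ} {F : R2 → V4} {p : R2}
    (hd : 0 < detg F p) (hη : η p ≤ 1) :
    coefX η g F p = detg F p / (detg F p + (1 - η p)) * coefX (fun _ : R2 => (1 : ℝ)) g F p
      + (1 - detg F p / (detg F p + (1 - η p))) * coefRaw g F p := by
  have h1 : rinv η (detg F) p
      = detg F p / (detg F p + (1 - η p)) * rinv (fun _ : R2 => (1 : ℝ)) (detg F) p := by
    have : detg F p + (1 - η p) ≠ 0 := by linarith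
    simp only [rinv, sub_self, add_zero]
    field_simp
  set θ := detg F p / (detg F p + (1 - η p))
  have hn : nX η F p = θ • nX (fun _ : R2 => (1 : ℝ)) F p + (1 - θ) • F11 F p := by
    simp only [nX, v1, v2, h1, mul_smul]
    module
  simp only [coefX, coefRaw, hn, inner_add_right, inner_smul_right]
  ring

lemma coefX_ge {η : R2 → ℝ} {g : R2 → Fin 3 → ℝ} {F : R2 → V4} {p : R2} {γ : ℝ}
    (hd : 0 < detg F p) (hη : η p ≤ 1) (h1 : γ ≤ coefX (fun _ : R2 => (1 : ℝ)) g F p) (h2 : γ ≤ coefRaw g F p) :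
    γ ≤ coefX η g F p := by
  rw [coefX_eq_mean hd hη]
  have hpos : 0 < detg F p + (1 - η p) := by linarith
  have a : 0 ≤ detg F p / (detg F p + (1 - η p)) := div_nonneg hd.le hpos.le
  have b : detg F p / (detg F p + (1 - η p)) ≤ 1 := (div_le_one hpos).2 (by linarith)
  nlinarith [mul_le_mul_of_nonneg_left h1 a, mul_le_mul_of_nonneg_left h2 (sub_nonneg.2 b)]

/-- The regularised coefficient of a translate with a scaled defect. -/
lemma coef_shift {η : R2 → ℝ} {g G : R2 → Fin 3 → ℝ} {P F : R2 → V4} {p : R2} {e γ : ℝ}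
    (hs : Sh (frac p - p) p P F)
    (hE : g p - metF P p = e • (G (frac p) - metF F (frac p))) (_hη0 : 0 ≤ η p)
    (hd : 0 < detg F (frac p)) (hη : η p ≤ 1) (h1 : γ ≤ coefX (fun _ : R2 => (1 : ℝ)) G F (frac p))
    (h2 : γ ≤ coefRaw G F (frac p)) (he : 0 ≤ e) :
    e * γ ≤ coefX η g P p := by
  set c := frac p - p
  have hc : p + c = frac p := add_sub_cancel _ _
  have a := dx_congr hs
  have b := dy_congr hs
  have ev : dx P p = dx F (frac p) ∧ dy P p = dy F (frac p) ∧ F11 P p = F11 F (frac p) ∧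
      F12 P p = F12 F (frac p) ∧ F22 P p = F22 F (frac p) := by
    refine ⟨?_, ?_, ?_, ?_, ?_⟩ <;> rw [← hc]
    exacts [a.eq_of_nhds, b.eq_of_nhds, (dx_congr a).eq_of_nhds, (dy_congr a).eq_of_nhds,
      (dy_congr b).eq_of_nhds]
  obtain ⟨e1, e2, e11, e12, e22⟩ := ev
  have key : coefX η g P p = e * coefX (fun _ => η p) G F (frac p) := by
    have k0 : g p 0 - g11 P p = e * (G (frac p) 0 - g11 F (frac p)) := congrFun hE 0
    have k1 : g p 1 - g12 P p = e * (G (frac p) 1 - g12 F (frac p)) := congrFun hE 1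
    have k2 : g p 2 - g22 P p = e * (G (frac p) 2 - g22 F (frac p)) := congrFun hE 2
    have hn : nX η P p = nX (fun _ => η p) F (frac p) := by
      simp only [nX, v1, v2, rinv, detg, g11, g12, g22, e1, e2, e11]
    simp only [coefX, k0, k1, k2, hn, e11, e12, e22]
    ring
  rw [key]
  exact mul_le_mul_of_nonneg_left (coefX_ge hd hη h1 h2) he

variable {U : Type*} [NormedAddCommGroup U] [NormedSpace ℝ U]

omit [NormedSpace ℝ U] in
lemma per_eq_zero {u : R2 → U} {K : Set R2} (hK : IsCompact K) (hKs : K ⊆ sq)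
    (hu : ∀ p ∉ K, u p = 0) {p : R2} (hp : frac p ∉ K) : per u =ᶠ[𝓝 p] 0 := by
  by_cases hs : frac p ∈ sq
  · have ht : Tendsto (fun q => q + (frac p - p)) (𝓝 p) (𝓝 (frac p)) := by
      simpa using ((continuous_id.add continuous_const).tendsto
        (f := fun q : R2 => q + (frac p - p)) p)
    filter_upwards [per_shift u hs, ht.eventually (hK.isClosed.isOpen_compl.mem_nhds hp)]
      with q hq hq'
    rw [hq]
    exact hu _ hq'
  · have hp' : Int.fract p.1 = 0 ∨ Int.fract p.2 = 0 := by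
      by_contra hc
      push Not at hc
      exact hs ⟨⟨(Int.fract_nonneg _).lt_of_ne' hc.1, Int.fract_lt_one _⟩,
        ⟨(Int.fract_nonneg _).lt_of_ne' hc.2, Int.fract_lt_one _⟩⟩
    rcases hp' with h | h
    · filter_upwards [(continuous_fst.continuousAt (x := p)).eventually
        (eventually_fract_notMem (hK.image continuous_fst)
          (by rintro _ ⟨z, hz, rfl⟩; exact (hKs hz).1) h)] with q hq
      exact hu _ fun hk => hq ⟨frac q, hk, rfl⟩
    · filter_upwards [(continuous_snd.continuousAt (x := p)).eventually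
        (eventually_fract_notMem (hK.image continuous_snd)
          (by rintro _ ⟨z, hz, rfl⟩; exact (hKs hz).2) h)] with q hq
      exact hu _ fun hk => hq ⟨frac q, hk, rfl⟩

/-- Exact correction of a change supported in `K`, with a small rank one defect. -/
theorem exists_exact_near {N K : Set R2} (hN : IsOpen N) (hNsq : N ⊆ sq) (hK : IsCompact K)
    (hKN : K ⊆ N) {f : R2 → V4} (hf : ContDiff ℝ ∞ f) {G : R2 → Fin 3 → ℝ} (hG : ContDiff ℝ ∞ G)
    (h0 : ∀ p ∈ N, rdet (G p - metF f p) = 0) {γ : ℝ} (hγ : 0 < γ) (m k : ℕ) (B : ℕ → ℝ) :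
    ∃ K' : Set R2, IsCompact K' ∧ K ⊆ K' ∧ K' ⊆ N ∧ ∃ (a n : ℕ) (δ₀ : ℝ), 0 < δ₀ ∧
      ∀ δ : ℝ, 0 < δ → δ ≤ δ₀ → ∀ F0 : R2 → V4, ContDiff ℝ ∞ F0 → (∀ p ∉ K, F0 p = f p) →
        (∀ i, ∀ p ∈ N, ‖iteratedFDeriv ℝ i F0 p‖ ≤ B i * δ⁻¹ ^ i) →
        (∀ p ∈ N, γ ≤ detg F0 p ∧ γ ≤ coefX (fun _ : R2 => (1 : ℝ)) G F0 p ∧ γ ≤ coefRaw G F0 p) →
        (∀ i ≤ a, ∀ p ∈ K, ‖iteratedFDeriv ℝ i (fun q => rdet (G q - metF F0 q)) p‖ ≤ δ ^ n) →
        ∃ F : R2 → V4, ContDiff ℝ ∞ F ∧ (∀ p ∉ K', F p = f p) ∧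
          (∀ p ∈ N, rdet (G p - metF F p) = 0) ∧
          ∀ i ≤ m, ∀ p, ‖iteratedFDeriv ℝ i (fun q => F q - F0 q) p‖ ≤ δ ^ k := by
  obtain ⟨c⟩ := exists_cell hN hK hKN
  have k4 : c.K₄ ⊆ sq := c.subN.trans hNsq
  have k3 : c.K₃ ⊆ sq := c.K₃_subN.trans hNsq
  have hKK2 : K ⊆ interior c.K₂ := c.sub₁.trans (interior_subset.trans c.sub₂)
  have hKK3 : K ⊆ c.K₃ := hKK2.trans (interior_subset.trans (c.sub₃.trans interior_subset))
  have hKK4 : K ⊆ c.K₄ := hKK3.trans (c.sub₄.trans interior_subset)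
  have hP : ∀ {F : R2 → V4}, ContDiff ℝ ∞ F → Smooth2 (c.F0 F) := fun {F} hF =>
    smooth2_per c.cK₄ k4 (fun p hp => by rw [c.ζ_zero p hp, zero_smul]) (c.ζ_smooth.smul hF)
  -- the periodic target
  set g : R2 → Fin 3 → ℝ := fun p =>
    metF (c.F0 f) p + per (fun q => c.η₃ q • (G q - metF f q)) p
  have hEs : Smooth2 (per fun q => c.η₃ q • (G q - metF f q)) :=
    smooth2_per c.cK₃ k3 (fun p hp => by rw [c.η₃_zero p hp, zero_smul])
      (c.η₃_smooth.smul (hG.sub (contDiff_metF hf)))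
  have hg : Smooth2 g := by
    have h1 : Smooth2 (fun p => metB (fderiv ℝ (c.F0 f) p) (fderiv ℝ (c.F0 f) p)) :=
      (hP hf).fderiv.bilin (hP hf).fderiv metB
    exact Smooth2.add h1 hEs
  -- constants
  choose Bζ hBζ using fun i => exists_deriv_bound c.ζ_smooth c.cK₄ c.ζ_zero
  set Bz := Bζ 0
  set K' : ℕ → ℝ := fun i => ∑ l ∈ range (i + 1), ∑ j ∈ range (l + 1),
    l.choose j * Bz j * |B (l - j)|
  obtain ⟨a, n, L₀, H⟩ := scalar_correction K' (c.smooth2_η' hNsq) (fun p => (c.η₂_mem _).2)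
    (O := c.O) isOpen_interior (fun p hp => (c.O_eq hp).2) (c.smooth2_radial hNsq) (R := 1)
    one_pos (fun p hp => c.mem_O hNsq hp) hg m (k + 1)
  set Cm := ∑ i ∈ range (m + 1), ∑ j ∈ range (i + 1), i.choose j * Bz j
  have hBz : ∀ j, 0 ≤ Bz j := fun j => (norm_nonneg _).trans (hBζ 0 j 0)
  have hCm : 0 ≤ Cm :=
    sum_nonneg fun i _ => sum_nonneg fun j _ => mul_nonneg (Nat.cast_nonneg _) (hBz j)
  refine ⟨c.K₄, c.cK₄, hKK4, c.subN, a, n + 1,
    min (min 1 γ) (min (1 / (|L₀| + 1)) (min (1 / (Cm + 1)) (1 / (a + 1 : ℝ)))), by positivity,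
    fun δ hδ hδ₀ F0 hF0 hoff hB hlow herr => ?_⟩
  obtain ⟨⟨hδ1, hδγ⟩, hδL, hδC, hδa⟩ : (δ ≤ 1 ∧ δ ≤ γ) ∧ δ ≤ 1 / (|L₀| + 1) ∧
      δ ≤ 1 / (Cm + 1) ∧ δ ≤ 1 / (a + 1 : ℝ) := by
    simpa only [le_min_iff, and_assoc] using hδ₀
  set L := δ⁻¹
  have hL0 : L₀ ≤ L := by
    refine (le_abs_self _).trans ((le_add_of_nonneg_right zero_le_one).trans ?_)
    rw [le_inv_comm₀ (by positivity) hδ, ← one_div]
    exact hδL
  have hL1 : 1 ≤ L := (one_le_inv₀ hδ).2 hδ1
  have hLinv : L⁻¹ = δ := inv_inv δ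
  set P := c.F0 F0
  have hPs : Smooth2 P := hP hF0
  have hgerm : ∀ q ∉ K, F0 =ᶠ[𝓝 q] f := fun q hq =>
    eventually_of_mem (hK.isClosed.isOpen_compl.mem_nhds hq) fun y hy => hoff y hy
  -- the periodic defect
  have hE : ∀ p, g p - metF P p = c.η₃ (frac p) • (G (frac p) - metF F0 (frac p)) := by
    intro p
    show metF (c.F0 f) p + c.η₃ (frac p) • (G (frac p) - metF f (frac p)) - metF P p = _
    by_cases h3 : frac p ∈ c.K₃
    · have hs := k3 h3
      have germ : ∀ F : R2 → V4, metF (c.F0 F) p = metF F (frac p) := fun F => by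
        have e : Sh (frac p - p) p (c.F0 F) F := per_germ hs
          ((c.ζ_one _ h3).mono fun q hq => by simp [hq])
        simp only [metF, g11, g12, g22, (dx_congr e).eq_of_nhds, (dy_congr e).eq_of_nhds,
          add_sub_cancel]
      rw [germ f, show metF P p = _ from germ F0]
      by_cases hq : frac p ∈ K
      · rw [(c.η₃_one _ (interior_subset (hKK2 hq))).eq_of_nhds, one_smul, one_smul]
        abel
      · rw [metF_congr (hgerm _ hq)]
        abel
    · rw [c.η₃_zero _ h3, zero_smul, zero_smul, add_zero,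
        metF_congr (f := P) (f' := c.F0 f) ?_, sub_self]
      have h := per_eq_zero (u := fun q => c.ζ q • (F0 q - f q)) hK (hKN.trans hNsq)
        (fun q hq => by rw [hoff q hq, sub_self, smul_zero]) (fun hh => h3 (hKK3 hh))
      filter_upwards [h] with q hq
      exact sub_eq_zero.1 (by simpa [P, Cell.F0, per, smul_sub] using hq)
  set u : R2 → ℝ := fun q => c.η₃ q ^ 2 * rdet (G q - metF F0 q)
  have he : (fun p => rdet (g p - metF P p)) = per u := funext fun p => by
    rw [hE, rdet_smul]; rfl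
  have hu0 : ∀ q ∉ K, u q = 0 := fun q hq => by
    by_cases h3 : q ∈ c.K₃
    · show _ * rdet (G q - metF F0 q) = 0
      rw [metF_congr (hgerm q hq), h0 q (c.K₃_subN h3), mul_zero]
    · show c.η₃ q ^ 2 * _ = 0
      rw [c.η₃_zero q h3]
      ring
  have hpn : ∀ i ≤ a, pn i (per u) ≤ (a + 1 : ℝ) * δ ^ (n + 1) := fun i hi => by
    refine (pn_le_of_supD (C := fun _ => δ ^ (n + 1)) fun l hl => supD_per_le hK (hKN.trans hNsq)
      hu0 fun q _ => ?_).trans ?_
    · by_cases hq : q ∈ K
      · have e : u =ᶠ[𝓝 q] fun y => rdet (G y - metF F0 y) :=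
          (c.η₃_one _ (interior_subset (hKK2 hq))).mono fun y hy => by simp [u, hy]
        rw [(e.iteratedFDeriv ℝ l).eq_of_nhds]
        exact herr l (hl.trans hi) q hq
      · have e : u =ᶠ[𝓝 q] 0 :=
          eventually_of_mem (hK.isClosed.isOpen_compl.mem_nhds hq) fun y hy => hu0 y hy
        rw [(e.iteratedFDeriv ℝ l).eq_of_nhds]
        simp only [iteratedFDeriv_zero, Pi.zero_apply, norm_zero]
        positivity
    · simp only [sum_const, card_range, nsmul_eq_mul]
      exact mul_le_mul_of_nonneg_right (by exact_mod_cast Nat.succ_le_succ hi) (by positivity)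
  -- the correction
  obtain ⟨G', hG'⟩ := H fun M => pn a (per u) * L ^ M
  refine (hG' L hL0 P hPs ?_ ?_ ?_ ?_ ?_ ?_).elim ?_
  -- the hypotheses of the correction theorem
  · intro i
    rw [show K' i * L ^ i = ∑ l ∈ range (i + 1), ∑ j ∈ range (l + 1),
      l.choose j * Bz j * |B (l - j)| * L ^ i by simp only [K', sum_mul]]
    refine pn_le_of_supD fun l hl => supD_per_le c.cK₄ k4
      (fun p hp => by rw [c.ζ_zero p hp, zero_smul]) fun q _ => ?_
    refine (norm_iteratedFDeriv_cut_le c.ζ_smooth hF0 c.cK₄.isClosed c.ζ_zero (hBζ 0) l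
      (D := fun j => |B j| * L ^ j) (fun j => by positivity) (fun j _ y hy =>
        (hB j y (c.subN hy)).trans (mul_le_mul_of_nonneg_right (le_abs_self _) (by positivity)))
      q).trans (sum_le_sum fun j _ => ?_)
    rw [← mul_assoc]
    exact mul_le_mul_of_nonneg_left (pow_le_pow_right₀ hL1 (le_trans (Nat.sub_le _ _) hl))
      (mul_nonneg (mul_nonneg (Nat.cast_nonneg _) (hBz j)) (abs_nonneg _))
  · intro p hp
    have h : frac p ∉ K := fun h => by
      have : per c.ψ p = 1 := c.ψ_one _ h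
      simp only [Cell.radial, this] at hp
      have : (1 : ℝ) / L ≤ 1 := by rw [div_le_one (by linarith)]; exact hL1
      linarith
    rw [congrFun he p]
    exact hu0 _ h
  · intro p
    by_cases hp : c.η' p = 0
    · rw [hp]; exact low_of_zero hL1 (detg_nonneg _ _)
    · have h2 : frac p ∈ c.K₂ := not_not.1 fun h => hp (c.η₂_zero _ h)
      have e : Sh (frac p - p) p P F0 := per_germ (hNsq (c.K₂_subN h2))
        ((c.ζ_one _ (interior_subset (c.sub₃ h2))).mono fun q hq => by simp [hq])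
      rw [(detg_congr e).eq_of_nhds, add_sub_cancel, hLinv]
      linarith [(hlow _ (c.K₂_subN h2)).1, show c.η' p ≤ 1 from (c.η₂_mem _).2]
  · intro p
    by_cases hp : c.η' p = 0
    · rw [hp, hLinv]
      by_cases h3 : frac p ∈ c.K₃
      · have e : Sh (frac p - p) p P F0 := per_germ (k3 h3)
          ((c.ζ_one _ h3).mono fun q hq => by simp [hq])
        have := coef_shift (η := c.η') (G := G) (F := F0) (g := g) e (hE p) hp.symm.le
          (by linarith [(hlow _ (c.K₃_subN h3)).1]) (hp.le.trans zero_le_one)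
          (hlow _ (c.K₃_subN h3)).2.1 (hlow _ (c.K₃_subN h3)).2.2 (c.η₃_mem _).1
        nlinarith [(c.η₃_mem (frac p)).1]
      · have h := hE p
        rw [c.η₃_zero _ h3, zero_smul] at h
        have : coefX c.η' g P p = 0 := by
          have h0 := congrFun h 0; have h1 := congrFun h 1; have h2 := congrFun h 2
          simp [metF] at h0 h1 h2
          simp [coefX, h0, h1, h2]
        linarith
    · have h2 : frac p ∈ c.K₂ := not_not.1 fun h => hp (c.η₂_zero _ h)
      have e : Sh (frac p - p) p P F0 := per_germ (hNsq (c.K₂_subN h2))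
        ((c.ζ_one _ (interior_subset (c.sub₃ h2))).mono fun q hq => by simp [hq])
      have := coef_shift (η := c.η') (G := G) (F := F0) (g := g) e (hE p) (c.η₂_mem _).1
        (by linarith [(hlow _ (c.K₂_subN h2)).1]) (c.η₂_mem _).2
        (hlow _ (c.K₂_subN h2)).2.1 (hlow _ (c.K₂_subN h2)).2.2 (c.η₃_mem _).1
      rw [(c.η₃_one _ h2).eq_of_nhds, one_mul] at this
      rw [hLinv]
      linarith [show c.η' p ≤ 1 from (c.η₂_mem _).2]
  · intro i hi
    rw [he]
    refine (mul_le_mul_of_nonneg_right (hpn i hi) (by positivity)).trans ?_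
    rw [pow_succ, inv_pow, show (a + 1 : ℝ) * (δ ^ n * δ) * (δ ^ n)⁻¹ = (a + 1) * δ by field_simp]
    rw [le_div_iff₀ (by positivity)] at hδa
    linarith
  · intro M i hi
    rw [he]
    exact mul_le_mul_of_nonneg_right (pn_mono hi _) (by positivity)
  · rintro x ⟨hx, hx0, hxm, -, hxe⟩
    have hz : ∀ p, frac p ∉ c.K₁ → x =ᶠ[𝓝 p] 0 := fun p hp => by
      filter_upwards [per_eq_zero c.cK₁ (c.K₁_subN.trans hNsq) c.ψ_zero hp] with q hq
      exact hx0 q (by simp only [Cell.radial, hq, Pi.zero_apply]; norm_num)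
    refine ⟨fun q => F0 q + c.ζ q • x q, hF0.add (c.ζ_smooth.smul hx.1), fun p hp => ?_,
      fun p hp => ?_, fun i hi p => ?_⟩
    · simp [c.ζ_zero p hp, hoff p fun h => hp (hKK4 h)]
    · by_cases h1 : p ∈ c.K₁
      · have h2 : p ∈ c.K₂ := interior_subset (c.sub₂ h1)
        have h3 : p ∈ c.K₃ := interior_subset (c.sub₃ h2)
        have hs : p ∈ sq := k3 h3
        have e : (fun q => F0 q + c.ζ q • x q) =ᶠ[𝓝 p] fun q => P q + x q := by
          filter_upwards [c.ζ_one p h3, per_eventuallyEq (fun q => c.ζ q • F0 q) hs] with q hq hq'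
          rw [hq, one_smul, show P q = _ from hq', hq, one_smul]
        rw [metF_congr e]
        have := hxe p
        have hgG : g p = G p := by
          have h := hE p
          rw [frac_of_mem hs, (c.η₃_one p h2).eq_of_nhds, one_smul] at h
          have e' : metF P p = metF F0 p := metF_congr (by
            filter_upwards [c.ζ_one p h3, per_eventuallyEq (fun q => c.ζ q • F0 q) hs] with q hq hq'
            rw [show P q = _ from hq', hq, one_smul])
          rw [e'] at h
          exact sub_left_injective h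
        rwa [hgG] at this
      · have hs : p ∈ sq := hNsq hp
        have e : (fun q => F0 q + c.ζ q • x q) =ᶠ[𝓝 p] f := by
          filter_upwards [hz p (by rwa [frac_of_mem hs]),
            hgerm p fun h => h1 (interior_subset (c.sub₁ h))] with q hq hq'
          rw [hq, Pi.zero_apply, smul_zero, add_zero, hq']
        rw [metF_congr e]
        exact h0 p hp
    · simp only [add_sub_cancel_left]
      refine (norm_iteratedFDeriv_cut_le c.ζ_smooth hx.1 c.cK₄.isClosed c.ζ_zero (hBζ 0) i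
        (D := fun _ => δ ^ (k + 1)) (fun _ => by positivity) (fun j hj q _ => ?_) p).trans ?_
      · refine (le_supD hx j q).trans ((supD_le_pn (hj.trans hi) x).trans ?_)
        rwa [inv_pow, inv_inv] at hxm
      · rw [← sum_mul, pow_succ, ← mul_assoc]
        refine (mul_le_mul_of_nonneg_right (mul_le_mul_of_nonneg_right ?_ (by positivity))
          hδ.le).trans (b := Cm * δ ^ k * δ) ?_
        · exact single_le_sum (f := fun i => ∑ j ∈ range (i + 1), (i.choose j : ℝ) * Bz j)
            (fun i _ => sum_nonneg fun j _ => mul_nonneg (Nat.cast_nonneg _) (hBz j))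
            (mem_range.2 (Nat.lt_succ_of_le hi))
        · have : Cm * δ ≤ 1 := by
            rw [le_div_iff₀ (by positivity)] at hδC
            nlinarith
          nlinarith [pow_pos hδ k]

end

end Vale.Agent.P205.Round1
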