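import Vale.Agent.P205.Full.Round1.Approx

/-!
# P205, round one: exact perturbations with prescribed first order

`exists_family` turns finitely many directions `X j` into a smooth family `H (s, p)` with first
order `X j + c j • nX` whose members are `‖s‖ ^ k` close in `C ^ m` to exact solutions of the rank
one equation.
-/

namespace Vale.Agent.P205.Round1

open scoped ContDiff Topology RealInnerProductSpace
open Set Filter Finset Metric Vale.Agent.P205.Correction Vale.Agent.P205.Algebra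
  Vale.Agent.P205.Bridge

noncomputable section

/-- The three lower bounds of a slice are continuous in the parameter and the point. -/
lemma eventually_low {P : Type*} [NormedAddCommGroup P] [NormedSpace ℝ P] {H : P × R2 → V4}
    (hH : ContDiff ℝ ∞ H) {G : R2 → Fin 3 → ℝ} (hG : ContDiff ℝ ∞ G) {p : R2} {γ : ℝ}
    (hd : γ < detg (fun r => H (0, r)) p ∧ γ < coefX (fun _ : R2 => (1 : ℝ)) G (fun r => H (0, r)) p ∧
      γ < coefRaw G (fun r => H (0, r)) p) (hp : detg (fun r => H (0, r)) p ≠ 0) :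
    ∀ᶠ z : P × R2 in 𝓝 (0, p), γ ≤ detg (fun r => H (z.1, r)) z.2 ∧
      γ ≤ coefX (fun _ : R2 => (1 : ℝ)) G (fun r => H (z.1, r)) z.2 ∧ γ ≤ coefRaw G (fun r => H (z.1, r)) z.2 := by
  have sl : ∀ {u : P × R2 → V4}, ContDiff ℝ ∞ u → ∀ v : R2,
      ContDiff ℝ ∞ (fun z => dP u z v) ∧
        ∀ z : P × R2, fderiv ℝ (fun r => u (z.1, r)) z.2 v = dP u z v := fun {u} hu v =>
    ⟨(contDiff_dP hu).clm_apply contDiff_const, fun z => by rw [fderiv_slice hu]⟩
  obtain ⟨a1, e1⟩ := sl hH (1, 0)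
  obtain ⟨a2, e2⟩ := sl hH (0, 1)
  obtain ⟨a11, e11⟩ := sl a1 (1, 0)
  obtain ⟨a12, e12⟩ := sl a1 (0, 1)
  obtain ⟨a22, e22⟩ := sl a2 (0, 1)
  set X := fun z : P × R2 => dP H z (1, 0)
  set Y := fun z : P × R2 => dP H z (0, 1)
  have hx : ∀ z : P × R2, Algebra.dx (fun r => H (z.1, r)) z.2 = X z := e1
  have hy : ∀ z : P × R2, Algebra.dy (fun r => H (z.1, r)) z.2 = Y z := e2
  have fx : ∀ s : P, Algebra.dx (fun r => H (s, r)) = fun r => X (s, r) := fun s =>
    funext fun r => hx (s, r)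
  have fy : ∀ s : P, Algebra.dy (fun r => H (s, r)) = fun r => Y (s, r) := fun s =>
    funext fun r => hy (s, r)
  have h11 : ∀ z : P × R2, F11 (fun r => H (z.1, r)) z.2 = dP X z (1, 0) := fun z => by
    rw [F11, fx z.1]; exact e11 z
  have h12 : ∀ z : P × R2, F12 (fun r => H (z.1, r)) z.2 = dP X z (0, 1) := fun z => by
    rw [F12, fx z.1]; exact e12 z
  have h22 : ∀ z : P × R2, F22 (fun r => H (z.1, r)) z.2 = dP Y z (0, 1) := fun z => by
    rw [F22, fy z.1]; exact e22 z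
  have g : ∀ k : Fin 3, Continuous fun z : P × R2 => G z.2 k := fun k =>
    (continuous_apply k).comp (hG.continuous.comp continuous_snd)
  have cX : Continuous X := a1.continuous
  have cY : Continuous Y := a2.continuous
  have c11 : Continuous fun z => dP X z (1, 0) := a11.continuous
  have c12 : Continuous fun z => dP X z (0, 1) := a12.continuous
  have c22 : Continuous fun z => dP Y z (0, 1) := a22.continuous
  have cd : Continuous fun z : P × R2 => detg (fun r => H (z.1, r)) z.2 := by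
    simp only [detg, g11, g12, g22, hx, hy]
    fun_prop
  have craw : Continuous fun z : P × R2 => coefRaw G (fun r => H (z.1, r)) z.2 := by
    simp only [coefRaw, g11, g12, g22, hx, hy, h11, h12, h22]
    exact (((((g 0).sub (cX.inner cX)).mul (c22.inner c11))).add
      (((g 2).sub (cY.inner cY)).mul (c11.inner c11))).sub
        ((continuous_const.mul ((g 1).sub (cX.inner cY))).mul (c12.inner c11))
  have ci : ContinuousAt (fun z : P × R2 => rinv (fun _ : R2 => (1 : ℝ)) (detg fun r => H (z.1, r)) z.2) (0, p) := by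
    simp only [rinv, sub_self, add_zero]
    exact cd.continuousAt.inv₀ hp
  have cn : ContinuousAt (fun z : P × R2 => nX (fun _ : R2 => (1 : ℝ)) (fun r => H (z.1, r)) z.2) (0, p) := by
    simp only [nX, v1, v2, g11, g12, g22, hx, hy, h11]
    have := cX.continuousAt (x := ((0 : P), p)); have := cY.continuousAt (x := ((0 : P), p))
    have := c11.continuousAt (x := ((0 : P), p))
    fun_prop
  have cc : ContinuousAt (fun z : P × R2 => coefX (fun _ : R2 => (1 : ℝ)) G (fun r => H (z.1, r)) z.2) (0, p) := by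
    simp only [coefX, g11, g12, g22, hx, hy, h11, h12, h22]
    exact (((((g 0).sub (cX.inner cX)).continuousAt.mul (c22.continuousAt.inner cn))).add
      (((g 2).sub (cY.inner cY)).continuousAt.mul (c11.continuousAt.inner cn))).sub
        ((continuousAt_const.mul ((g 1).sub (cX.inner cY)).continuousAt).mul
          (c12.continuousAt.inner cn))
  filter_upwards [cd.continuousAt.eventually (eventually_gt_nhds hd.1),
    cc.eventually (eventually_gt_nhds hd.2.1),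
    craw.continuousAt.eventually (eventually_gt_nhds hd.2.2)] with z h1 h2 h3
  exact ⟨h1.le, h2.le, h3.le⟩

/-- A bound of a bilinear map. -/
lemma exists_bilin_bound {V W X : Type*} [NormedAddCommGroup V] [NormedSpace ℝ V]
    [NormedAddCommGroup W] [NormedSpace ℝ W] [NormedAddCommGroup X] [NormedSpace ℝ X]
    (β : V →L[ℝ] W →L[ℝ] X) : ∃ b, 0 ≤ b ∧ ∀ u w, ‖β u w‖ ≤ b * ‖u‖ * ‖w‖ :=
  ⟨‖β‖, β.opNorm_nonneg, β.le_opNorm₂⟩

/-- The defect of `A0 + Z` is linear in `Z` up to a quadratic rest. -/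
lemma rest_bound (E0 : Fin 3 → ℝ) (A0 : R2 →L[ℝ] V4) (M : ℝ) (h0 : rdet E0 = 0) :
    ∃ C, 0 ≤ C ∧ ∀ Z : R2 →L[ℝ] V4, ‖Z‖ ≤ M → ∃ R : ℝ, |R| ≤ C * ‖Z‖ ^ 2 ∧
      rdet (E0 - (symB A0 Z + metB Z Z)) = -2 * mdet E0 (symB A0 Z) + R := by
  obtain ⟨b, hb, hbb⟩ := exists_bilin_bound metB
  obtain ⟨md, hmd, hmb⟩ := exists_bilin_bound mdet
  refine ⟨2 * md * ‖E0‖ * b + md * (2 * b * ‖A0‖ + b * |M|) ^ 2, by positivity, fun Z hZ => ?_⟩
  set S := symB A0 Z with hS
  set Q := metB Z Z with hQ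
  refine ⟨-2 * mdet E0 Q + mdet (S + Q) (S + Q), ?_, ?_⟩
  · have hSn : ‖S‖ ≤ 2 * b * ‖A0‖ * ‖Z‖ := by
      refine (norm_add_le _ _).trans ?_
      nlinarith [hbb A0 Z, hbb Z A0]
    have hQn : ‖Q‖ ≤ b * ‖Z‖ * ‖Z‖ := hbb Z Z
    have hSQ : ‖S + Q‖ ≤ (2 * b * ‖A0‖ + b * |M|) * ‖Z‖ := by
      refine (norm_add_le _ _).trans ((add_le_add hSn hQn).trans ?_)
      nlinarith [mul_le_mul_of_nonneg_left (hZ.trans (le_abs_self M))
        (mul_nonneg hb (norm_nonneg Z))]
    have h1 : |mdet E0 Q| ≤ md * ‖E0‖ * (b * ‖Z‖ * ‖Z‖) :=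
      (hmb _ _).trans (mul_le_mul_of_nonneg_left hQn (mul_nonneg hmd (norm_nonneg _)))
    have h2 : |mdet (S + Q) (S + Q)| ≤ md * ((2 * b * ‖A0‖ + b * |M|) * ‖Z‖) ^ 2 := by
      refine (hmb _ _).trans ?_
      rw [mul_assoc, pow_two ((2 * b * ‖A0‖ + b * |M|) * ‖Z‖)]
      exact mul_le_mul_of_nonneg_left (mul_le_mul hSQ hSQ (norm_nonneg _) (by positivity)) hmd
    refine (abs_add_le _ _).trans ?_
    rw [abs_mul, show |(-2 : ℝ)| = 2 by norm_num]
    linarith
  · simp only [rdet] at h0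
    simp only [mdet_apply, rdet, Pi.sub_apply, Pi.add_apply]
    linarith

/-- The derivative of a sum of a fixed map and a family. -/
lemma dP_add {P : Type*} [NormedAddCommGroup P] [NormedSpace ℝ P] {f : R2 → V4}
    (hf : ContDiff ℝ ∞ f) {u : P × R2 → V4} (hu : ContDiff ℝ ∞ u) (s : P) (p : R2) :
    dP (fun z => f z.2 + u z) (s, p) = fderiv ℝ f p + dP u (s, p) := by
  rw [← fderiv_slice (show ContDiff ℝ ∞ fun z : P × R2 => f z.2 + u z from
    (hf.comp contDiff_snd).add hu), ← fderiv_slice hu]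
  exact fderiv_fun_add ((hf.differentiable (by simp)) p)
    (((contDiff_slice hu s).differentiable (by simp)) p)

/-- The first order of a corrected family. -/
lemma hasFDerivAt_first {f : R2 → V4} {G : R2 → Fin 3 → ℝ} (_hG : ContDiff ℝ ∞ G)
    (hf : ContDiff ℝ ∞ f) {K : Set R2} {p : R2} (h0p : rdet (G p - metF f p) = 0)
    (hcp : coefX (fun _ : R2 => (1 : ℝ)) G f p ≠ 0) (hK : IsCompact K) {d : ℕ} (X : Fin d → R2 → V4)
    (hX : ∀ j, ContDiff ℝ ∞ (X j)) (hX0 : ∀ j, ∀ r ∉ K, X j r = 0) {χ q : R2 → ℝ} {v : R2 → V4}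
    (hχp : χ p = 1) (hqp : q p = (2 * coefX (fun _ : R2 => (1 : ℝ)) G f p)⁻¹) (hvp : v p = nX (fun _ : R2 => (1 : ℝ)) f p)
    {y : (Fin d → ℝ) × R2 → ℝ} (hy0 : ∀ r, y (0, r) = 0)
    (hy2 : Ord 2 fun z => y z + q z.2 * defect G χ (fun z : (Fin d → ℝ) × R2 => f z.2 + ∑ j, z.1 j • X j z.2) z) :
    HasFDerivAt (fun s => (f p + ∑ j, s j • X j p) + y (s, p) • v p)
      (∑ j, (ContinuousLinearMap.proj j : (Fin d → ℝ) →L[ℝ] ℝ).smulRight (X j p
        + (mdet (G p - metF f p) (linM f (X j) p) / coefX (fun _ : R2 => (1 : ℝ)) G f p) • nX (fun _ : R2 => (1 : ℝ)) f p)) 0 := by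
  set H0 : (Fin d → ℝ) × R2 → V4 := fun z => f z.2 + ∑ j, z.1 j • X j z.2
  set L : (Fin d → ℝ) → R2 → V4 := fun s r => ∑ j, s j • X j r
  set c : Fin d → ℝ := fun j => mdet (G p - metF f p) (linM f (X j) p) / coefX (fun _ : R2 => (1 : ℝ)) G f p
  have hL : ContDiff ℝ ∞ fun z : (Fin d → ℝ) × R2 => L z.1 z.2 := ContDiff.sum fun j _ =>
    ((contDiff_apply ℝ ℝ j).comp contDiff_fst).smul ((hX j).comp contDiff_snd)
  set Lz : (Fin d → ℝ) × R2 → R2 →L[ℝ] V4 := dP fun z => L z.1 z.2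
  have oL : Ord 1 Lz := ((Ord.of_compact hK hL fun s r hr => by simp [L, hX0 _ r hr]).2
    fun r => by simp [L]).fderiv
  obtain ⟨Cy, hCy, hy'⟩ := hy2.2 0
  obtain ⟨CL, hCL, hL'⟩ := oL.2 0
  set E0 := G p - metF f p
  set A0 := fderiv ℝ f p
  have hlin : ∀ s, symB A0 (Lz (s, p)) = ∑ j, s j • linM f (X j) p := fun s => by
    have e : Lz (s, p) = ∑ j, s j • fderiv ℝ (X j) p := by
      rw [show Lz (s, p) = fderiv ℝ (L s) p from (fderiv_slice hL s p).symm]
      simp only [L]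
      rw [fderiv_fun_sum fun j _ => (((hX j).differentiable (by simp)) p).fun_const_smul (s j)]
      exact sum_congr rfl fun j _ => fderiv_fun_const_smul ((hX j).differentiable (by simp) p) _
    rw [e]
    simp only [symB, map_sum, map_smul, ContinuousLinearMap.sum_apply, smul_apply,
      ← sum_add_distrib, ← smul_add]
    refine sum_congr rfl fun j _ => congrArg (s j • ·) ?_
    funext l
    fin_cases l <;> simp [A0, metB_apply, linM, Algebra.dx, Algebra.dy, real_inner_comm] <;> ring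
  have hbound : ∃ C', ∀ s : Fin d → ℝ, ‖s‖ ≤ 1 →
      ‖y (s, p) - ∑ j, s j * c j‖ ≤ C' * ‖s‖ ^ 2 := by
    obtain ⟨C₂, hC₂, hr⟩ := rest_bound E0 A0 (CL + 1) h0p
    refine ⟨Cy + |q p| * (C₂ * CL ^ 2), fun s hs => ?_⟩
    have hZ : ‖Lz (s, p)‖ ≤ CL * ‖s‖ := by simpa using hL' s hs p
    have hyb : ‖y (s, p) + q p * defect G χ H0 (s, p)‖ ≤ Cy * ‖s‖ ^ 2 := by
      simpa using hy' s hs p
    obtain ⟨R, hR, hd⟩ := hr (Lz (s, p)) (hZ.trans (by nlinarith [norm_nonneg s]))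
    have hd' : defect G χ H0 (s, p) = -2 * mdet E0 (symB A0 (Lz (s, p))) + R := by
      have e : dP H0 (s, p) = A0 + Lz (s, p) := dP_add hf hL s p
      have e2 : G p - metB (A0 + Lz (s, p)) (A0 + Lz (s, p))
          = E0 - (symB A0 (Lz (s, p)) + metB (Lz (s, p)) (Lz (s, p))) := by
        simp only [symB, E0, A0, ← metB_self f p, map_add, add_apply]
        abel
      rw [defect, hχp, one_mul, e, e2, hd]
    have hval : y (s, p) - ∑ j, s j * c j = (y (s, p) + q p * defect G χ H0 (s, p)) - q p * R := by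
      have e3 : mdet E0 (symB A0 (Lz (s, p))) = coefX (fun _ : R2 => (1 : ℝ)) G f p * ∑ j, s j * c j := by
        rw [hlin, map_sum, mul_sum]
        refine sum_congr rfl fun j _ => ?_
        simp only [map_smul, smul_eq_mul, c, E0]
        field_simp
      rw [hd', e3, hqp]
      field_simp
      ring
    rw [hval, add_mul]
    refine (norm_sub_le _ _).trans (add_le_add hyb ?_)
    rw [Real.norm_eq_abs, abs_mul, mul_assoc]
    refine mul_le_mul_of_nonneg_left (hR.trans ?_) (abs_nonneg _)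
    rw [mul_assoc, ← mul_pow]
    exact mul_le_mul_of_nonneg_left (pow_le_pow_left₀ (norm_nonneg _) hZ 2) hC₂
  obtain ⟨C', hC'⟩ := hbound
  refine HasFDerivAt.of_isLittleO ((Asymptotics.IsBigO.of_bound (C' * ‖nX (fun _ : R2 => (1 : ℝ)) f p‖) ?_).trans_isLittleO
    (Asymptotics.isLittleO_norm_pow_id (E' := Fin d → ℝ) one_lt_two) |>.congr_right fun s => by simp)
  filter_upwards [closedBall_mem_nhds (0 : Fin d → ℝ) one_pos] with s hs
  have e : (f p + ∑ j, s j • X j p) + y (s, p) • v p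
      - ((f p + ∑ j, (0 : Fin d → ℝ) j • X j p) + y (0, p) • v p)
      - (∑ j, (ContinuousLinearMap.proj j : (Fin d → ℝ) →L[ℝ] ℝ).smulRight
        (X j p + c j • nX (fun _ : R2 => (1 : ℝ)) f p)) (s - 0)
        = (y (s, p) - ∑ j, s j * c j) • nX (fun _ : R2 => (1 : ℝ)) f p := by
    simp only [hvp, hy0, sub_zero, ContinuousLinearMap.sum_apply,
      ContinuousLinearMap.smulRight_apply, ContinuousLinearMap.proj_apply, smul_add,
      sum_add_distrib, sub_smul, sum_smul, smul_smul, Pi.zero_apply, zero_smul,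
      Finset.sum_const_zero, add_zero]
    abel
  rw [e, norm_smul, Real.norm_eq_abs (‖s‖ ^ 2), abs_of_nonneg (sq_nonneg _), mul_right_comm]
  exact mul_le_mul_of_nonneg_right (hC' s (by simpa using hs)) (norm_nonneg _)

/-- Exact perturbations with prescribed first order. -/
theorem exists_family {N K : Set R2} (hN : IsOpen N) (hNsq : N ⊆ sq) (hK : IsCompact K)
    (hKN : K ⊆ N) {f : R2 → V4} (hf : ContDiff ℝ ∞ f) {G : R2 → Fin 3 → ℝ}
    (hG : ContDiff ℝ ∞ G) (h0 : ∀ p ∈ N, rdet (G p - metF f p) = 0) {γ : ℝ} (hγ : 0 < γ)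
    (hlow : ∀ p ∈ N, γ < detg f p ∧ γ < coefX (fun _ : R2 => (1 : ℝ)) G f p ∧ γ < coefRaw G f p) {d : ℕ}
    (X : Fin d → R2 → V4) (hX : ∀ j, ContDiff ℝ ∞ (X j)) (hX0 : ∀ j, ∀ p ∉ K, X j p = 0)
    (m k : ℕ) :
    ∃ H : (Fin d → ℝ) × R2 → V4, ContDiff ℝ ∞ H ∧ (∀ p, H (0, p) = f p) ∧
      (∀ s, ∀ p ∉ K, H (s, p) = f p) ∧
      (∀ p ∈ K, HasFDerivAt (fun s => H (s, p))
        (∑ j, (ContinuousLinearMap.proj j : (Fin d → ℝ) →L[ℝ] ℝ).smulRight (X j p
          + (mdet (G p - metF f p) (linM f (X j) p) / coefX (fun _ : R2 => (1 : ℝ)) G f p) • nX (fun _ : R2 => (1 : ℝ)) f p)) 0) ∧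
      ∃ K' : Set R2, IsCompact K' ∧ K ⊆ K' ∧ K' ⊆ N ∧ ∃ ε > (0 : ℝ), ∀ s : Fin d → ℝ, ‖s‖ ≤ ε →
        ∃ F : R2 → V4, ContDiff ℝ ∞ F ∧ (∀ p ∉ K', F p = f p) ∧
          (∀ p ∈ N, rdet (G p - metF F p) = 0) ∧
          ∀ i ≤ m, ∀ p, ‖iteratedFDeriv ℝ i (fun q => F q - H (s, q)) p‖ ≤ ‖s‖ ^ k := by
  set H0 : (Fin d → ℝ) × R2 → V4 := fun z => f z.2 + ∑ j, z.1 j • X j z.2
  have hH0s : ContDiff ℝ ∞ H0 := (hf.comp contDiff_snd).add (ContDiff.sum fun j _ =>
    ((contDiff_apply ℝ ℝ j).comp contDiff_fst).smul ((hX j).comp contDiff_snd))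
  have hH00 : ∀ p, H0 (0, p) = f p := fun p => by simp [H0]
  have hH0K : ∀ s, ∀ p ∉ K, H0 (s, p) = f p := fun s p hp => by simp [H0, hX0 _ p hp]
  have hi : ∀ p ∈ N, detg f p ≠ 0 := fun p hp => (hγ.trans (hlow p hp).1).ne'
  have hc : ∀ p ∈ N, coefX (fun _ : R2 => (1 : ℝ)) G f p ≠ 0 := fun p hp => (hγ.trans (hlow p hp).2.1).ne'
  obtain ⟨χ, q, v, hq, hv, hqv, happ⟩ :=
    exists_approx (P := Fin d → ℝ) hN hK hKN hf hG h0 hi hc hH0s hH00 hH0K
  choose y hy hy0 hyK hy2 hyd using happ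
  set Hn : ℕ → (Fin d → ℝ) × R2 → V4 := fun n z => H0 z + y n z • v z.2
  have hHn : ∀ n, ContDiff ℝ ∞ (Hn n) := fun n =>
    hH0s.add ((hy n).smul (hv.comp contDiff_snd))
  have hHn0 : ∀ n p, Hn n (0, p) = f p := fun n p => by simp [Hn, hH00, hy0]
  have hHnK : ∀ n s, ∀ p ∉ K, Hn n (s, p) = f p := fun n s p hp => by
    simp [Hn, hH0K s p hp, hyK n s p hp]
  have hR : ∀ n, Ord 1 fun z => Hn n z - f z.2 := fun n =>
    (Ord.of_compact hK ((hHn n).sub (hf.comp contDiff_snd))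
      fun s p hp => by simp [hHnK n s p hp]).2 fun p => by simp [hHn0]
  choose C hC0 hC using fun n => (hR n).2
  choose Bf hBf using fun i => ((isCompact_Icc (a := (0 : ℝ)) (b := 1)).prod
    (isCompact_Icc (a := (0 : ℝ)) (b := 1))).exists_bound_of_continuousOn
      (hf.continuous_iteratedFDeriv (m := i) (by exact_mod_cast le_top)).continuousOn
  set B : ℕ → ℝ := fun i => |Bf i| + 1 + ∑ n ∈ range (i + 1), C n i
  obtain ⟨K', hK', hKK', hK'N, a, n, δ₀, hδ₀, hex⟩ :=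
    exists_exact_near hN hNsq hK hKN hf hG h0 hγ m k B
  refine ⟨Hn (n + 1), hHn _, hHn0 _, hHnK _, fun p hp => ?_, K', hK', hKK', hK'N, ?_⟩
  · obtain ⟨hχp, hqp, hvp⟩ := hqv p hp
    exact hasFDerivAt_first hG hf (h0 p (hKN hp)) (hc p (hKN hp)) hK X hX hX0 hχp hqp hvp
      (hy0 _) (hy2 (n + 1) (Nat.le_add_left 1 n))
  · have hlow' : ∀ᶠ s in 𝓝 (0 : Fin d → ℝ), ∀ p ∈ K, γ ≤ detg (fun r => Hn (n + 1) (s, r)) p ∧
        γ ≤ coefX (fun _ : R2 => (1 : ℝ)) G (fun r => Hn (n + 1) (s, r)) p ∧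
        γ ≤ coefRaw G (fun r => Hn (n + 1) (s, r)) p := by
      refine hK.eventually_forall_of_forall_eventually fun p hp => ?_
      have e : (fun r => Hn (n + 1) ((0 : Fin d → ℝ), r)) = f := funext (hHn0 _)
      exact eventually_low (hHn _) hG (by rw [e]; exact hlow p (hKN hp))
        (by rw [e]; exact hi p (hKN hp))
    obtain ⟨ε₁, hε₁, hlow'⟩ := Metric.eventually_nhds_iff.1 hlow'
    choose Cd hCd0 hCd using hyd (n + 1)
    set S1 := ∑ i ∈ range (n + 2), C (n + 1) i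
    set S2 := ∑ i ∈ range (a + 1), Cd i
    have hS1 : 0 ≤ S1 := sum_nonneg fun i _ => hC0 _ i
    have hS2 : 0 ≤ S2 := sum_nonneg fun i _ => hCd0 i
    refine ⟨min (min δ₀ (ε₁ / 2)) (min (min 1 (1 / (S1 + 1))) (1 / (S2 + 1))), by positivity,
      fun s hs => ?_⟩
    obtain ⟨⟨hsδ, hsε⟩, ⟨hs1, hsS1⟩, hsS2⟩ : (‖s‖ ≤ δ₀ ∧ ‖s‖ ≤ ε₁ / 2) ∧
        (‖s‖ ≤ 1 ∧ ‖s‖ ≤ 1 / (S1 + 1)) ∧ ‖s‖ ≤ 1 / (S2 + 1) := by
      simpa only [le_min_iff, and_assoc] using hs
    have hsl := contDiff_slice (hHn (n + 1)) s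
    rcases (norm_nonneg s).eq_or_lt with h | h
    · obtain rfl : s = 0 := norm_eq_zero.1 h.symm
      refine ⟨f, hf, fun _ _ => rfl, h0, fun i _ p => ?_⟩
      rw [show (fun q => f q - Hn (n + 1) ((0 : Fin d → ℝ), q)) = fun _ => 0 from
        funext fun q => by rw [hHn0, sub_self]]
      simp
    · refine hex ‖s‖ h hsδ _ hsl (hHnK _ s) (fun i p hp => ?_) (fun p hp => ?_) fun i hi' p hp => ?_
      · have hb : ‖iteratedFDeriv ℝ i (fun r => Hn (n + 1) (s, r)) p‖
            ≤ |Bf i| + C (n + 1) i * ‖s‖ := by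
          have e : (fun r => Hn (n + 1) (s, r)) = f + fun r => Hn (n + 1) (s, r) - f r := by
            funext r; simp
          rw [e, iteratedFDeriv_add_apply (hf.of_le (by exact_mod_cast le_top)).contDiffAt
            ((hsl.sub hf).of_le (by exact_mod_cast le_top)).contDiffAt]
          refine (norm_add_le _ _).trans (add_le_add ?_ (by simpa using hC (n + 1) i s hs1 p))
          obtain ⟨⟨x0, x1⟩, y0, y1⟩ := hNsq hp
          exact (hBf i p ⟨⟨x0.le, x1.le⟩, y0.le, y1.le⟩).trans (le_abs_self _)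
        have hsum : 0 ≤ ∑ l ∈ range (i + 1), C l i := sum_nonneg fun l _ => hC0 l i
        have hBi : |Bf i| + C (n + 1) i * ‖s‖ ≤ B i := by
          rcases Nat.lt_or_ge i (n + 2) with hlt | hge
          · have h1 : C (n + 1) i ≤ S1 := single_le_sum (fun l _ => hC0 _ l) (mem_range.2 hlt)
            rw [le_div_iff₀ (by positivity)] at hsS1
            show _ ≤ |Bf i| + 1 + _
            nlinarith [norm_nonneg s]
          · have h1 : C (n + 1) i ≤ ∑ l ∈ range (i + 1), C l i :=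
              single_le_sum (f := fun l => C l i) (fun l _ => hC0 l i) (mem_range.2 (by omega))
            have := mul_le_of_le_one_right (hC0 (n + 1) i) hs1
            show _ ≤ |Bf i| + 1 + _
            linarith
        refine (hb.trans hBi).trans (le_mul_of_one_le_right ?_ (one_le_pow₀ ((one_le_inv₀ h).2 hs1)))
        show 0 ≤ |Bf i| + 1 + _
        positivity
      · by_cases hpK : p ∈ K
        · exact hlow' (by rw [dist_zero_right]; linarith) p hpK
        · have e : (fun r => Hn (n + 1) (s, r)) =ᶠ[𝓝 p] f :=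
            eventually_of_mem (hK.isClosed.isOpen_compl.mem_nhds hpK) fun r hr => hHnK _ s r hr
          have ex : Algebra.dx (fun r => Hn (n + 1) (s, r)) =ᶠ[𝓝 p] Algebra.dx f :=
            e.fderiv.mono fun r hr => congrArg (fun L : R2 →L[ℝ] V4 => L (1, 0)) hr
          have ey : Algebra.dy (fun r => Hn (n + 1) (s, r)) =ᶠ[𝓝 p] Algebra.dy f :=
            e.fderiv.mono fun r hr => congrArg (fun L : R2 →L[ℝ] V4 => L (0, 1)) hr
          obtain ⟨l1, l2, l3⟩ := hlow p hp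
          simp only [detg, coefX, coefRaw, nX, v1, v2, rinv, g11, g12, g22, F11, F12, F22,
            Algebra.dx, Algebra.dy, ex.fderiv_eq, ey.fderiv_eq, e.fderiv_eq] at l1 l2 l3 ⊢
          exact ⟨l1.le, l2.le, l3.le⟩
      · refine (hCd i s hs1 p hp).trans ?_
        have h1 : Cd i ≤ S2 := single_le_sum (fun l _ => hCd0 l) (mem_range.2 (by omega))
        rw [le_div_iff₀ (by positivity)] at hsS2
        calc Cd i * ‖s‖ ^ (n + 1 + 1) ≤ S2 * ‖s‖ * ‖s‖ ^ (n + 1) := by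
              rw [pow_succ' _ (n + 1), ← mul_assoc]
              gcongr
          _ ≤ 1 * ‖s‖ ^ (n + 1) := mul_le_mul_of_nonneg_right (by nlinarith) (by positivity)
          _ ≤ ‖s‖ ^ n := by
              rw [one_mul]; exact pow_le_pow_of_le_one (norm_nonneg _) hs1 (Nat.le_succ n)

end

end Vale.Agent.P205.Round1
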