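import Vale.Agent.P205.Full.Round1.Statement
import Vale.Agent.P205.Full.Round1.Directions
import Vale.Agent.P205.Full.Bridge.Plane
import Vale.Agent.P205.Generic.Jet2

/-!
# P205, round one: the swapped chart and the charts of the form `(x, y) ↦ (·, x)`
-/

namespace Vale.Agent.P205.Round1

open scoped ContDiff RealInnerProductSpace
open Set Metric Vale.Agent.P205.Algebra
open Vale.Agent.P205.Generic (one)

noncomputable section

/-- The two coordinates swapped. -/
def swapC (q : R2) : R2 := (q.2, q.1)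

lemma swapC_swapC (q : R2) : swapC (swapC q) = q := rfl

lemma contDiff_swapC : ContDiff ℝ ∞ swapC := contDiff_snd.prodMk contDiff_fst

lemma fderiv_comp_swapC {U : Type*} [NormedAddCommGroup U] [NormedSpace ℝ U] {u : R2 → U} {q : R2}
    (hu : DifferentiableAt ℝ u (swapC q)) (v : R2) :
    fderiv ℝ (u ∘ swapC) q v = fderiv ℝ u (swapC q) (swapC v) := by
  have h := (hu.hasFDerivAt.comp q ((hasFDerivAt_snd (p := q)).prodMk hasFDerivAt_fst)).fderiv
  exact DFunLike.congr_fun h v

variable {f : R2 → V4} (hf : ContDiff ℝ ∞ f) (q : R2)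
include hf

lemma swap_jets : Algebra.dx (f ∘ swapC) q = Algebra.dy f (swapC q) ∧
    Algebra.dy (f ∘ swapC) q = Algebra.dx f (swapC q) ∧
    F22 (f ∘ swapC) q = F11 f (swapC q) := by
  have hd := hf.differentiable (by simp)
  have e : Algebra.dy (f ∘ swapC) = Algebra.dx f ∘ swapC := funext fun x =>
    fderiv_comp_swapC (hd _) (0, 1)
  refine ⟨fderiv_comp_swapC (hd _) (1, 0), congrFun e q, ?_⟩
  rw [F22, e]
  exact fderiv_comp_swapC
    ((((hf.fderiv_right (m := ∞) le_rfl).clm_apply contDiff_const).differentiable (by simp)) _)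
    (0, 1)

theorem detg_swap : detg (f ∘ swapC) q = detg f (swapC q) := by
  obtain ⟨e1, e2, -⟩ := swap_jets hf q
  simp only [detg, g11, g12, g22, e1, e2,
    real_inner_comm (Algebra.dx f (swapC q)) (Algebra.dy f (swapC q))]
  ring

theorem n0_swap : Algebra.n0 one (f ∘ swapC) q = nX one f (swapC q) := by
  obtain ⟨e1, e2, e22⟩ := swap_jets hf q
  simp only [Algebra.n0, nX, v1, v2, rinv, detg_swap hf q, g11, g12, g22, e1, e2, e22, one,
    real_inner_comm (Algebra.dx f (swapC q)) (Algebra.dy f (swapC q))]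
  abel

theorem Wsq_swap : Wsq one (f ∘ swapC) q = ⟪nX one f (swapC q), nX one f (swapC q)⟫ := by
  rw [Wsq, n0_swap hf q]

omit hf

variable {p : R2}

/-- An immersion has positive `g` and `g11`. -/
lemma detg_g11_pos (hd : detg f p ≠ 0) : 0 < detg f p ∧ 0 < g11 f p := by
  have h := (Bridge.detg_nonneg f p).lt_of_ne' hd
  refine ⟨h, ?_⟩
  have h11 : 0 ≤ g11 f p := real_inner_self_nonneg
  refine h11.lt_of_ne' fun h0 => ?_
  rw [detg, h0] at h
  nlinarith

lemma nX_normal (hd : detg f p ≠ 0) :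
    ⟪nX one f p, Algebra.dx f p⟫ = 0 ∧ ⟪nX one f p, Algebra.dy f p⟫ = 0 := by
  simp only [nX, v1, v2, rinv, one, inner_sub_left, real_inner_smul_left, sub_self, add_zero]
  simp only [← g11.eq_def, ← g12.eq_def, ← g22.eq_def,
    real_inner_comm (Algebra.dx f p) (Algebra.dy f p)]
  constructor <;> field_simp <;> simp only [detg] <;> ring

lemma inner_F11_nX (hd : detg f p ≠ 0) :
    ⟪F11 f p, nX one f p⟫ = ⟪nX one f p, nX one f p⟫ := by
  obtain ⟨h1, h2⟩ := nX_normal hd
  have hv1 : ⟪nX one f p, v1 one f p⟫ = 0 := by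
    simp [v1, inner_sub_right, real_inner_smul_right, h1, h2]
  have hv2 : ⟪nX one f p, v2 one f p⟫ = 0 := by
    simp [v2, inner_sub_right, real_inner_smul_right, h1, h2]
  have e : F11 f p = nX one f p + ⟪F11 f p, Algebra.dx f p⟫ • v1 one f p
      + ⟪F11 f p, Algebra.dy f p⟫ • v2 one f p := by simp only [nX]; abel
  rw [real_inner_comm, e]
  simp only [inner_add_right, real_inner_smul_right, hv1, hv2]
  ring

lemma nX_ne_zero (h : F11 f p ∉ range (fderiv ℝ f p)) : nX one f p ≠ 0 := fun h0 => h <| by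
  rw [nX, sub_eq_zero, sub_eq_iff_eq_add, v1, v2] at h0
  refine ⟨_, (Bridge.fderiv_apply_eq f p (rinv one (detg f) p *
      (⟪F11 f p, Algebra.dx f p⟫ * g22 f p - ⟪F11 f p, Algebra.dy f p⟫ * g12 f p),
    rinv one (detg f) p *
      (⟪F11 f p, Algebra.dy f p⟫ * g11 f p - ⟪F11 f p, Algebra.dx f p⟫ * g12 f p))).trans ?_⟩
  conv_rhs => rw [h0]
  module

variable {B : R2 → ℝ}

theorem rdet_base (f : R2 → V4) (B : R2 → ℝ) (p : R2) :
    rdet ((fun x => metF f x + ![0, 0, B x]) p - metF f p) = 0 := by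
  simp only [rdet, add_sub_cancel_left, Matrix.cons_val_zero, Matrix.cons_val_one, Matrix.cons_val]
  ring

theorem coefX_base (hd : detg f p ≠ 0) : coefX one (fun x => metF f x + ![0, 0, B x]) f p =
    B p * ‖nX one f p‖ ^ 2 := by
  simp only [coefX, Pi.add_apply, metF, Matrix.cons_val_zero, Matrix.cons_val_one, Matrix.cons_val,
    inner_F11_nX hd, real_inner_self_eq_norm_sq]
  ring

theorem coefRaw_base : coefRaw (fun x => metF f x + ![0, 0, B x]) f p = B p * ‖F11 f p‖ ^ 2 := by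
  simp only [coefRaw, Pi.add_apply, metF, Matrix.cons_val_zero, Matrix.cons_val_one,
    Matrix.cons_val, real_inner_self_eq_norm_sq]
  ring

theorem tilt_base : tilt (fun x => metF f x + ![0, 0, B x]) f p = B p * g11 f p := by
  simp only [tilt, mdet_apply, add_sub_cancel_left, Matrix.cons_val_zero, Matrix.cons_val_one, Matrix.cons_val]
  ring

/-- All coefficients of round one are positive. -/
theorem base_pos (hd : detg f p ≠ 0) (hB : 0 < B p) (hF : F11 f p ∉ range (fderiv ℝ f p)) :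
    0 < detg f p ∧ 0 < coefX one (fun x => metF f x + ![0, 0, B x]) f p ∧
      0 < coefRaw (fun x => metF f x + ![0, 0, B x]) f p ∧
      0 < tilt (fun x => metF f x + ![0, 0, B x]) f p := by
  obtain ⟨h, h11⟩ := detg_g11_pos hd
  rw [coefX_base hd, coefRaw_base, tilt_base]
  refine ⟨h, mul_pos hB (pow_pos (norm_pos_iff.2 (nX_ne_zero hF)) 2),
    mul_pos hB (pow_pos (norm_pos_iff.2 fun h0 => hF ⟨0, by rw [map_zero, h0]⟩) 2), mul_pos hB h11⟩

/-- A map close to the swap covers the centre. -/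
theorem exists_preimage {φ : R2 → R2} (hφ : Continuous φ) (h2 : ∀ q, (φ q).2 = q.1) {ρ : ℝ}
    (hρ : 0 ≤ ρ) (h : ∀ q ∈ closedBall (swapC p) ρ, |(φ q).1 - q.2| ≤ ρ) :
    ∃ q ∈ closedBall (swapC p) ρ, φ q = p := by
  have hmem : ∀ t ∈ Icc (p.1 - ρ) (p.1 + ρ), ((p.2, t) : R2) ∈ closedBall (swapC p) ρ := by
    intro t ht
    rw [mem_closedBall, Prod.dist_eq, max_le_iff, Real.dist_eq, Real.dist_eq]
    exact ⟨by simpa [swapC] using hρ, abs_le.2 ⟨by simp [swapC]; linarith [ht.1],
      by simp [swapC]; linarith [ht.2]⟩⟩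
  set g : ℝ → ℝ := fun t => (φ (p.2, t)).1
  have hl := abs_le.1 (h _ (hmem (p.1 - ρ) ⟨le_rfl, by linarith⟩))
  have hu := abs_le.1 (h _ (hmem (p.1 + ρ) ⟨by linarith, le_rfl⟩))
  obtain ⟨t, ht, he⟩ := intermediate_value_Icc (f := g) (by linarith)
    (continuous_fst.comp (hφ.comp (continuous_const.prodMk continuous_id))).continuousOn
    (show p.1 ∈ Icc (g (p.1 - ρ)) (g (p.1 + ρ)) from
      ⟨by simp only [g] at hl ⊢; linarith [hl.2], by simp only [g] at hu ⊢; linarith [hu.1]⟩)
  exact ⟨(p.2, t), hmem t ht, Prod.ext he (h2 _)⟩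

/-- A chart of this form is regular where it moves along the second coordinate. -/
theorem injective_of_chart {φ : R2 → R2} (hφ : Differentiable ℝ φ) (h2 : ∀ q, (φ q).2 = q.1)
    {q : R2} (h : (fderiv ℝ φ q (0, 1)).1 ≠ 0) : Function.Injective (fderiv ℝ φ q) := by
  refine (injective_iff_map_eq_zero _).2 fun v hv => ?_
  have e : (ContinuousLinearMap.snd ℝ ℝ ℝ).comp (fderiv ℝ φ q) = ContinuousLinearMap.fst ℝ ℝ ℝ := by
    have h' := (hasFDerivAt_snd.comp q (hφ q).hasFDerivAt).fderiv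
    rw [show (Prod.snd ∘ φ) = Prod.fst from funext h2, fderiv_fst] at h'
    exact h'.symm
  have h1 : v.1 = 0 := by simpa [hv] using (DFunLike.congr_fun e v).symm
  have hv2 : v = v.2 • ((0 : ℝ), (1 : ℝ)) := Prod.ext (by simp [h1]) (by simp)
  rw [hv2, map_smul] at hv
  have := (mul_eq_zero.1 (show v.2 * (fderiv ℝ φ q (0, 1)).1 = 0 from congrArg Prod.fst hv)).resolve_right h
  exact Prod.ext h1 this

end

end Vale.Agent.P205.Round1
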