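import Vale.Agent.P205.Full.Round1.Stage
import Vale.Agent.P205.Full.Round1.Conds
import Vale.Agent.P205.Full.Round1.Swap

/-!
# P205, round one: states and open conditions

`Adm` is the state between two stages and `advance` one stage which keeps an open condition and
an arbitrary budget of smallness.
-/

namespace Vale.Agent.P205.Round1

open scoped ContDiff Topology
open Set Filter Metric Vale.Agent.P205.Full Vale.Agent.P205.Algebra Vale.Agent.P205.Bridge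

noncomputable section

/-- The map read in the chart is nondegenerate on `Q`. -/
def NDOn (Q : Set R2) (g : R2 → V4) : Prop :=
  ∀ q ∈ Q, detg g q ≠ 0 ∧ Wsq (fun _ : R2 => (1 : ℝ)) g q ≠ 0

/-- The property survives small changes of jets on `QQ`. -/
def Persist (QQ : Set R2) (P : (R2 → V4) → Prop) (g : R2 → V4) : Prop :=
  ∃ n₀ : ℕ, ∀ n, n₀ ≤ n → ∀ g' : R2 → V4, ContDiff ℝ ∞ g' →
    (∀ q ∈ QQ, ‖J n g' q - J n g q‖ ≤ 1 / ((n : ℝ) + 1)) → P g'

/-- A property which is open at nondegenerate maps. -/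
def OpenCond (Q QQ : Set R2) (P : (R2 → V4) → Prop) : Prop :=
  ∀ g : R2 → V4, ContDiff ℝ ∞ g → NDOn Q g → P g → Persist QQ P g

lemma OpenCond.of_true (Q QQ : Set R2) : OpenCond Q QQ fun _ => True :=
  fun _ _ _ _ => ⟨0, fun _ _ _ _ _ => trivial⟩

lemma OpenCond.and {Q QQ : Set R2} {P P' : (R2 → V4) → Prop} (h : OpenCond Q QQ P)
    (h' : OpenCond Q QQ P') : OpenCond Q QQ fun g => P g ∧ P' g := fun g hg hn hp => by
  obtain ⟨n₀, H⟩ := h g hg hn hp.1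
  obtain ⟨n₁, H'⟩ := h' g hg hn hp.2
  exact ⟨max n₀ n₁, fun n hn' g' hg' hc =>
    ⟨H n (le_of_max_le_left hn') g' hg' hc, H' n (le_of_max_le_right hn') g' hg' hc⟩⟩

/-- The jet function takes its values in `O` on `S`. -/
def ValIn {U : Type*} (S : Set R2) (c : (R2 → V4) → R2 → U) (O : Set U) (g : R2 → V4) : Prop :=
  ∀ q ∈ S, c g q ∈ O

lemma OpenCond.valIn {U : Type*} [NormedAddCommGroup U] [NormedSpace ℝ U]
    {c : (R2 → V4) → R2 → U} (hc : CF ι (NDeg ι) c) {Q QQ S : Set R2} (hS : IsCompact S)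
    (hSQ : S ⊆ Q) (hQ : Q ⊆ QQ) {O : Set U} (hO : IsOpen O) : OpenCond Q QQ (ValIn S c O) :=
  fun g hg hn hp => by
    obtain ⟨n₀, H⟩ := exists_stable hc hg hS hO fun q hq =>
      ⟨⟨by rw [comp_symm_comp]; exact (hn q (hSQ hq)).1,
        by rw [comp_symm_comp]; exact (hn q (hSQ hq)).2⟩, hp q hq⟩
    exact ⟨n₀, fun n hn' g' hg' hcl => H n hn' g' hg' fun q hq => hcl q (hQ (hSQ hq))⟩

/-- The fixed data of round one in a cell. -/
structure Data where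
  /-- the open set where the equation holds -/
  N : Set R2
  /-- where the map is bounded below -/
  K : Set R2
  /-- where the directions live -/
  K1 : Set R2
  /-- the chart points -/
  Q : Set R2
  /-- where jets are compared -/
  QQ : Set R2
  /-- the original map -/
  f0 : R2 → V4
  /-- the target -/
  G : R2 → Fin 3 → ℝ
  /-- the lower bound -/
  γ : ℝ
  /-- the room of the chart -/
  ρ : ℝ
  isOpen : IsOpen N
  N_sq : N ⊆ sq
  N_K : N ⊆ K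
  isCompact_K : IsCompact K
  isCompact_K1 : IsCompact K1
  K1_N : K1 ⊆ N
  isCompact_Q : IsCompact Q
  isCompact_QQ : IsCompact QQ
  Q_QQ : Q ⊆ QQ
  K_QQ : K ⊆ QQ
  smooth_G : ContDiff ℝ ∞ G
  γ_pos : 0 < γ

/-- The state between two stages. -/
structure Adm (D : Data) (f : R2 → V4) (φ : R2 → R2) : Prop where
  smooth : ContDiff ℝ ∞ f
  smooth_chart : ContDiff ℝ ∞ φ
  off : ∀ p ∉ D.N, f p = D.f0 p
  exact' : ∀ p ∈ D.N, rdet (D.G p - metF f p) = 0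
  low : ∀ p ∈ D.K, D.γ < detg f p ∧ D.γ < coefX (fun _ : R2 => (1 : ℝ)) D.G f p ∧ D.γ < coefRaw D.G f p ∧
    tilt D.G f p ≠ 0
  snd : ∀ q, (φ q).2 = q.1
  chart : ∀ q ∈ D.Q, φ q ∈ interior D.K1 ∧ (fderiv ℝ φ q (0, 1)).1 ≠ 0 ∧
    |(φ q).1 - q.2| < D.ρ
  nd : NDOn D.Q (f ∘ φ)

/-- Open conditions on continuous functions survive small changes. -/
lemma stable_map {U : Type*} [NormedAddCommGroup U] {u : R2 → U} (hu : Continuous u) {S : Set R2}
    (hS : IsCompact S) {O : Set U} (hO : IsOpen O) (h : ∀ q ∈ S, u q ∈ O) :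
    ∃ n₀ : ℕ, ∀ n, n₀ ≤ n → ∀ v : R2 → U,
      (∀ q ∈ S, ‖v q - u q‖ ≤ 1 / ((n : ℝ) + 1)) → ∀ q ∈ S, v q ∈ O := by
  obtain ⟨δ, hδ, hδO⟩ := (hS.image hu).exists_cthickening_subset_open hO
    (by rintro _ ⟨q, hq, rfl⟩; exact h q hq)
  obtain ⟨k, hk⟩ := exists_nat_one_div_lt hδ
  refine ⟨k, fun n hn v hv q hq => hδO (mem_cthickening_of_dist_le _ _ δ _
    (mem_image_of_mem _ hq) ?_)⟩
  rw [dist_eq_norm]
  exact (hv q hq).trans (le_trans (by gcongr) hk.le)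

variable {D : Data}

/-- **One stage keeping an open condition.** -/
theorem advance {f : R2 → V4} {φ : R2 → R2} (hA : Adm D f φ)
    {P : (R2 → V4) → Prop} (hP : OpenCond D.Q D.QQ P) (hPf : P (f ∘ φ)) {S : Set R2}
    (hS : IsCompact S) (hSQ : S ⊆ D.Q) {Φ : Fin 3 → (R2 → V4) → R2 → ℝ}
    (hΦ : CF ι (NDeg ι) fun g q l => Φ l g q)
    (hsee : ∀ q ∈ S, (∀ l, Φ l (f ∘ φ) q = 0) → Sees Φ (f ∘ φ) q) (r : ℕ) {η : ℝ} (hη : 0 < η) :
    ∃ F φ', Adm D F φ' ∧ P (F ∘ φ') ∧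
      ValIn S (fun g q l => Φ l g q) {0}ᶜ (F ∘ φ') ∧
      ∀ i ≤ r, ∀ p, ‖iteratedFDeriv ℝ i (fun x => F x - f x) p‖ ≤ η := by
  have hf := hA.smooth
  have hg : ContDiff ℝ ∞ (f ∘ φ) := hf.comp hA.smooth_chart
  obtain ⟨n1, h1⟩ := hP _ hg hA.nd hPf
  have hK : ∀ {U : Type} [NormedAddCommGroup U] [NormedSpace ℝ U] {c : (R2 → V4) → R2 → U},
      CF ι ND1 c → ∀ {O : Set U}, IsOpen O → (∀ p ∈ D.K, c f p ∈ O) → ∃ n₀ : ℕ, ∀ n, n₀ ≤ n →
        ∀ g' : R2 → V4, ContDiff ℝ ∞ g' →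
        (∀ q ∈ D.K, ‖J n g' q - J n f q‖ ≤ 1 / ((n : ℝ) + 1)) → ∀ q ∈ D.K, c g' q ∈ O :=
    fun hc O hO h => exists_stable hc hf D.isCompact_K hO fun q hq =>
      ⟨by show detg _ q ≠ 0; rw [comp_symm_comp]; exact (D.γ_pos.trans (hA.low q hq).1).ne', h q hq⟩
  obtain ⟨n2, h2⟩ := hK cf_detg isOpen_Ioi fun p hp => (hA.low p hp).1
  obtain ⟨n3, h3⟩ := hK (cf_coefX D.smooth_G) isOpen_Ioi fun p hp => (hA.low p hp).2.1
  obtain ⟨n4, h4⟩ := hK (cf_coefRaw D.smooth_G) isOpen_Ioi fun p hp => (hA.low p hp).2.2.1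
  obtain ⟨n5, h5⟩ := hK (cf_tilt D.smooth_G) isOpen_compl_singleton fun p hp => (hA.low p hp).2.2.2
  obtain ⟨n6, h6⟩ := stable_map hA.smooth_chart.continuous D.isCompact_Q isOpen_interior
    fun q hq => (hA.chart q hq).1
  obtain ⟨n7, h7⟩ := stable_map (hA.smooth_chart.continuous_fderiv (by simp)) D.isCompact_Q
    (O := {L : R2 →L[ℝ] R2 | (L (0, 1)).1 ≠ 0})
    (isOpen_ne.preimage (by fun_prop)) fun q hq => (hA.chart q hq).2.1
  obtain ⟨n8, h8⟩ := stable_map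
    (u := fun q => (φ q).1 - q.2) ((continuous_fst.comp hA.smooth_chart.continuous).sub
      continuous_snd) D.isCompact_Q (isOpen_Iio.preimage continuous_abs)
    fun q hq => (hA.chart q hq).2.2
  obtain ⟨n9, h9⟩ := exists_stable (c := fun g q => (detg g q, Wsq (fun _ : R2 => (1 : ℝ)) g q))
    (ND := NDeg ι) ((cf_metric ι.contDiff).2.2.2.prod (cf_frame ι.contDiff fun _ => rfl).2.2.2.2.1)
    hg D.isCompact_Q ((isOpen_ne.preimage continuous_fst).inter (isOpen_ne.preimage continuous_snd))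
    fun q hq => ⟨⟨by rw [comp_symm_comp]; exact (hA.nd q hq).1,
      by rw [comp_symm_comp]; exact (hA.nd q hq).2⟩, hA.nd q hq⟩
  obtain ⟨k, hk⟩ := exists_nat_one_div_lt hη
  set n := n1 + n2 + n3 + n4 + n5 + n6 + n7 + n8 + n9 + k + r with hn
  obtain ⟨F, φ', hM, hz⟩ := exists_stage D.isOpen D.N_sq D.isCompact_K1 D.K1_N hf D.smooth_G
    hA.exact' D.γ_pos (fun p hp => ⟨(hA.low p (D.N_K hp)).1, (hA.low p (D.N_K hp)).2.1,
      (hA.low p (D.N_K hp)).2.2.1⟩)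
    hA.smooth_chart D.isCompact_QQ hS (hSQ.trans D.Q_QQ)
    (fun q hq => ⟨(hA.chart q (hSQ hq)).1, injective_of_chart (hA.smooth_chart.differentiable (by simp))
      hA.snd (hA.chart q (hSQ hq)).2.1, (hA.low _ (D.N_K (D.K1_N (interior_subset
      (hA.chart q (hSQ hq)).1)))).2.2.2, (hA.nd q (hSQ hq)).1, (hA.nd q (hSQ hq)).2⟩)
    hΦ hsee n
  have hF := hM.smooth
  have hφ' := hM.smooth_chart
  have hj : ∀ q ∈ D.K, ‖J n F q - J n f q‖ ≤ 1 / ((n : ℝ) + 1) := fun q hq =>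
    hM.jet q (D.K_QQ hq)
  have hjc : ∀ q ∈ D.Q, ‖J n (F ∘ φ') q - J n (f ∘ φ) q‖ ≤ 1 / ((n : ℝ) + 1) := fun q hq =>
    hM.jet_chart q (D.Q_QQ hq)
  refine ⟨F, φ', ⟨hF, hφ', fun p hp => (hM.off p hp).trans (hA.off p hp), hM.exact',
    fun p hp => ⟨h2 n (by omega) F hF hj p hp, h3 n (by omega) F hF hj p hp,
      h4 n (by omega) F hF hj p hp, h5 n (by omega) F hF hj p hp⟩,
    fun q => (hM.snd q).trans (hA.snd q), fun q hq => ?_,
    fun q hq => h9 n (by omega) _ (hF.comp hφ') hjc q hq⟩,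
    h1 n (by omega) _ (hF.comp hφ') hM.jet_chart, fun q hq h => ?_, fun i hi p => ?_⟩
  · refine ⟨h6 n (by omega) φ' (fun x hx => (hM.chart x (D.Q_QQ hx)).1) q hq,
      h7 n (by omega) (fderiv ℝ φ') (fun x hx => (hM.chart x (D.Q_QQ hx)).2) q hq,
      h8 n (by omega) (fun x => (φ' x).1 - x.2) (fun x hx => ?_) q hq⟩
    rw [sub_sub_sub_cancel_right, ← Prod.fst_sub]
    exact (norm_fst_le _).trans (hM.chart x (D.Q_QQ hx)).1
  · obtain ⟨l, hl⟩ := hz q hq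
    exact hl (congrFun (h : (fun l => Φ l (F ∘ φ') q) = 0) l)
  · refine (hM.near i (by omega) p).trans (le_trans ?_ hk.le)
    gcongr
    omega

/-- A state with the conditions `P`, close to a given one. -/
def Reach (D : Data) (r : ℕ) (f₀ : R2 → V4) (P : (R2 → V4) → Prop) : Prop :=
  ∀ η > (0 : ℝ), ∃ F φ, Adm D F φ ∧ P (F ∘ φ) ∧
    ∀ i ≤ r, ∀ p, ‖iteratedFDeriv ℝ i (fun x => F x - f₀ x) p‖ ≤ η

lemma Reach.mono {r : ℕ} {f₀ : R2 → V4} {P P' : (R2 → V4) → Prop} (h : Reach D r f₀ P)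
    (hPP : ∀ g, P g → P' g) : Reach D r f₀ P' := fun η hη => by
  obtain ⟨F, φ, hA, hp, hc⟩ := h η hη
  exact ⟨F, φ, hA, hPP _ hp, hc⟩

/-- One stage in terms of `Reach`. -/
theorem Reach.step {r : ℕ} {f₀ : R2 → V4} (hf₀ : ContDiff ℝ ∞ f₀)
    {P : (R2 → V4) → Prop} (h : Reach D r f₀ P) (hP : OpenCond D.Q D.QQ P) {S : Set R2}
    (hS : IsCompact S) (hSQ : S ⊆ D.Q) {Φ : Fin 3 → (R2 → V4) → R2 → ℝ}
    (hΦ : CF ι (NDeg ι) fun g q l => Φ l g q)
    (hsee : ∀ g : R2 → V4, ContDiff ℝ ∞ g → NDOn D.Q g → P g → ∀ q ∈ S,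
      (∀ l, Φ l g q = 0) → Sees Φ g q) :
    Reach D r f₀ fun g => P g ∧ ValIn S (fun g q l => Φ l g q) {0}ᶜ g := fun η hη => by
  obtain ⟨f, φ, hA, hp, hc⟩ := h (η / 2) (half_pos hη)
  obtain ⟨F, φ', hA', hp', hv, hc'⟩ := advance hA hP hp hS hSQ hΦ
    (hsee _ (hA.smooth.comp hA.smooth_chart) hA.nd hp) r (half_pos hη)
  refine ⟨F, φ', hA', ⟨hp', hv⟩, fun i hi p => ?_⟩
  rw [show (fun x => F x - f₀ x) = (fun x => F x - f x) + fun x => f x - f₀ x from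
    funext fun x => by simp,
    iteratedFDeriv_add_apply ((hA'.smooth.sub hA.smooth).of_le (by exact_mod_cast le_top)).contDiffAt
      ((hA.smooth.sub hf₀).of_le (by exact_mod_cast le_top)).contDiffAt]
  linarith [norm_add_le (iteratedFDeriv ℝ i (fun x => F x - f x) p)
    (iteratedFDeriv ℝ i (fun x => f x - f₀ x) p), hc i hi p, hc' i hi p]

end

end Vale.Agent.P205.Round1
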