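import Vale.Agent.P205.Full.Round1.Statement
import Vale.Agent.P205.Full.Round1.Stages

/-!
# P205, round one in a cell

The twelve stages of genericity, and the proof of `PlaneGenericStatement`.
-/

namespace Vale.Agent.P205.Round1

open scoped ContDiff Topology RealInnerProductSpace
open Set Filter Metric Vale.Agent.P205.Full Vale.Agent.P205.Bridge
open Vale.Agent.P205.Algebra (V4 cP cR detg Wsq criterion mainMult metF rdet F11 coefX nX dx dy g11)
open Vale.Agent.P205.Generic (one tq jac sx dck kdet quad0 sx_six dck_zero)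

noncomputable section

/-- A vector of jet functions. -/
def vec (Φ : Fin 3 → (R2 → V4) → R2 → ℝ) : (R2 → V4) → R2 → Fin 3 → ℝ := fun g q l => Φ l g q

lemma ne_zero_of_first {Φ : Fin 3 → (R2 → V4) → R2 → ℝ} {g : R2 → V4} {q : R2}
    (h : vec Φ g q ∈ ({0}ᶜ : Set (Fin 3 → ℝ))) (h0 : Φ 0 g q = 0) (h1 : Φ 1 g q = 0) :
    Φ 2 g q ≠ 0 := fun h2 => h <| by
  funext l
  fin_cases l <;> [exact h0; exact h1; exact h2]

/-- The triangle inequality for derivatives of differences. -/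
lemma norm_iter_triangle {a b c : R2 → V4} (ha : ContDiff ℝ ∞ a) (hb : ContDiff ℝ ∞ b)
    (hc : ContDiff ℝ ∞ c) (i : ℕ) (p : R2) :
    ‖iteratedFDeriv ℝ i (fun x => a x - c x) p‖ ≤
      ‖iteratedFDeriv ℝ i (fun x => a x - b x) p‖ + ‖iteratedFDeriv ℝ i (fun x => b x - c x) p‖ := by
  rw [show (fun x => a x - c x) = (fun x => a x - b x) + fun x => b x - c x from
    funext fun x => by simp,
    iteratedFDeriv_add_apply ((ha.sub hb).of_le (by exact_mod_cast le_top)).contDiffAt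
      ((hb.sub hc).of_le (by exact_mod_cast le_top)).contDiffAt]
  exact norm_add_le _ _

variable {D : Data} {r : ℕ} {f₀ : R2 → V4}

/-- The stages on the stratum `c = 0`. -/
theorem reach_strata (hf₀ : ContDiff ℝ ∞ f₀)
    (h : Reach D r f₀ fun _ => True) :
    Reach D r f₀ fun g => ValIn D.Q (vec ![cP one, cR one, jac]) {0}ᶜ g ∧
      ValIn D.Q (vec ![cP one, cR one, sx 0]) {0}ᶜ g := by
  have hQ := D.isCompact_Q
  have oc : ∀ {c₂ : (R2 → V4) → R2 → ℝ}, CF ι (NDeg ι) c₂ →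
      OpenCond D.Q D.QQ (ValIn D.Q (vec ![cP one, cR one, c₂]) {0}ᶜ) := fun hc =>
    OpenCond.valIn (cf_vec3 cf_cP cf_cR hc) hQ subset_rfl D.Q_QQ isOpen_compl_singleton
  have h1 : Reach D r f₀ (ValIn D.Q (vec ![cP one, cR one, tq]) {0}ᶜ) :=
    (h.step hf₀ (OpenCond.of_true _ _) hQ subset_rfl (Φ := ![cP one, cR one, tq])
      (cf_vec3 cf_cP cf_cR cf_tq)
      fun g hg hn _ q hq _ => sees_tq hg (hn q hq).1 (hn q hq).2).mono fun g hg => hg.2
  have h2 : Reach D r f₀ (ValIn D.Q (vec ![cP one, cR one, jac]) {0}ᶜ) :=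
    (h1.step hf₀ (oc cf_tq) hQ subset_rfl (Φ := ![cP one, cR one, jac])
      (cf_vec3 cf_cP cf_cR cf_jac)
      fun g hg hn hp q hq hz => sees_jac hg (hn q hq).1 (hn q hq).2
        (ne_zero_of_first (hp q hq) (hz 0) (hz 1))).mono fun g hg => hg.2
  suffices H : ∀ k ≤ 6, Reach D r f₀ fun g => ValIn D.Q (vec ![cP one, cR one, jac]) {0}ᶜ g ∧
      ValIn D.Q (vec ![cP one, cR one, sx (6 - k)]) {0}ᶜ g from H 6 le_rfl
  intro k
  induction k with
  | zero =>
    exact fun _ => h2.mono fun g hg => ⟨hg, fun q _ e => by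
      have h6 := congrFun (e : vec ![cP one, cR one, sx 6] g q = 0) 2
      simp [vec, sx_six] at h6⟩
  | succ k ih =>
    intro hk
    refine ((ih (by omega)).step hf₀ ((oc cf_jac).and (oc (cf_sx _))) hQ subset_rfl
      (Φ := ![cP one, cR one, sx (6 - (k + 1))]) (cf_vec3 cf_cP cf_cR (cf_sx _))
      fun g hg hn hp q hq hz => sees_sx hg (hn q hq).1 (hn q hq).2 _ ?_).mono
        fun g hg => ⟨hg.1.1, hg.2⟩
    rw [show 6 - (k + 1) + 1 = 6 - k by omega]
    exact ne_zero_of_first (hp.2 q hq) (hz 0) (hz 1)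

/-- A closed sublevel piece of a compact set is compact. -/
lemma isCompact_piece {Q : Set R2} (hQ : IsCompact Q) {u : R2 → ℝ} (hu : ContinuousOn u Q)
    {T : Set ℝ} (hT : IsClosed T) : IsCompact (Q ∩ u ⁻¹' T) :=
  hQ.of_isClosed_subset (hu.preimage_isClosed_of_isClosed hQ.isClosed hT) inter_subset_left

lemma continuousOn_cf {U : Type*} [NormedAddCommGroup U] [NormedSpace ℝ U]
    {c : (R2 → V4) → R2 → U} (hc : CF ι (NDeg ι) c) {g : R2 → V4} (hg : ContDiff ℝ ∞ g)
    {Q : Set R2} (hn : NDOn Q g) : ContinuousOn (c g) Q := by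
  obtain ⟨r, E, Gr, hrep, hmem⟩ := exists_rep hc
  exact fun q hq => (rep_contAt hrep hg (hmem g hg q
    ⟨by rw [comp_symm_comp]; exact (hn q hq).1,
      by rw [comp_symm_comp]; exact (hn q hq).2⟩)).continuousWithinAt

/-- The stages away from `c = 0`: the multiplier or a determinant of the chain is nonzero. -/
theorem reach_good (hf₀ : ContDiff ℝ ∞ f₀) (h : Reach D r f₀ fun _ => True) :
    Reach D r f₀ fun g => ∀ q ∈ D.Q,
      mainMult one g q ≠ 0 ∨ ∃ j k, j < k ∧ k ≤ 5 ∧ kdet j k g q ≠ 0 := by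
  intro η hη
  obtain ⟨f, φ, hA, ⟨hjac, hsx⟩, hc⟩ := reach_strata hf₀ h (η / 2) (half_pos hη)
  have hf := hA.smooth
  set g := f ∘ φ
  have hg : ContDiff ℝ ∞ g := hf.comp hA.smooth_chart
  have hn : NDOn D.Q g := hA.nd
  set cc : (R2 → V4) → R2 → Fin 3 → ℝ := vec ![cP one, cR one, fun _ _ => (0 : ℝ)]
  have hcc : CF ι (NDeg ι) cc := cf_vec3 cf_cP cf_cR (JF.const 0)
  have hmm := continuousOn_cf cf_mainMult hg hn
  have hcz : ContinuousOn (fun q => ‖cc g q‖) D.Q := (continuousOn_cf hcc hg hn).norm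
  obtain ⟨μ, hμ, hμle⟩ := D.isCompact_Q.exists_forall_le' (hmm.abs.sup hcz) (a := 0) fun q hq => by
    by_contra hle
    simp only [not_lt, sup_le_iff, abs_nonpos_iff, norm_le_zero_iff] at hle
    have hP : cP one g q = 0 := congrFun hle.2 0
    have hR : cR one g q = 0 := congrFun hle.2 1
    exact mainMult_ne_of_jac_sx hg (hn q hq).1 (hn q hq).2 hP hR
      (ne_zero_of_first (hjac q hq) hP hR) (ne_zero_of_first (hsx q hq) hP hR) hle.1
  set Q0 := D.Q ∩ (fun q => |mainMult one g q|) ⁻¹' Ici (μ / 2)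
  set Q1 := D.Q ∩ (fun q => |mainMult one g q|) ⁻¹' Iic (μ / 2)
  have hQ0 : IsCompact Q0 := isCompact_piece D.isCompact_Q hmm.abs isClosed_Ici
  have hQ1 : IsCompact Q1 := isCompact_piece D.isCompact_Q hmm.abs isClosed_Iic
  set P : (R2 → V4) → Prop := fun g => ValIn Q0 (fun g q => mainMult one g q) {0}ᶜ g ∧
    ValIn Q1 cc {0}ᶜ g with hPdef
  have hPo : OpenCond D.Q D.QQ P := (OpenCond.valIn cf_mainMult hQ0 inter_subset_left D.Q_QQ
    isOpen_compl_singleton).and (OpenCond.valIn hcc hQ1 inter_subset_left D.Q_QQ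
      isOpen_compl_singleton)
  have hPg : P g := ⟨fun q hq e => by
      have := hq.2
      simp only [Set.mem_preimage, Set.mem_Ici, show mainMult one g q = 0 from e, abs_zero] at this
      linarith,
    fun q hq e => by
      have h1 : μ ≤ max |mainMult one g q| ‖cc g q‖ := hμle q hq.1
      have h2 : |mainMult one g q| ≤ μ / 2 := hq.2
      rw [show cc g q = 0 from e, norm_zero, max_eq_left (abs_nonneg _)] at h1
      linarith⟩
  have hcne : ∀ {g : R2 → V4}, P g → ∀ q ∈ Q1, cP one g q ≠ 0 ∨ cR one g q ≠ 0 := fun hp q hq => by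
    by_contra hne
    simp only [not_or, not_not] at hne
    refine hp.2 q hq ?_
    show cc _ q = 0
    funext l
    fin_cases l <;> simp [cc, vec, hne.1, hne.2]
  -- from here on every stage keeps `P`
  have hfrom : Reach D r f P := fun η' hη' =>
    ⟨f, φ, hA, hPg, fun i _ p => by
      rw [show (fun x => f x - f x) = fun _ => (0 : V4) from funext fun x => sub_self _]
      simp [hη'.le]⟩
  have h4 := hfrom.step hf hPo hQ1 inter_subset_left (Φ := ![dck 0, dck 1, dck 2])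
    (cf_vec3 (cf_dck 0) (cf_dck 1) (cf_dck 2))
    fun g' hg' hn' hp q hq hz => sees_Dc hg' (hn' q hq.1).1 (hn' q hq.1).2 (hcne hp q hq) (by
      have := hz 0
      simpa [dck_zero] using this)
  obtain ⟨f', φ', hA', ⟨hP', hD'⟩, hc'⟩ := h4 (η / 4) (by positivity)
  set g' := f' ∘ φ'
  have hg' : ContDiff ℝ ∞ g' := hA'.smooth.comp hA'.smooth_chart
  have hdc := continuousOn_cf (cf_vec3 (cf_dck 0) (cf_dck 1) (cf_dck 2)) hg'
    (fun q hq => hA'.nd q hq)
  obtain ⟨μ', hμ', hμle'⟩ := hQ1.exists_forall_le' (hdc.mono inter_subset_left).norm (a := 0)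
    fun q hq => norm_pos_iff.2 (hD' q hq)
  let S : ℕ → Set R2 := fun j => Q1 ∩ (fun q => |dck j g' q|) ⁻¹' Ici μ'
  have hS : ∀ j, IsCompact (S j) := fun j => isCompact_piece hQ1
    (((continuousOn_cf (cf_dck j) hg' hA'.nd).mono inter_subset_left).abs) isClosed_Ici
  let P' : (R2 → V4) → Prop := fun g => P g ∧ (ValIn (S 0) (fun g q => dck 0 g q) {0}ᶜ g ∧
    (ValIn (S 1) (fun g q => dck 1 g q) {0}ᶜ g ∧ ValIn (S 2) (fun g q => dck 2 g q) {0}ᶜ g))
  have hSQ : ∀ j, S j ⊆ D.Q := fun j => inter_subset_left.trans inter_subset_left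
  have oS : ∀ j, OpenCond D.Q D.QQ (ValIn (S j) (fun g q => dck j g q) {0}ᶜ) := fun j =>
    OpenCond.valIn (cf_dck j) (hS j) (hSQ j) D.Q_QQ isOpen_compl_singleton
  have hP'o : OpenCond D.Q D.QQ P' := hPo.and ((oS 0).and ((oS 1).and (oS 2)))
  have hSj : ∀ j, ValIn (S j) (fun g q => dck j g q) {0}ᶜ g' := fun j q hq e => by
    have := hq.2
    simp only [Set.mem_preimage, Set.mem_Ici, show dck j g' q = 0 from e, abs_zero] at this
    linarith
  have hfrom' : Reach D r f' P' := fun η' hη' =>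
    ⟨f', φ', hA', ⟨hP', hSj 0, hSj 1, hSj 2⟩, fun i _ p => by
      rw [show (fun x => f' x - f' x) = fun _ => (0 : V4) from funext fun x => sub_self _]
      simp [hη'.le]⟩
  let K : ℕ → (R2 → V4) → Prop := fun j => ValIn (S j) (vec ![kdet j 3, kdet j 4, kdet j 5]) {0}ᶜ
  have cfK : ∀ j, CF ι (NDeg ι) (vec ![kdet j 3, kdet j 4, kdet j 5]) := fun j =>
    cf_vec3 (cf_kdet j 3) (cf_kdet j 4) (cf_kdet j 5)
  have oK : ∀ j, OpenCond D.Q D.QQ (K j) := fun j =>
    OpenCond.valIn (cfK j) (hS j) (hSQ j) D.Q_QQ isOpen_compl_singleton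
  have k0 := hfrom'.step hA'.smooth hP'o (hS 0) (hSQ 0) (Φ := ![kdet 0 3, kdet 0 4, kdet 0 5])
    (cfK 0) fun g hg hn hp q hq _ => sees_det hg (hn q (hSQ 0 hq)).1 (hn q (hSQ 0 hq)).2
      (by norm_num) (hcne hp.1 q hq.1) (hp.2.1 q hq)
  have k1 := k0.step hA'.smooth (hP'o.and (oK 0)) (hS 1) (hSQ 1)
    (Φ := ![kdet 1 3, kdet 1 4, kdet 1 5]) (cfK 1) fun g hg hn hp q hq _ =>
      sees_det hg (hn q (hSQ 1 hq)).1 (hn q (hSQ 1 hq)).2 (by norm_num) (hcne hp.1.1 q hq.1)
        (hp.1.2.2.1 q hq)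
  have k2 := k1.step hA'.smooth ((hP'o.and (oK 0)).and (oK 1)) (hS 2) (hSQ 2)
    (Φ := ![kdet 2 3, kdet 2 4, kdet 2 5]) (cfK 2) fun g hg hn hp q hq _ =>
      sees_det hg (hn q (hSQ 2 hq)).1 (hn q (hSQ 2 hq)).2 le_rfl (hcne hp.1.1.1 q hq.1)
        (hp.1.1.2.2.2 q hq)
  obtain ⟨F, ψ, hAF, ⟨⟨⟨hp, hk0⟩, hk1⟩, hk2⟩, hcF⟩ := k2 (η / 4) (by positivity)
  refine ⟨F, ψ, hAF, fun q hq => ?_, fun i hi p => ?_⟩
  · rcases le_total (μ / 2) |mainMult one g q| with h0 | h1
    · exact Or.inl (hp.1.1 q ⟨hq, h0⟩)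
    · have hq1 : q ∈ Q1 := ⟨hq, h1⟩
      obtain ⟨l, hl⟩ : ∃ l : Fin 3, μ' ≤ |dck l g' q| := by
        by_contra hne
        simp only [not_exists, not_le] at hne
        refine (lt_irrefl μ') ((hμle' q hq1).trans_lt ((pi_norm_lt_iff hμ').2 fun l => ?_))
        have := hne l
        fin_cases l <;> simpa using this
      obtain ⟨j, hj⟩ : ∃ j : ℕ, j ≤ 2 ∧ q ∈ S j ∧
          vec ![kdet j 3, kdet j 4, kdet j 5] (F ∘ ψ) q ∈ ({0}ᶜ : Set (Fin 3 → ℝ)) := by
        fin_cases l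
        · exact ⟨0, by norm_num, ⟨hq1, hl⟩, hk0 q ⟨hq1, hl⟩⟩
        · exact ⟨1, by norm_num, ⟨hq1, hl⟩, hk1 q ⟨hq1, hl⟩⟩
        · exact ⟨2, le_rfl, ⟨hq1, hl⟩, hk2 q ⟨hq1, hl⟩⟩
      obtain ⟨i, hi⟩ : ∃ i, vec ![kdet j 3, kdet j 4, kdet j 5] (F ∘ ψ) q i ≠ 0 := by
        by_contra hne
        simp only [not_exists, not_not] at hne
        exact hj.2.2 (funext hne)
      refine Or.inr ⟨j, 3 + (i : ℕ), by omega, by omega, ?_⟩
      fin_cases i <;> simpa [vec] using hi
  · linarith [norm_iter_triangle hAF.smooth hA'.smooth hf₀ i p, norm_iter_triangle hA'.smooth hf hf₀ i p,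
      hc i hi p, hc' i hi p, hcF i hi p]

/-- **Round one in one coordinate cell.** -/
theorem planeGenericStatement : PlaneGenericStatement := by
  intro N0 K C B f r ε hN0 hN0sq hK hKN0 hC hCK hB hf hd hBpos hF11 hε
  obtain ⟨K1, hK1, hCK1, hK1K⟩ := exists_compact_between hC isOpen_interior hCK
  set G : R2 → Fin 3 → ℝ := fun p => metF f p + ![0, 0, B p] with hGdef
  have hG : ContDiff ℝ ∞ G := by
    obtain ⟨h1, h2⟩ := contDiff_first hf
    refine ContDiff.add (contDiff_pi.2 fun l => ?_) (contDiff_pi.2 fun l => ?_) <;> fin_cases l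
    exacts [h1.inner ℝ h1, h1.inner ℝ h2, h2.inner ℝ h2, contDiff_const, contDiff_const, hB]
  have pos : ∀ p ∈ K, 0 < detg f p ∧ 0 < coefX one G f p ∧ 0 < coefRaw G f p ∧ 0 < tilt G f p :=
    fun p hp => base_pos (hd p (hKN0 hp)) (hBpos p (hKN0 hp)) (hF11 p (hKN0 hp))
  have hnd1 : ∀ p ∈ K, ND1 (f ∘ ι.symm) p := fun p hp => by
    show detg _ p ≠ 0
    rw [comp_symm_comp]
    exact hd p (hKN0 hp)
  have ck : ∀ {c : (R2 → V4) → R2 → ℝ}, CF ι ND1 c → ContinuousOn (c f) K := fun hc => by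
    obtain ⟨r, E, Gr, hrep, hmem⟩ := exists_rep hc
    exact fun p hp => (rep_contAt hrep hf (hmem f hf p (hnd1 p hp))).continuousWithinAt
  obtain ⟨γ, hγ, hγle⟩ := hK.exists_forall_le'
    (((ck cf_detg).inf (ck (cf_coefX hG))).inf (ck (cf_coefRaw hG))) (a := 0)
    fun p hp => lt_inf_iff.2 ⟨lt_inf_iff.2 ⟨(pos p hp).1, (pos p hp).2.1⟩, (pos p hp).2.2.1⟩
  have hSC : IsCompact (swapC '' C) := hC.image contDiff_swapC.continuous
  obtain ⟨ρ, hρ, hρsub⟩ := hSC.exists_cthickening_subset_open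
    (isOpen_interior.preimage contDiff_swapC.continuous)
    (show swapC '' C ⊆ swapC ⁻¹' interior K1 by
      rintro _ ⟨p, hp, rfl⟩
      rw [Set.mem_preimage, swapC_swapC]
      exact hCK1 hp)
  let D : Data :=
    { N := interior K, K := K, K1 := K1, Q := cthickening ρ (swapC '' C)
      QQ := cthickening ρ (swapC '' C) ∪ K, f0 := f, G := G, γ := γ / 2, ρ := ρ
      isOpen := isOpen_interior
      N_sq := interior_subset.trans (hKN0.trans hN0sq)
      N_K := interior_subset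
      isCompact_K := hK
      isCompact_K1 := hK1
      K1_N := hK1K
      isCompact_Q := hSC.cthickening
      isCompact_QQ := hSC.cthickening.union hK
      Q_QQ := subset_union_left
      K_QQ := subset_union_right
      smooth_G := hG
      γ_pos := half_pos hγ }
  have hin : ∀ q ∈ D.Q, swapC q ∈ K := fun q hq =>
    interior_subset (hK1K (interior_subset (hρsub hq)))
  have h0 : Reach D r f fun _ => True := fun η hη => by
    refine ⟨f, swapC, ⟨hf, contDiff_swapC, fun _ _ => rfl, fun p _ => rdet_base f B p,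
      fun p hp => ?_, fun q => rfl, fun q hq => ⟨hρsub hq, ?_, ?_⟩, fun q hq => ?_⟩, trivial,
      fun i _ p => ?_⟩
    · have h1 := hγle p hp
      simp only [le_inf_iff] at h1
      have hlt : γ / 2 < γ := by linarith
      exact ⟨hlt.trans_le h1.1.1, hlt.trans_le h1.1.2, hlt.trans_le h1.2, (pos p hp).2.2.2.ne'⟩
    · rw [show fderiv ℝ swapC q = (ContinuousLinearMap.snd ℝ ℝ ℝ).prod (ContinuousLinearMap.fst ℝ ℝ ℝ)
        from ((ContinuousLinearMap.snd ℝ ℝ ℝ).prod (ContinuousLinearMap.fst ℝ ℝ ℝ)).fderiv]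
      simp
    · simpa [swapC] using hρ
    · refine ⟨by rw [detg_swap hf q]; exact hd _ (hKN0 (hin q hq)), ?_⟩
      rw [show (fun _ : R2 => (1 : ℝ)) = one from rfl, Wsq_swap hf q]
      exact (real_inner_self_pos.2 (nX_ne_zero (hF11 _ (hKN0 (hin q hq))))).ne'
    · rw [show (fun x => f x - f x) = fun _ => (0 : V4) from funext fun x => sub_self _]
      simp [hη.le]
  obtain ⟨F, φ, hA, hgood, hclose⟩ := reach_good hf h0 ε hε
  refine ⟨F, hA.smooth, fun p hp => hA.off p fun h => hp (interior_subset h), fun p _ => ?_,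
    fun p hp => ?_, hclose⟩
  · by_cases hcl : p ∈ closure (interior K)
    · refine (isClosed_eq ?_ continuous_const).closure_subset_iff.2
        (show interior K ⊆ {x | rdet (G x - metF F x) = 0} from hA.exact') hcl
      obtain ⟨h1, h2⟩ := contDiff_first hA.smooth
      have hm : ContDiff ℝ ∞ (metF F) := contDiff_pi.2 fun l => by
        fin_cases l
        exacts [h1.inner ℝ h1, h1.inner ℝ h2, h2.inner ℝ h2]
      have hr : Continuous fun u : Fin 3 → ℝ => rdet u := by unfold Algebra.rdet; fun_prop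
      exact hr.comp (hG.continuous.sub hm.continuous)
    · have e : F =ᶠ[𝓝 p] f := eventually_of_mem (isClosed_closure.isOpen_compl.mem_nhds hcl)
        fun x hx => hA.off x fun h => hx (subset_closure h)
      have : metF F p = metF f p := by
        simp [metF, Algebra.g11, Algebra.g12, Algebra.g22, Algebra.dx, Algebra.dy, e.fderiv_eq]
      rw [this]
      exact rdet_base f B p
  · obtain ⟨q, hq, hqp⟩ := exists_preimage (p := p) hA.smooth_chart.continuous hA.snd hρ.le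
      fun x hx => (hA.chart x (mem_cthickening_of_dist_le x (swapC p) ρ _ (mem_image_of_mem _ hp)
        (mem_closedBall.1 hx))).2.2.le
    have hqQ : q ∈ D.Q := mem_cthickening_of_dist_le q (swapC p) ρ _ (mem_image_of_mem _ hp)
      (mem_closedBall.1 hq)
    exact ⟨φ, q, hA.smooth_chart, hqp,
      injective_of_chart (hA.smooth_chart.differentiable (by simp)) hA.snd (hA.chart q hqQ).2.1,
      (hA.nd q hqQ).1, (hA.nd q hqQ).2, criterion_ne_of_parts (hgood q hqQ)⟩

end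

end Vale.Agent.P205.Round1
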