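import Vale.Agent.P205.Full.Round1.Plane
import Vale.Agent.P205.Full.Round1.PlaneProof

/-!
# P205: round one
-/

namespace Vale.Agent.P205.Round1

/-- Round one holds. -/
theorem genericStatement : Full.GenericStatement :=
  genericStatement_of_plane planeGenericStatement

end Vale.Agent.P205.Round1
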