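import Vale.Agent.P205.Full.Round1.JetFn

/-!
# P205, round one: jets of plane maps, their variation and their Lipschitz bounds

`J r g` is the jet of order `r` of a map of the plane, read on `E2` so that the class `CF` applies.
`fderiv_jet_slice` differentiates the jets of a family, `jet_lipschitz` bounds the change of a
jet function near a compact set and `jet_comp_le` bounds the jets of a composition.
-/

namespace Vale.Agent.P205.Round1

open scoped ContDiff Topology
open Set Filter Metric Vale.Agent.P205.Full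

noncomputable section

/-- The pairs as the plane of the charts. -/
def ι : R2 ≃L[ℝ] E2 :=
  LinearEquiv.toContinuousLinearEquiv
    { toFun := fun p => !₂[p.1, p.2]
      map_add' := fun a b => by ext i; fin_cases i <;> simp
      map_smul' := fun r a => by ext i; fin_cases i <;> simp
      invFun := fun z => (z 0, z 1)
      left_inv := fun p => by simp
      right_inv := fun z => by ext i; fin_cases i <;> simp }

/-- The jet of order `r` of a map of the plane. -/
def J (r : ℕ) (g : R2 → E4) (q : R2) : Jet r := jetFD r (g ∘ ι.symm) (ι q)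

lemma contDiff_on_E2 {g : R2 → E4} (hg : ContDiff ℝ ∞ g) : ContDiff ℝ ∞ (g ∘ ι.symm) :=
  hg.comp ι.symm.contDiff

lemma comp_symm_comp (g : R2 → E4) : (g ∘ ι.symm) ∘ ι = g := by funext p; simp

variable {U : Type*} [NormedAddCommGroup U] [NormedSpace ℝ U]

/-- `G` represents `c` on `D`. -/
structure Rep (r : ℕ) (D : Set (R2 × Jet r)) (G : R2 × Jet r → U)
    (c : (R2 → E4) → R2 → U) : Prop where
  isOpen : IsOpen D
  smooth : ContDiffOn ℝ ∞ G D
  eq : ∀ g : R2 → E4, ContDiff ℝ ∞ g → ∀ q, (q, J r g q) ∈ D → c g q = G (q, J r g q)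

/-- A jet function has a representation which is valid where it is nondegenerate. -/
theorem exists_rep {ND : (E2 → E4) → R2 → Prop} {c : (R2 → E4) → R2 → U} (hc : CF ι ND c) :
    ∃ (r : ℕ) (D : Set (R2 × Jet r)) (G : R2 × Jet r → U), Rep r D G c ∧
      ∀ g : R2 → E4, ContDiff ℝ ∞ g → ∀ q, ND (g ∘ ι.symm) q → (q, J r g q) ∈ D := by
  obtain ⟨r, D, G, hD, hG, he, hn⟩ := hc
  refine ⟨r, D, G, ⟨hD, hG, fun g hg q hq => ?_⟩, fun g hg q h => hn _ (contDiff_on_E2 hg) q h⟩
  have h := he (g ∘ ι.symm) (contDiff_on_E2 hg) q hq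
  dsimp only at h
  rwa [comp_symm_comp] at h

lemma J_congr (r : ℕ) {f g : R2 → E4} {q : R2} (h : f =ᶠ[𝓝 q] g) : J r f q = J r g q := by
  funext i
  have : f ∘ ι.symm =ᶠ[𝓝 (ι q)] g ∘ ι.symm := by
    refine h.comp_tendsto ?_
    simpa using (ι.symm.continuous.tendsto (ι q))
  exact (this.iteratedFDeriv ℝ (i : ℕ)).eq_of_nhds

lemma J_add (r : ℕ) {f g : R2 → E4} (hf : ContDiff ℝ ∞ f) (hg : ContDiff ℝ ∞ g) (q : R2) :
    J r (fun p => f p + g p) q = J r f q + J r g q := by
  funext i
  exact iteratedFDeriv_add_apply ((contDiff_on_E2 hf).of_le (by exact_mod_cast le_top)).contDiffAt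
    ((contDiff_on_E2 hg).of_le (by exact_mod_cast le_top)).contDiffAt

lemma J_smul (r : ℕ) (c : ℝ) {g : R2 → E4} (hg : ContDiff ℝ ∞ g) (q : R2) :
    J r (fun p => c • g p) q = c • J r g q := by
  funext i
  exact iteratedFDeriv_const_smul_apply' (f := g ∘ ι.symm) (a := c)
    ((contDiff_on_E2 hg).of_le (by exact_mod_cast le_top)).contDiffAt

lemma J_sub (r : ℕ) {f g : R2 → E4} (hf : ContDiff ℝ ∞ f) (hg : ContDiff ℝ ∞ g) (q : R2) :
    J r (fun p => f p - g p) q = J r f q - J r g q := by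
  have h := J_add r (g := fun p => (-1 : ℝ) • g p) hf ((contDiff_const (c := (-1 : ℝ))).smul hg) q
  rw [J_smul r (-1) hg] at h
  have e1 : (fun p => f p + (-1 : ℝ) • g p) = fun p => f p - g p := by
    funext p; module
  rw [e1] at h
  rw [h]
  module

section Slice

variable {P E V : Type*} [NormedAddCommGroup P] [NormedSpace ℝ P] [NormedAddCommGroup E]
  [NormedSpace ℝ E] [NormedAddCommGroup V] [NormedSpace ℝ V]

/-- Derivatives along the plane commute with the derivative in the parameter. -/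
theorem fderiv_iterated_slice (v : P) : ∀ (i : ℕ) (u : P × E → V), ContDiff ℝ ∞ u →
    ContDiff ℝ ∞ (fun z : P × E => iteratedFDeriv ℝ i (fun x => u (z.1, x)) z.2) ∧
    ∀ z : P × E, fderiv ℝ (fun z => iteratedFDeriv ℝ i (fun x => u (z.1, x)) z.2) z (v, 0) =
      iteratedFDeriv ℝ i (fun x => fderiv ℝ u (z.1, x) (v, 0)) z.2 := by
  intro i
  induction i with
  | zero =>
    intro u hu
    have e : (fun z : P × E => iteratedFDeriv ℝ 0 (fun x => u (z.1, x)) z.2) =
        fun z => (continuousMultilinearCurryFin0 ℝ E V).symm (u z) := by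
      funext z; ext m; simp
    rw [e]
    refine ⟨(continuousMultilinearCurryFin0 ℝ E V).symm.contDiff.comp hu, fun z => ?_⟩
    rw [show (fun z => (continuousMultilinearCurryFin0 ℝ E V).symm (u z)) =
      (continuousMultilinearCurryFin0 ℝ E V).symm.toContinuousLinearEquiv ∘ u from rfl,
      ContinuousLinearEquiv.comp_fderiv]
    ext m; simp
  | succ i ih =>
    intro u hu
    set w : P × E → _ := fun z => iteratedFDeriv ℝ i (fun x => u (z.1, x)) z.2 with hw
    obtain ⟨hsm, hder⟩ := ih u hu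
    obtain ⟨hsm', -⟩ := ih (fun z => fderiv ℝ u z (v, 0))
      ((hu.fderiv_right (m := ∞) le_rfl).clm_apply contDiff_const)
    let C := (continuousMultilinearCurryLeftEquiv ℝ (fun _ : Fin (i + 1) => E) V).symm
    let T : (P × E →L[ℝ] ContinuousMultilinearMap ℝ (fun _ : Fin i => E) V) →L[ℝ]
        ContinuousMultilinearMap ℝ (fun _ : Fin (i + 1) => E) V :=
      C.toContinuousLinearEquiv.toContinuousLinearMap.comp
        ((ContinuousLinearMap.compL ℝ E (P × E) (ContinuousMultilinearMap ℝ (fun _ : Fin i => E) V)).flip (ContinuousLinearMap.inr ℝ P E))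
    have sl : ∀ {W : Type _} [NormedAddCommGroup W] [NormedSpace ℝ W] {g : P × E → W},
        Differentiable ℝ g → ∀ z : P × E,
          fderiv ℝ (fun x => g (z.1, x)) z.2 = (fderiv ℝ g z).comp (ContinuousLinearMap.inr ℝ P E) :=
      fun hg z => ((hg z).hasFDerivAt.comp z.2 (hasFDerivAt_prodMk_right z.1 z.2)).fderiv
    have e : (fun z : P × E => iteratedFDeriv ℝ (i + 1) (fun x => u (z.1, x)) z.2) =
        fun z => T (fderiv ℝ w z) := by
      funext z
      rw [iteratedFDeriv_succ_eq_comp_left, Function.comp_apply,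
        show fderiv ℝ (iteratedFDeriv ℝ i fun x => u (z.1, x)) z.2 =
          fderiv ℝ (fun x => w (z.1, x)) z.2 from rfl, sl (hsm.differentiable (by simp))]
      rfl
    have hw1 : ContDiff ℝ ∞ (fderiv ℝ w) := hsm.fderiv_right le_rfl
    rw [e]
    refine ⟨?_, fun z => ?_⟩
    · exact (ContinuousLinearMap.contDiff (n := ∞) T).comp hw1
    · have hT : HasFDerivAt (fun z => T (fderiv ℝ w z)) (T.comp (fderiv ℝ (fderiv ℝ w) z)) z :=
        T.hasFDerivAt.comp z ((hw1.differentiable (by simp)) z).hasFDerivAt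
      rw [hT.fderiv]
      have hsym : IsSymmSndFDerivAt ℝ w z := hsm.contDiffAt.isSymmSndFDerivAt
        (by rw [minSmoothness_of_isRCLikeNormedField]; exact WithTop.coe_le_coe.mpr le_top)
      have key : fderiv ℝ (fderiv ℝ w) z (v, 0) = fderiv ℝ (fun z => fderiv ℝ w z (v, 0)) z := by
        refine ContinuousLinearMap.ext fun m => ?_
        rw [fderiv_clm_apply ((hw1.differentiable (by simp)) z) (differentiableAt_const _)]
        simpa using hsym (v, 0) m
      rw [ContinuousLinearMap.comp_apply, key, show (fun z => fderiv ℝ w z (v, 0)) =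
        fun z => iteratedFDeriv ℝ i (fun x => fderiv ℝ u (z.1, x) (v, 0)) z.2 from funext hder,
        iteratedFDeriv_succ_eq_comp_left, Function.comp_apply]
      show C _ = C _
      exact congrArg C (sl (hsm'.differentiable (by simp)) z).symm

end Slice

variable {P : Type*} [NormedAddCommGroup P] [NormedSpace ℝ P]

/-- The jets of a family are smooth; their derivative in the parameter is the jet of the
derivative. -/
theorem fderiv_jet_slice (r : ℕ) {h : P × R2 → E4} (hh : ContDiff ℝ ∞ h) :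
    ContDiff ℝ ∞ (fun z : P × R2 => J r (fun x => h (z.1, x)) z.2) ∧
    ∀ (z : P × R2) (v : P),
      fderiv ℝ (fun z : P × R2 => J r (fun x => h (z.1, x)) z.2) z (v, 0) =
        J r (fun x => fderiv ℝ h (z.1, x) (v, 0)) z.2 := by
  let L : P × R2 →L[ℝ] P × E2 := (ContinuousLinearMap.id ℝ P).prodMap (ι : R2 →L[ℝ] E2)
  let u : P × E2 → E4 := fun z => h (z.1, ι.symm z.2)
  have hu : ContDiff ℝ ∞ u := hh.comp (contDiff_fst.prodMk (ι.symm.contDiff.comp contDiff_snd))
  have key := fun v i => fderiv_iterated_slice v i u hu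
  have hsm : ∀ i : Fin (r + 1), ContDiff ℝ ∞
      fun z : P × R2 => J r (fun x => h (z.1, x)) z.2 i := fun i =>
    (show ContDiff ℝ ∞ ((fun z : P × E2 => iteratedFDeriv ℝ (i : ℕ) (fun x => u (z.1, x)) z.2) ∘ L)
      from (key 0 (i : ℕ)).1.comp L.contDiff) |> fun h => by
        convert h using 1; funext z; simp [J, jetFD, L, u, Function.comp_def]
  refine ⟨contDiff_pi.2 hsm, fun z v => ?_⟩
  rw [fderiv_pi fun i => ((hsm i).differentiable (by simp)) z]
  funext i
  have e : (fun z : P × R2 => J r (fun x => h (z.1, x)) z.2 i) =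
      (fun z : P × E2 => iteratedFDeriv ℝ (i : ℕ) (fun x => u (z.1, x)) z.2) ∘ L := by
    funext z; simp [J, jetFD, L, u, Function.comp_def]
  rw [ContinuousLinearMap.pi_apply, e,
    fderiv_comp z (((key v i).1.differentiable (by simp)) _) L.differentiableAt, L.fderiv]
  show fderiv ℝ _ (L z) (L (v, 0)) = _
  rw [show L (v, 0) = (v, 0) from by simp [L], (key v i).2]
  have hd : ∀ y : E2, fderiv ℝ u (z.1, y) (v, 0) = fderiv ℝ h (z.1, ι.symm y) (v, 0) := fun y => by
    let Li : P × E2 →L[ℝ] P × R2 := (ContinuousLinearMap.id ℝ P).prodMap (ι.symm : E2 →L[ℝ] R2)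
    rw [show u = h ∘ Li from rfl, fderiv_comp _ ((hh.differentiable (by simp)) _)
      Li.differentiableAt, Li.fderiv]
    simp [Li]
  simp [J, jetFD, L, Function.comp_def, hd]

/-- Uniform Lipschitz bound in the jet near a compact set. -/
theorem jet_lipschitz {r : ℕ} {D : Set (R2 × Jet r)} {G : R2 × Jet r → U} (hD : IsOpen D)
    (hG : ContDiffOn ℝ ∞ G D) {S : Set (R2 × Jet r)} (hS : IsCompact S) (hSD : S ⊆ D) :
    ∃ δ > 0, ∃ L, 0 ≤ L ∧ ∀ z ∈ S, ∀ a ∈ closedBall z δ, ∀ b ∈ closedBall z δ,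
      a ∈ D ∧ b ∈ D ∧ ‖G a - G b‖ ≤ L * ‖a - b‖ := by
  have hc : ContinuousOn (fun z => ‖fderiv ℝ G z‖) D :=
    (hG.continuousOn_fderiv_of_isOpen hD (by simp)).norm
  obtain ⟨L₀, hL₀⟩ := (hS.bddAbove_image (hc.mono hSD))
  set O := D ∩ (fun z => ‖fderiv ℝ G z‖) ⁻¹' Iio (|L₀| + 1)
  have hSO : S ⊆ O := fun z hz => ⟨hSD hz, show ‖fderiv ℝ G z‖ < _ by
    linarith [hL₀ (mem_image_of_mem _ hz), le_abs_self L₀]⟩
  obtain ⟨δ, hδ, hsub⟩ :=
    hS.exists_cthickening_subset_open (hc.isOpen_inter_preimage hD isOpen_Iio) hSO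
  refine ⟨δ, hδ, |L₀| + 1, by positivity, fun z hz a ha b hb => ?_⟩
  have hball : closedBall z δ ⊆ O := (closedBall_subset_cthickening hz δ).trans hsub
  refine ⟨(hball ha).1, (hball hb).1, ?_⟩
  exact (convex_closedBall z δ).norm_image_sub_le_of_norm_fderiv_le
    (fun x hx => ((hG.contDiffAt (hD.mem_nhds (hball hx).1)).differentiableAt (by simp)))
    (fun x hx => (hball hx).2.out.le) hb ha

/-- The jets of a composition. -/
theorem jet_comp_le (r : ℕ) {w : R2 → E4} {φ : R2 → R2} (hw : ContDiff ℝ ∞ w)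
    (hφ : ContDiff ℝ ∞ φ) {q : R2} {C D : ℝ} (hD1 : 1 ≤ D)
    (hD : ∀ i ≤ r, ‖iteratedFDeriv ℝ i (φ ∘ ι.symm) (ι q)‖ ≤ D)
    (hC : ∀ i ≤ r, ‖iteratedFDeriv ℝ i w (φ q)‖ ≤ C) :
    ‖J r (w ∘ φ) q‖ ≤ r.factorial * D ^ r * C := by
  have hC0 : 0 ≤ C := (norm_nonneg _).trans (hC 0 (Nat.zero_le r))
  refine (pi_norm_le_iff_of_nonneg (by positivity)).2 fun i => ?_
  have hi : (i : ℕ) ≤ r := Nat.lt_succ_iff.1 i.2
  refine (norm_iteratedFDeriv_comp_le (g := w) (f := φ ∘ ι.symm) hw
    (hφ.comp ι.symm.contDiff) (by exact_mod_cast le_top) (ι q) (C := C) (D := D)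
    (fun j hj => by simpa using hC j (hj.trans hi))
    (fun j hj1 hj => (hD j (hj.trans hi)).trans (le_self_pow₀ hD1 (by omega)))).trans ?_
  calc ((i : ℕ).factorial : ℝ) * C * D ^ (i : ℕ) ≤ (r.factorial : ℝ) * C * D ^ r := by
        have := Nat.factorial_le hi
        gcongr
    _ = _ := by ring

end

end Vale.Agent.P205.Round1
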