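import Vale.Agent.P205.Defs
import Vale.Agent.P205.Generic.Avoid

/-!
# P205, round one: a qualitative margin

If at every zero of `Ψ (0, ·)` on a compact set some three parameter directions move `Ψ` onto
`ℝ ^ 3`, then some parameter of size `δ` keeps `Ψ` at least `κ δ ^ 3` away from zero on that set.
-/

namespace Vale.Agent.P205.Round1

open scoped ContDiff Topology
open Set Filter Metric

noncomputable section

variable {d : ℕ} {Ψ : (Fin d → ℝ) × R2 → (Fin 3 → ℝ)}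

/-- Either `Ψ` stays away from zero near the point, or three directions spread it out there. -/
def Local (Ψ : (Fin d → ℝ) × R2 → (Fin 3 → ℝ)) (ρ Bm : ℝ) (q : R2) : Prop :=
  (∀ s : Fin d → ℝ, ‖s‖ ≤ ρ → ρ ≤ ‖Ψ (s, q)‖) ∨
    ∃ (v : (Fin 3 → ℝ) →L[ℝ] (Fin d → ℝ)) (A : (Fin 3 → ℝ) →L[ℝ] (Fin 3 → ℝ)) (B : ℝ),
      0 < B ∧ B ≤ Bm ∧ (∀ u, ‖v u‖ ≤ ‖u‖) ∧ (∀ h, ‖h‖ ≤ B * ‖A h‖) ∧ ∀ s : Fin d → ℝ, ‖s‖ ≤ ρ →
        ‖(fderiv ℝ Ψ (s, q)).comp ((ContinuousLinearMap.inl ℝ (Fin d → ℝ) R2).comp v) - A‖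
          ≤ 1 / (2 * B)

/-- Near every point of the compact set one of the two cases holds with uniform constants. -/
lemma exists_local {W : Set ((Fin d → ℝ) × R2)} (hW : IsOpen W) (hΨ : ContDiffOn ℝ ∞ Ψ W)
    {Q : Set R2} (hQ : IsCompact Q) (hQW : ∀ q ∈ Q, ((0 : Fin d → ℝ), q) ∈ W)
    (h : ∀ q ∈ Q, Ψ (0, q) = 0 → ∃ v : (Fin 3 → ℝ) →L[ℝ] (Fin d → ℝ),
      Function.Bijective fun u => fderiv ℝ Ψ (0, q) (v u, (0 : R2))) :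
    ∃ ρ > (0 : ℝ), ∃ Bm > (0 : ℝ),
      ∀ q ∈ Q, (∀ s : Fin d → ℝ, ‖s‖ ≤ ρ → (s, q) ∈ W) ∧ Local Ψ ρ Bm q := by
  refine hQ.induction_on (p := fun S => ∃ ρ > (0 : ℝ), ∃ Bm > (0 : ℝ),
    ∀ q ∈ S, (∀ s : Fin d → ℝ, ‖s‖ ≤ ρ → (s, q) ∈ W) ∧ Local Ψ ρ Bm q)
    ⟨1, one_pos, 1, one_pos, fun q hq => hq.elim⟩
    (fun S T hST ⟨ρ, hρ, Bm, hB, H⟩ => ⟨ρ, hρ, Bm, hB, fun q hq => H q (hST hq)⟩) ?_ ?_
  · rintro S T ⟨ρ, hρ, Bm, hB, H⟩ ⟨ρ', hρ', Bm', hB', H'⟩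
    have mono : ∀ {r r' b b' : ℝ}, r ≤ r' → b' ≤ b → ∀ q, Local Ψ r' b' q → Local Ψ r b q := by
      rintro r r' b b' hr hb q (h | ⟨v, A, B, h0, h1, h2, h3, h4⟩)
      · exact Or.inl fun s hs => hr.trans (h s (hs.trans hr))
      · exact Or.inr ⟨v, A, B, h0, h1.trans hb, h2, h3, fun s hs => h4 s (hs.trans hr)⟩
    refine ⟨min ρ ρ', lt_min hρ hρ', max Bm Bm', lt_max_of_lt_left hB, fun q hq => ?_⟩
    rcases hq with hq | hq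
    · exact ⟨fun s hs => (H q hq).1 s (hs.trans (min_le_left _ _)),
        mono (min_le_left _ _) (le_max_left _ _) q (H q hq).2⟩
    · exact ⟨fun s hs => (H' q hq).1 s (hs.trans (min_le_right _ _)),
        mono (min_le_right _ _) (le_max_right _ _) q (H' q hq).2⟩
  · intro q hq
    have hmem : W ∈ 𝓝 ((0 : Fin d → ℝ), q) := hW.mem_nhds (hQW q hq)
    have box : ∀ {T : Set ((Fin d → ℝ) × R2)}, T ∈ 𝓝 ((0 : Fin d → ℝ), q) →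
        ∃ r > (0 : ℝ), ∃ U ∈ 𝓝[Q] q, ∀ x ∈ U, ∀ s : Fin d → ℝ, ‖s‖ ≤ r → (s, x) ∈ T := by
      intro T hT
      obtain ⟨r, hr, hrT⟩ := Metric.mem_nhds_iff.1 hT
      refine ⟨r / 2, half_pos hr, ball q r, mem_nhdsWithin_of_mem_nhds (ball_mem_nhds q hr),
        fun x hx s hs => hrT ?_⟩
      rw [mem_ball, Prod.dist_eq, max_lt_iff, dist_zero_right]
      exact ⟨lt_of_le_of_lt hs (half_lt_self hr), hx⟩
    by_cases h0 : Ψ (0, q) = 0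
    · obtain ⟨v, hv⟩ := h q hq h0
      set c := (‖v‖ + 1)⁻¹ with hc
      have hc0 : 0 < c := by positivity
      set v' := c • v
      set A := (fderiv ℝ Ψ (0, q)).comp ((ContinuousLinearMap.inl ℝ (Fin d → ℝ) R2).comp v')
        with hA
      have hAinj : Function.Injective A := fun a b hab => by
        have e : ∀ u, A u = c • fderiv ℝ Ψ (0, q) (v u, (0 : R2)) := fun u => by
          rw [← map_smul, Prod.smul_mk, smul_zero]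
          rfl
        rw [e, e] at hab
        exact hv.1 (smul_right_injective _ hc0.ne' hab)
      obtain ⟨K, hK, hKA⟩ := LinearMap.exists_antilipschitzWith
        (A : (Fin 3 → ℝ) →ₗ[ℝ] (Fin 3 → ℝ))
        (LinearMap.ker_eq_bot.2 hAinj)
      have hK0 : (0 : ℝ) < K := NNReal.coe_pos.2 hK
      have hcont : ContinuousAt (fun z => ‖(fderiv ℝ Ψ z).comp
          ((ContinuousLinearMap.inl ℝ (Fin d → ℝ) R2).comp v') - A‖) (0, q) :=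
        ((((hΨ.continuousOn_fderiv_of_isOpen hW (by simp)).continuousAt hmem).clm_comp
          continuousAt_const).sub continuousAt_const).norm
      obtain ⟨r, hr, U, hU, hUT⟩ := box (inter_mem hmem (hcont.eventually
        (Iic_mem_nhds (show ‖(fderiv ℝ Ψ (0, q)).comp
          ((ContinuousLinearMap.inl ℝ (Fin d → ℝ) R2).comp v') - A‖ < 1 / (2 * (K : ℝ)) by
            rw [← hA, sub_self, norm_zero]; positivity))))
      refine ⟨U, hU, r, hr, K, hK0, fun x hx => ⟨fun s hs => (hUT x hx s hs).1,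
        Or.inr ⟨v', A, K, hK0, le_rfl, fun u => ?_, fun u => ?_, fun s hs => (hUT x hx s hs).2⟩⟩⟩
      · rw [smul_apply, norm_smul, Real.norm_of_nonneg hc0.le]
        refine (mul_le_mul_of_nonneg_left (v.le_opNorm u) hc0.le).trans ?_
        rw [← mul_assoc]
        refine mul_le_of_le_one_left (norm_nonneg u) ?_
        rw [hc, inv_mul_le_iff₀ (by positivity)]
        linarith
      · simpa using hKA.le_mul_norm_sub (x := u) (y := 0)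
    · set m := ‖Ψ (0, q)‖
      have hm : 0 < m := norm_pos_iff.2 h0
      have hcont : ContinuousAt (fun z => ‖Ψ z‖) (0, q) :=
        (hΨ.continuousOn.continuousAt hmem).norm
      obtain ⟨r, hr, U, hU, hUT⟩ :=
        box (inter_mem hmem (hcont.eventually (Ici_mem_nhds (half_lt_self hm))))
      exact ⟨U, hU, min r (m / 2), lt_min hr (half_pos hm), 1, one_pos, fun x hx =>
        ⟨fun s hs => (hUT x hx s (hs.trans (min_le_left _ _))).1, Or.inl fun s hs =>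
          (min_le_right r (m / 2)).trans (hUT x hx s (hs.trans (min_le_left _ _))).2⟩⟩

/-- Anti-Lipschitz bound of the rescaled map along three spreading directions. -/
lemma anti_of_local {W : Set ((Fin d → ℝ) × R2)} (hW : IsOpen W) (hΨ : ContDiffOn ℝ ∞ Ψ W)
    {x : R2} {v : (Fin 3 → ℝ) →L[ℝ] (Fin d → ℝ)} {A : (Fin 3 → ℝ) →L[ℝ] (Fin 3 → ℝ)} {B ρ δ : ℝ}
    (hB : 0 < B) (hv : ∀ u, ‖v u‖ ≤ ‖u‖) (hA : ∀ h, ‖h‖ ≤ B * ‖A h‖) (hδ : 0 < δ)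
    (hδρ : 5 * δ ≤ ρ) (hx : ∀ s : Fin d → ℝ, ‖s‖ ≤ ρ → (s, x) ∈ W)
    (hn : ∀ s : Fin d → ℝ, ‖s‖ ≤ ρ →
      ‖(fderiv ℝ Ψ (s, x)).comp ((ContinuousLinearMap.inl ℝ (Fin d → ℝ) R2).comp v) - A‖
        ≤ 1 / (2 * B))
    {cl : (Fin d → ℝ) → (Fin d → ℝ)} (hcl : ∀ τ : Fin d → ℝ, ‖τ‖ ≤ 4 → cl τ = τ)
    {τ : Fin d → ℝ} {s s' : Fin 3 → ℝ} (hτ : ‖τ‖ ≤ 2) (hs : ‖s‖ ≤ 1) (hs' : ‖s'‖ ≤ 1) :
    ‖s - s'‖ ≤ 2 * B *
      ‖δ⁻¹ • Ψ (δ • cl (τ + v s), x) - δ⁻¹ • Ψ (δ • cl (τ + v s'), x)‖ := by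
  have hin : ∀ σ : Fin d → ℝ, ‖σ‖ ≤ 4 → ‖δ • σ‖ ≤ ρ := fun σ h => by
    rw [norm_smul, Real.norm_of_nonneg hδ.le]; nlinarith
  have hmem : ∀ t ∈ closedBall (0 : Fin 3 → ℝ) 1, ‖τ + v t‖ ≤ 4 := fun t ht =>
    (norm_add_le _ _).trans (by linarith [hv t, show ‖t‖ ≤ 1 by simpa using ht])
  have key := Generic.dist_le_of_fderiv_near (f := fun t => δ⁻¹ • Ψ (δ • (τ + v t), x))
    (f' := fun t => (fderiv ℝ Ψ (δ • (τ + v t), x)).comp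
      ((ContinuousLinearMap.inl ℝ (Fin d → ℝ) R2).comp v))
    (convex_closedBall (0 : Fin 3 → ℝ) 1) hB hA (fun t ht => ?_)
    (fun t ht => hn _ (hin _ (hmem t ht)))
    (x := s') (y := s) (by simpa using hs') (by simpa using hs)
  · rwa [hcl _ (hmem s (by simpa using hs)), hcl _ (hmem s' (by simpa using hs'))]
  · have h1 : HasFDerivAt (fun u => (δ • (τ + v u), x))
        ((ContinuousLinearMap.inl ℝ (Fin d → ℝ) R2).comp (δ • v)) t :=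
      ((v.hasFDerivAt.const_add τ).const_smul δ).prodMk (hasFDerivAt_const x t)
    have h2 := ((hΨ.contDiffAt (hW.mem_nhds (hx _ (hin _ (hmem t ht))))).differentiableAt
      (by simp)).hasFDerivAt.comp t h1
    refine ((h2.const_smul δ⁻¹).congr_fderiv ?_).hasFDerivWithinAt
    rw [ContinuousLinearMap.comp_smul, ContinuousLinearMap.comp_smul, smul_smul,
      inv_mul_cancel₀ hδ.ne', one_smul]

/-- The smallness condition of avoidance at radius `κ₀ δ ^ 2`. -/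
lemma margin_small {d : ℕ} {L Λ₀ Bm δ κ₀ : ℝ} (hL : 0 ≤ L) (hΛ : 0 < Λ₀) (hB : 0 < Bm)
    (hδ : 0 < δ) (hδ1 : δ ≤ 1) (hκ : 0 < κ₀) (hκ1 : κ₀ ≤ 1)
    (hκa : ((2 * L * Λ₀ + 2) ^ 2 * 2 ^ d * (8 * Bm) ^ 3) * κ₀ < 1) :
    (2 * L * (Λ₀ / δ) / (κ₀ * δ ^ 2) + 2) ^ 2 * 2 ^ d * (4 * (2 * Bm) * (κ₀ * δ ^ 2)) ^ 3 < 1 := by
  have e : 2 * L * (Λ₀ / δ) / (κ₀ * δ ^ 2) = 2 * L * Λ₀ / (κ₀ * δ ^ 3) := by field_simp
  have h1 : 2 * L * (Λ₀ / δ) / (κ₀ * δ ^ 2) + 2 ≤ (2 * L * Λ₀ + 2) / (κ₀ * δ ^ 3) := by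
    rw [e, add_div]
    refine add_le_add le_rfl ?_
    rw [le_div_iff₀ (by positivity)]
    nlinarith [mul_le_one₀ hκ1 (by positivity) (pow_le_one₀ (n := 3) hδ.le hδ1)]
  calc _ ≤ ((2 * L * Λ₀ + 2) / (κ₀ * δ ^ 3)) ^ 2 * 2 ^ d * (4 * (2 * Bm) * (κ₀ * δ ^ 2)) ^ 3 := by
        gcongr
    _ = ((2 * L * Λ₀ + 2) ^ 2 * 2 ^ d * (8 * Bm) ^ 3) * κ₀ := by field_simp; ring
    _ < 1 := hκa

/-- Joint Lipschitz bound on a compact box. -/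
lemma exists_lip {W : Set ((Fin d → ℝ) × R2)} (hW : IsOpen W) (hΨ : ContDiffOn ℝ ∞ Ψ W)
    {Q : Set R2} (hQ : IsCompact Q) {ρ : ℝ}
    (hin : ∀ q ∈ Q, ∀ s : Fin d → ℝ, ‖s‖ ≤ ρ → (s, q) ∈ W) :
    ∃ Λ > (0 : ℝ), ∀ s : Fin d → ℝ, ‖s‖ ≤ ρ → ∀ x ∈ Q, ∀ y ∈ Q,
      ‖Ψ (s, x) - Ψ (s, y)‖ ≤ Λ * ‖x - y‖ := by
  set Z := closedBall (0 : Fin d → ℝ) ρ ×ˢ Q
  have hZW : Z ⊆ W := fun z hz => hin z.2 hz.2 z.1 (by simpa using hz.1)
  have hLip : LocallyLipschitzOn Z Ψ := fun z hz => by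
    obtain ⟨K, t, ht, hKt⟩ := ((hΨ.contDiffAt (hW.mem_nhds (hZW hz))).of_le
      (show (1 : WithTop ℕ∞) ≤ ∞ by exact_mod_cast le_top)).exists_lipschitzOnWith
    exact ⟨K, t, mem_nhdsWithin_of_mem_nhds ht, hKt⟩
  obtain ⟨L₀, hL₀⟩ := hLip.exists_lipschitzOnWith_of_compact
    ((isCompact_closedBall _ _).prod hQ)
  refine ⟨(L₀ : ℝ) + 1, by positivity, fun s hs x hx y hy => ?_⟩
  refine (hL₀.norm_sub_le (x := (s, x)) (y := (s, y)) ⟨by simpa using hs, hx⟩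
    ⟨by simpa using hs, hy⟩).trans ?_
  have e : ‖((s, x) : (Fin d → ℝ) × R2) - (s, y)‖ = ‖x - y‖ := by simp [Prod.norm_def]
  rw [e]
  nlinarith [norm_nonneg (x - y)]

/-- **The margin.** -/
theorem exists_margin {W : Set ((Fin d → ℝ) × R2)} (hW : IsOpen W) (hΨ : ContDiffOn ℝ ∞ Ψ W)
    {Q : Set R2} (hQ : IsCompact Q) (hQW : ∀ q ∈ Q, ((0 : Fin d → ℝ), q) ∈ W)
    (h : ∀ q ∈ Q, Ψ (0, q) = 0 → ∃ v : (Fin 3 → ℝ) →L[ℝ] (Fin d → ℝ),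
      Function.Bijective fun u => fderiv ℝ Ψ (0, q) (v u, (0 : R2))) :
    ∃ κ > (0 : ℝ), ∃ δ₀ > (0 : ℝ), ∀ δ : ℝ, 0 < δ → δ ≤ δ₀ →
      ∃ s : Fin d → ℝ, ‖s‖ ≤ δ ∧ ∀ q ∈ Q, κ * δ ^ 3 ≤ ‖Ψ (s, q)‖ := by
  obtain ⟨ρ, hρ, Bm, hBm, H⟩ := exists_local hW hΨ hQ hQW h
  obtain ⟨Λ₀, hΛ₀, hlip⟩ := exists_lip hW hΨ hQ fun q hq => (H q hq).1
  obtain ⟨Lq, hLq⟩ := hQ.isBounded.exists_norm_le
  set L := max Lq 0 + 1
  set a := (2 * L * Λ₀ + 2) ^ 2 * 2 ^ d * (8 * Bm) ^ 3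
  have hL : 0 ≤ L := by positivity
  have ha : 0 < a := by positivity
  set κ₀ := 1 / (a + 1) with hκdef
  have hκ₀ : 0 < κ₀ := by positivity
  refine ⟨min κ₀ ρ, lt_min hκ₀ hρ, min (ρ / 5) 1, lt_min (by positivity) one_pos, fun δ hδ hδ₀ => ?_⟩
  have hδ1 : δ ≤ 1 := hδ₀.trans (min_le_right _ _)
  have hδρ : 5 * δ ≤ ρ := by linarith [hδ₀.trans (min_le_left _ _)]
  set G : Set R2 := {q | q ∈ Q ∧ ¬ ∀ s : Fin d → ℝ, ‖s‖ ≤ ρ → ρ ≤ ‖Ψ (s, q)‖}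
  have pick : ∀ q : R2, ∃ (v : (Fin 3 → ℝ) →L[ℝ] (Fin d → ℝ))
      (A : (Fin 3 → ℝ) →L[ℝ] (Fin 3 → ℝ)) (B : ℝ), q ∈ G →
        0 < B ∧ B ≤ Bm ∧ (∀ u, ‖v u‖ ≤ ‖u‖) ∧ (∀ h, ‖h‖ ≤ B * ‖A h‖) ∧ ∀ s : Fin d → ℝ, ‖s‖ ≤ ρ →
        ‖(fderiv ℝ Ψ (s, q)).comp ((ContinuousLinearMap.inl ℝ (Fin d → ℝ) R2).comp v) - A‖
          ≤ 1 / (2 * B) := by
    intro q
    by_cases hq : q ∈ G
    · obtain ⟨v, A, B, h'⟩ := (H q hq.1).2.resolve_left hq.2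
      exact ⟨v, A, B, fun _ => h'⟩
    · exact ⟨0, 0, 0, fun h' => absurd h' hq⟩
  choose v A B hpick using pick
  let cl : (Fin d → ℝ) → (Fin d → ℝ) := fun τ => (4 / max 4 ‖τ‖) • τ
  have hcl : ∀ τ : Fin d → ℝ, ‖τ‖ ≤ 4 → cl τ = τ := fun τ h => by simp [cl, max_eq_left h]
  have hclc : Continuous cl := (continuous_const.div (continuous_const.max continuous_norm)
    fun τ => (lt_of_lt_of_le four_pos (le_max_left _ _)).ne').smul continuous_id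
  have hcl4 : ∀ τ : Fin d → ℝ, ‖cl τ‖ ≤ 4 := fun τ => by
    have hp : 0 < max 4 ‖τ‖ := lt_of_lt_of_le four_pos (le_max_left _ _)
    rw [norm_smul, norm_div, Real.norm_of_nonneg (by norm_num : (0 : ℝ) ≤ 4),
      Real.norm_of_nonneg hp.le, div_mul_eq_mul_div, div_le_iff₀ hp]
    linarith [le_max_right 4 ‖τ‖]
  have hin : ∀ τ : Fin d → ℝ, ‖τ‖ ≤ 4 → ‖δ • τ‖ ≤ ρ := fun τ h => by
    rw [norm_smul, Real.norm_of_nonneg hδ.le]; nlinarith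
  let Φ : R2 → (Fin d → ℝ) → (Fin 3 → ℝ) := fun q τ => δ⁻¹ • Ψ (δ • cl τ, q)
  have hΦc : ∀ q ∈ G, Continuous (Φ q) := fun q hq => by
    have h1 : Continuous fun τ => ((δ • cl τ, q) : (Fin d → ℝ) × R2) :=
      (hclc.const_smul δ).prodMk continuous_const
    have h2 : Continuous fun τ => Ψ (δ • cl τ, q) :=
      hΨ.continuousOn.comp_continuous h1 fun τ => (H q hq.1).1 _ (hin _ (hcl4 τ))
    exact h2.const_smul δ⁻¹
  obtain ⟨τ, hτ, hav⟩ := Generic.exists_avoid_region G Φ hΦc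
    v (fun q hq s hs => ((hpick q hq).2.2.1 s).trans hs)
    (L := L) (B := 2 * Bm) (Λ := Λ₀ / δ) (η := κ₀ * δ ^ 2)
    (fun q hq => (hLq q hq.1).trans (by have := le_max_left Lq 0; simp [L]; linarith))
    (by positivity) (by positivity) (by positivity)
    (fun x hx y hy τ hτ => by
      have e := hlip (δ • cl τ) (hin _ (hcl4 τ)) x hx.1 y hy.1
      simp only [Φ, ← smul_sub, norm_smul, norm_inv, Real.norm_of_nonneg hδ.le]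
      rw [div_eq_inv_mul, mul_assoc]
      exact mul_le_mul_of_nonneg_left e (by positivity))
    (fun x hx τ s s' hτ hs hs' => by
      obtain ⟨hB0, hBB, hv1, hA, hn⟩ := hpick x hx
      exact (anti_of_local hW hΨ hB0 hv1 hA hδ hδρ (H x hx.1).1 hn hcl hτ hs hs').trans
        (mul_le_mul_of_nonneg_right (by linarith) (norm_nonneg _)))
    (margin_small hL hΛ₀ hBm hδ hδ1 hκ₀ (by rw [hκdef, div_le_one (by positivity)]; linarith)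
      (by rw [hκdef, mul_one_div, div_lt_one (by positivity)]; linarith))
  refine ⟨δ • τ, ?_, fun q hq => ?_⟩
  · rw [norm_smul, Real.norm_of_nonneg hδ.le]; nlinarith
  have hδ3 : δ ^ 3 ≤ 1 := pow_le_one₀ hδ.le hδ1
  by_cases hqG : q ∈ G
  · have h1 := hav q hqG
    simp only [Φ, hcl τ (hτ.trans (by norm_num)), norm_smul, norm_inv,
      Real.norm_of_nonneg hδ.le] at h1
    rw [le_inv_mul_iff₀ hδ] at h1
    refine le_trans ?_ h1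
    calc min κ₀ ρ * δ ^ 3 ≤ κ₀ * δ ^ 3 :=
          mul_le_mul_of_nonneg_right (min_le_left _ _) (by positivity)
      _ = δ * (κ₀ * δ ^ 2) := by ring
  · have h1 : ∀ s : Fin d → ℝ, ‖s‖ ≤ ρ → ρ ≤ ‖Ψ (s, q)‖ := by
      by_contra h'; exact hqG ⟨hq, h'⟩
    refine le_trans ?_ (h1 (δ • τ) (hin τ (hτ.trans (by norm_num))))
    exact (mul_le_of_le_one_right (lt_min hκ₀ hρ).le hδ3).trans (min_le_right _ _)

end

end Vale.Agent.P205.Round1
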