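import Vale.Agent.P205.Generic.Strata
import Vale.Agent.P205.Generic.Normal

/-!
Variations at one point: normal variations `ψ ν` of growing frequency separate the three
functionals of every stage, so their first variations at the point are independent.
-/

namespace Vale.Agent.P205.Round1

open scoped ContDiff RealInnerProductSpace Topology Nat
open Set Filter Metric
open Vale.Agent.P205.Algebra (V4 cP cR ca cb detg Wsq iW n0 n1 k1 chain cc)
open Vale.Agent.P205.Generic (VScale Ext Sm Exp Bd BaseBd O NormalResp Top normalZeta var1 lf slice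
  base0 pd zj one tq jac sx dck kdet quad0)

noncomputable section

/-- The first variation of a functional at a point. -/
def dvar (Φ : (R2 → V4) → R2 → ℝ) (g Z : R2 → V4) (q : R2) : ℝ :=
  deriv (fun s : ℝ => Φ (fun x => g x + s • Z x) q) 0

/-- The first variations of three functionals at a point are independent. -/
def Sees (Φ : Fin 3 → (R2 → V4) → R2 → ℝ) (g : R2 → V4) (q : R2) : Prop :=
  ∀ lam : Fin 3 → ℝ,
    (∀ Z : R2 → V4, ContDiff ℝ ∞ Z → ∑ l, lam l * dvar (Φ l) g Z q = 0) → lam = 0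

/-- A cut off monomial. -/
def prof (k : ℕ) (t : ℝ) : ℝ :=
  (⟨1, 2, one_pos, one_lt_two⟩ : ContDiffBump (0 : ℝ)) t * (t ^ k / k !)

lemma prof_smooth (k : ℕ) : ContDiff ℝ ∞ (prof k) :=
  (ContDiffBump.contDiff _).mul ((contDiff_id.pow k).div_const _)

lemma prof_bdd (k m : ℕ) : ∃ C : ℝ, ∀ t, |iteratedDeriv m (prof k) t| ≤ C := by
  have hc : ∀ m, HasCompactSupport (iteratedDeriv m (prof k)) := fun m => by
    induction m with
    | zero => rw [iteratedDeriv_zero]; exact (ContDiffBump.hasCompactSupport _).mul_right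
    | succ m ih => rw [iteratedDeriv_succ]; exact ih.deriv
  exact ((prof_smooth k).continuous_iteratedDeriv m (WithTop.coe_le_coe.2 le_top)).bounded_above_of_compact_support (hc m)

lemma prof_jet (k m : ℕ) : iteratedDeriv m (prof k) 0 = if m = k then 1 else 0 := by
  have h : prof k =ᶠ[𝓝 0] fun t : ℝ => t ^ k / k ! := by
    filter_upwards [(⟨1, 2, one_pos, one_lt_two⟩ : ContDiffBump (0 : ℝ)).eventuallyEq_one]
      with t ht
    simp [prof, ht]
  rw [h.iteratedDeriv_eq m, iteratedDeriv_div_const, iteratedDeriv_fun_pow_zero]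
  split_ifs with h' <;> simp [Nat.factorial_ne_zero]

/-- The frequency. -/
def freq (i : ℕ) : ℝ := i + 1

lemma one_le_freq (i : ℕ) : 1 ≤ freq i := by simp [freq]

/-- The scalar variation with one jet. -/
def psi (a b : ℕ) (q : R2) (i : ℕ) (x : R2) : ℝ :=
  prof (a + 1) (freq i * (x.1 - q.1)) * prof b (x.2 - q.2)

lemma psi_smooth (a b : ℕ) (q : R2) (i : ℕ) : ContDiff ℝ ∞ (psi a b q i) :=
  ((prof_smooth _).comp (contDiff_const.mul (contDiff_fst.sub contDiff_const))).mul
    ((prof_smooth _).comp (contDiff_snd.sub contDiff_const))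

lemma pd_psi (a b : ℕ) (q : R2) (i : ℕ) (c d : ℕ) :
    pd c d (psi a b q i) = fun x => freq i ^ c * (iteratedDeriv c (prof (a + 1)) (freq i * (x.1 - q.1))
      * iteratedDeriv d (prof b) (x.2 - q.2)) := by
  have hd : ∀ k m t, HasDerivAt (iteratedDeriv m (prof k)) (iteratedDeriv (m + 1) (prof k) t) t :=
    fun k m t => by
      rw [iteratedDeriv_succ]
      exact ((prof_smooth k).differentiable_iteratedDeriv m
        (WithTop.coe_lt_coe.2 (WithTop.coe_lt_top m)) t).hasDerivAt
  have hF : ∀ m n (x : R2), HasFDerivAt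
      (fun x : R2 => iteratedDeriv m (prof (a + 1)) (freq i * (x.1 - q.1))
        * iteratedDeriv n (prof b) (x.2 - q.2))
      ((iteratedDeriv m (prof (a + 1)) (freq i * (x.1 - q.1))) •
          (iteratedDeriv (n + 1) (prof b) (x.2 - q.2) • ContinuousLinearMap.snd ℝ ℝ ℝ) +
        (iteratedDeriv n (prof b) (x.2 - q.2)) •
          (iteratedDeriv (m + 1) (prof (a + 1)) (freq i * (x.1 - q.1)) •
            (freq i • ContinuousLinearMap.fst ℝ ℝ ℝ))) x := fun m n x =>
    ((hd _ m _).comp_hasFDerivAt x ((hasFDerivAt_fst.sub_const q.1).const_mul (freq i))).mul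
      ((hd _ n _).comp_hasFDerivAt x (hasFDerivAt_snd.sub_const q.2))
  induction d with
  | zero =>
    induction c with
    | zero => funext x; simp [pd, psi]
    | succ c ih =>
      show Generic.dx^[c + 1] (psi a b q i) = _
      rw [Function.iterate_succ_apply']
      funext x
      rw [show Generic.dx^[c] (psi a b q i) = _ from ih, Generic.dx,
        ((hF c 0 x).const_mul (freq i ^ c)).fderiv]
      simp [pow_succ]; ring
  | succ d ih =>
    show Generic.dy^[d + 1] (Generic.dx^[c] (psi a b q i)) = _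
    rw [Function.iterate_succ_apply']
    funext x
    rw [show Generic.dy^[d] (Generic.dx^[c] (psi a b q i)) = _ from ih, Generic.dy,
      ((hF c d x).const_mul (freq i ^ c)).fderiv]
    simp

/-- The family. -/
def fam (g : R2 → V4) (Z : ℕ → R2 → V4) (i : ℕ) (z : Ext) : V4 := g z.2 + z.1 • Z i z.2

lemma slice_fam (g : R2 → V4) (Z : ℕ → R2 → V4) (i : ℕ) : slice (fam g Z) i 0 = g :=
  funext fun x => by simp [slice, fam]

/-- `detg • n0`, a polynomial in the jets. -/
def cleared (F : R2 → V4) (x : R2) : V4 :=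
  detg F x • Algebra.F22 F x
    - ⟪Algebra.F22 F x, Algebra.dx F x⟫ •
        (Algebra.g22 F x • Algebra.dx F x - Algebra.g12 F x • Algebra.dy F x)
    - ⟪Algebra.F22 F x, Algebra.dy F x⟫ •
        (Algebra.g11 F x • Algebra.dy F x - Algebra.g12 F x • Algebra.dx F x)

lemma n0_eq {F : R2 → V4} {x : R2} (hd : detg F x ≠ 0) :
    n0 one F x = (detg F x)⁻¹ • cleared F x := by
  simp only [cleared, Algebra.n0, Algebra.v1, Algebra.v2, Generic.rinv_const_one, smul_sub,
    smul_smul, inv_mul_cancel₀ hd, one_smul]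
  simp only [mul_comm, mul_assoc]

lemma contDiff_lf (g : R2 → V4) (Z : ℕ → R2 → V4) (hg : ContDiff ℝ ∞ g)
    (hZ : ∀ i, ContDiff ℝ ∞ (Z i)) (i : ℕ) :
    ContDiff ℝ ∞ (lf (fam g Z) detg i) ∧ ContDiff ℝ ∞ (lf (fam g Z) cleared i) := by
  have hG : ContDiff ℝ ∞ fun z : Ext => slice (fam g Z) i z.1 z.2 :=
    (hg.comp contDiff_snd).add (contDiff_fst.smul ((hZ i).comp contDiff_snd))
  have hd : ∀ {T : ℝ → R2 → V4} (v : R2), ContDiff ℝ ∞ (fun z : Ext => T z.1 z.2) →
      ContDiff ℝ ∞ fun z : Ext => fderiv ℝ (T z.1) z.2 v := fun {T} v hT => by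
    convert (hT.fderiv_right (m := ∞) le_rfl).clm_apply
      (contDiff_const (c := ((0 : ℝ), v))) using 1
    funext z
    exact DFunLike.congr_fun ((hT.differentiable (by simp) z).hasFDerivAt.comp z.2
      (f := fun x : R2 => (z.1, x)) (hasFDerivAt_prodMk_right z.1 z.2)).fderiv v
  have x := hd (1, 0) hG
  have y := hd (0, 1) hG
  have yy := hd (T := fun s => Algebra.dy (slice (fam g Z) i s)) (0, 1) y
  have det : ContDiff ℝ ∞ (lf (fam g Z) detg i) :=
    ((x.inner ℝ x).mul (y.inner ℝ y)).sub ((x.inner ℝ y).pow 2)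
  exact ⟨det, ((det.smul yy).sub ((yy.inner ℝ x).smul
    (((y.inner ℝ y).smul x).sub ((x.inner ℝ y).smul y)))).sub
      ((yy.inner ℝ y).smul (((x.inner ℝ x).smul y).sub ((x.inner ℝ y).smul x)))⟩

lemma smooth_jets {g : R2 → V4} (hg : ContDiff ℝ ∞ g) :
    ContDiff ℝ ∞ (detg g) ∧ ContDiff ℝ ∞ (cleared g) := by
  obtain ⟨h1, h2⟩ := contDiff_lf g (fun _ _ => 0) hg (fun _ => contDiff_const) 0
  have hl : ContDiff ℝ ∞ fun x : R2 => ((0 : ℝ), x) := contDiff_const.prodMk contDiff_id
  constructor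
  · simpa [lf, slice_fam, Function.comp_def] using h1.comp hl
  · simpa [lf, slice_fam, Function.comp_def] using h2.comp hl

section

variable (g : R2 → V4) (Z : ℕ → R2 → V4) (hg : ContDiff ℝ ∞ g) (hZ : ∀ i, ContDiff ℝ ∞ (Z i))
  (U : Set R2) (hU : IsOpen U) (hne : ∀ x ∈ U, detg g x ≠ 0 ∧ Wsq one g x ≠ 0)

/-- The scale of a family of probes. -/
def pscale : VScale ℕ where
  dom _ := U
  big _ := 2
  isOpen _ := hU
  two_le _ := le_rfl
  win i := {z | z.2 ∈ U ∧ lf (fam g Z) detg i z ≠ 0 ∧ lf (fam g Z) cleared i z ≠ 0}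
  amp _ := 1
  freq := freq
  win_open i := (hU.preimage continuous_snd).inter
    ((isOpen_ne.preimage (contDiff_lf g Z hg hZ i).1.continuous).inter
      (isOpen_ne.preimage (contDiff_lf g Z hg hZ i).2.continuous))
  mem_win i p hp := by
    obtain ⟨h1, h2⟩ := hne p hp
    refine ⟨hp, ?_, ?_⟩ <;> simp only [lf, slice_fam]
    · exact h1
    · intro h
      exact h2 (by rw [Algebra.Wsq, n0_eq h1, h]; simp)
  amp_nonneg _ := zero_le_one
  one_le_freq := one_le_freq

end

lemma exists_pow_ge (C : ℝ) : ∃ k : ℕ, C ≤ (2 : ℝ) ^ k :=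
  (pow_unbounded_of_one_lt C one_lt_two).imp fun _ h => h.le

/-- Estimates of the variations of the three functionals kill one combination of coefficients. -/
lemma kill {e : Fin 3 → ℕ → ℝ} {lam d : Fin 3 → ℝ} {N : ℕ}
    (h0 : ∀ i, ∑ l, lam l * e l i = 0)
    (he : ∀ l, lam l = 0 ∨ ∃ C, ∀ i, |e l i - d l * freq i ^ (N + 1)| ≤ C * freq i ^ N) :
    ∑ l, lam l * d l = 0 := by
  have hl : ∀ l, ∃ C, ∀ i, |lam l * e l i - lam l * d l * freq i ^ (N + 1)| ≤ C * freq i ^ N := by
    intro l
    rcases he l with h | ⟨C, hC⟩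
    · exact ⟨0, fun i => by simp [h]⟩
    · refine ⟨|lam l| * C, fun i => ?_⟩
      rw [mul_assoc (lam l), ← mul_sub, abs_mul, mul_assoc]
      exact mul_le_mul_of_nonneg_left (hC i) (abs_nonneg _)
  choose C hC using hl
  by_contra h
  obtain ⟨i, hi⟩ := exists_nat_gt ((∑ l, C l) / |∑ l, lam l * d l|)
  have hM : 0 < freq i := lt_of_lt_of_le one_pos (one_le_freq i)
  have h1 : |(∑ l, lam l * d l) * freq i ^ (N + 1)| ≤ (∑ l, C l) * freq i ^ N := by
    rw [← abs_neg, Finset.sum_mul, Finset.sum_mul, ← zero_sub]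
    nth_rewrite 1 [← h0 i]
    rw [← Finset.sum_sub_distrib]
    exact (Finset.abs_sum_le_sum_abs _ _).trans (Finset.sum_le_sum fun l _ => hC l i)
  rw [abs_mul, abs_of_pos (pow_pos hM _), pow_succ', ← mul_assoc] at h1
  have h2 := le_of_mul_le_mul_right h1 (pow_pos hM _)
  rw [div_lt_iff₀ (abs_pos.2 h)] at hi
  have : (i : ℝ) ≤ freq i := by simp [freq]
  nlinarith [abs_nonneg (∑ l, lam l * d l), abs_pos.2 h]

/-- The first jets of one of the normals. -/
structure NormalField (g : R2 → V4) (N : R2 → V4) : Prop where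
  smooth : ContDiffOn ℝ ∞ N {x | detg g x ≠ 0 ∧ Wsq one g x ≠ 0}
  nu_x : ∀ x, detg g x ≠ 0 → ⟪N x, Algebra.dx g x⟫ = 0
  nu_y : ∀ x, detg g x ≠ 0 → ⟪N x, Algebra.dy g x⟫ = 0

variable {g : R2 → V4} {q : R2}

lemma normalFields (hg : ContDiff ℝ ∞ g) :
    NormalField g (n0 one g) ∧ NormalField g (n1 one g) := by
  have hc := fun {V : Type} [NormedAddCommGroup V] [NormedSpace ℝ V] {f : R2 → V}
    (h : ContDiff ℝ ∞ f) => h.contDiffOn (s := {x | detg g x ≠ 0 ∧ Wsq one g x ≠ 0})
  have x : ContDiff ℝ ∞ (Algebra.dx g) := (hg.fderiv_right le_rfl).clm_apply contDiff_const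
  have y : ContDiff ℝ ∞ (Algebra.dy g) := (hg.fderiv_right le_rfl).clm_apply contDiff_const
  obtain ⟨det, cl⟩ := smooth_jets hg
  have h0 : ContDiffOn ℝ ∞ (n0 one g) {x | detg g x ≠ 0 ∧ Wsq one g x ≠ 0} :=
    (((hc det).inv fun z hz => hz.1).smul (hc cl)).congr fun z hz => n0_eq hz.1
  have hcross : ContDiff ℝ ∞ fun z : (V4 × V4) × V4 => Algebra.cross4 z.1.1 z.1.2 z.2 := by
    refine contDiff_piLp' 2 fun i => ?_
    fin_cases i <;> simp [Algebra.cross4] <;> fun_prop
  refine ⟨⟨h0, fun z hz => ?_, fun z hz => ?_⟩,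
    ⟨hcross.comp_contDiffOn (((hc x).prodMk (hc y)).prodMk h0), fun z _ => ?_, fun z _ => ?_⟩⟩
  · rw [real_inner_comm]; exact (Generic.n0_perp hz).1
  · rw [real_inner_comm]; exact (Generic.n0_perp hz).2
  · rw [real_inner_comm]; exact (Generic.n1_perp (F := g) (p := z)).1
  · rw [real_inner_comm]; exact (Generic.n1_perp (F := g) (p := z)).2.1

/-- **The probe.**  For a normal `N` at the point, the coefficients of the target jet
`(n + 1, 0)` or `(n, 1)` of an orthogonal combination vanish. -/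
theorem probe (hg : ContDiff ℝ ∞ g) (hd : detg g q ≠ 0) (hw : Wsq one g q ≠ 0)
    {N : R2 → V4} (hN : NormalField g N) {Φ : Fin 3 → (R2 → V4) → R2 → ℝ} {lam : Fin 3 → ℝ}
    (horth : ∀ Z : R2 → V4, ContDiff ℝ ∞ Z → ∑ l, lam l * dvar (Φ l) g Z q = 0)
    (top : Bool) (m : ℕ) (n : Fin 3 → ℕ) (d : Fin 3 → ℝ)
    (hn : ∀ l, lam l = 0 ∨ n l ≤ m)
    (hexp : ∀ (S : VScale ℕ) (G : ℕ → Ext → V4) (ζ μ A20 A11 B20 B11 : ℕ → ℝ × ℝ → ℝ),
      Top S G ζ μ A20 A11 B20 B11 → (∀ i, slice G i 0 = g) → (∀ i, μ i q = ⟪N q, n1 one g q⟫) →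
      (∀ i, A20 i q = -(⟪N q, n0 one g q⟫ * iW one g q)) → (∀ i, A11 i q = 0) →
      (∀ i, B20 i q = 0) → (∀ i, B11 i q = -(2 * ⟪N q, n0 one g q⟫ * iW one g q)) →
      ∀ l, ∃ c20 c11, Exp S ζ (n l) (lf G (Φ l)) c20 c11 ∧
        (n l = m → ∀ i, (if top then c20 else c11) i q = d l)) :
    ∑ l, (if n l = m then lam l * d l else 0) = 0 := by
  -- a neighbourhood of the point
  obtain ⟨sdet, scl⟩ := smooth_jets hg
  have hV : IsOpen {x | detg g x ≠ 0 ∧ Wsq one g x ≠ 0} := by
    rw [show {x | detg g x ≠ 0 ∧ Wsq one g x ≠ 0} =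
        detg g ⁻¹' {y | y ≠ 0} ∩ cleared g ⁻¹' {y | y ≠ 0} from
      Set.ext fun x => and_congr_right fun hx => by
        show Wsq one g x ≠ 0 ↔ cleared g x ≠ 0
        simp [Algebra.Wsq, n0_eq hx, show detg g x ≠ 0 from hx]]
    exact (isOpen_ne.preimage sdet.continuous).inter (isOpen_ne.preimage scl.continuous)
  obtain ⟨r, hr, hrV⟩ := nhds_basis_closedBall.mem_iff.1 (hV.mem_nhds ⟨hd, hw⟩)
  let b : ContDiffBump q := ⟨r / 2, r, half_pos hr, half_lt_self hr⟩
  set ν : R2 → V4 := fun x => b x • N x with hν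
  have hνs : ContDiff ℝ ∞ ν := contDiff_iff_contDiffAt.mpr fun y => by
    by_cases hy : y ∈ closedBall q r
    · exact b.contDiff.contDiffAt.smul (hN.smooth.contDiffAt (hV.mem_nhds (hrV hy)))
    · refine (contDiffAt_const (c := (0 : V4))).congr_of_eventuallyEq ?_
      filter_upwards [isClosed_closedBall.isOpen_compl.mem_nhds hy] with z hz
      simp [hν, b.zero_of_le_dist (le_of_lt (not_le.mp hz))]
  set U := ball q (r / 2) with hU
  have hbU : ∀ x ∈ U, b x = 1 := fun x hx =>
    b.one_of_mem_closedBall (ball_subset_closedBall hx)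
  have hUV : closure U ⊆ {x | detg g x ≠ 0 ∧ Wsq one g x ≠ 0} :=
    (closure_mono (ball_subset_ball (by linarith))).trans (closure_ball_subset_closedBall.trans hrV)
  set a := if top then m + 1 else m with ha
  set b' := if top then 0 else 1 with hb'
  set Z : ℕ → R2 → V4 := fun i x => psi a b' q i x • ν x with hZd
  have hZ : ∀ i, ContDiff ℝ ∞ (Z i) := fun i => (psi_smooth a b' q i).smul hνs
  let S := pscale g Z hg hZ U isOpen_ball fun x hx => hUV (subset_closure hx)
  set G := fam g Z with hG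
  have hs : ∀ i, slice G i 0 = g := slice_fam g Z
  have hcpt : IsCompact (closure U) := isBounded_ball.isCompact_closure
  have bd : ∀ {V : Type} [NormedAddCommGroup V] [NormedSpace ℝ V] {f : R2 → V},
      ContDiff ℝ ∞ f → BaseBd S fun _ => f := fun {V} _ _ {f} hf =>
    ⟨fun _ => hf.contDiffOn, fun c e => by
      obtain ⟨B, hB⟩ := hcpt.exists_bound_of_continuousOn
        ((Generic.contDiffOn_pd isOpen_univ hf.contDiffOn c e).continuousOn.mono (subset_univ _))
      obtain ⟨k, hk⟩ := exists_pow_ge B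
      exact ⟨k, fun i p hp => by
        simpa [S, pscale] using (hB p (subset_closure hp)).trans hk⟩⟩
  have hsm : Sm S G := fun i =>
    ((hg.comp contDiff_snd).add (contDiff_fst.smul ((hZ i).comp contDiff_snd))).contDiffOn
  have hGd : ∀ i, ContDiff ℝ ∞ (G i) := fun i =>
    (hg.comp contDiff_snd).add (contDiff_fst.smul ((hZ i).comp contDiff_snd))
  have hv : ∀ i x, var1 G i x = Z i x := fun i x => by
    have h : HasFDerivAt (G i) (fderiv ℝ (G i) (0, x)) (0, x) :=
      ((hGd i).differentiable (by simp) ((0 : ℝ), x)).hasFDerivAt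
    have h1 : HasDerivAt (fun s : ℝ => G i (s, x)) (var1 G i x) 0 :=
      h.comp_hasDerivAt (f := fun s : ℝ => ((s, x) : Ext)) (0 : ℝ)
        ((hasDerivAt_id (0 : ℝ)).prodMk (hasDerivAt_const (0 : ℝ) x))
    refine h1.unique ?_
    simpa [hG, fam] using ((hasDerivAt_id (0 : ℝ)).smul_const (Z i x)).const_add (g x)
  have hpsi : O S 0 (psi a b' q) := ⟨fun i => (psi_smooth a b' q i).contDiffOn, fun c e => by
    obtain ⟨B, hB⟩ := prof_bdd (a + 1) c
    obtain ⟨B', hB'⟩ := prof_bdd b' e
    obtain ⟨k, hk⟩ := exists_pow_ge (B * B')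
    refine ⟨k, fun i p _ => ?_⟩
    rw [pd_psi]
    simp only [S, pscale, pow_zero, mul_one, Real.norm_eq_abs, abs_mul, abs_pow,
      abs_of_nonneg (zero_le_one.trans (one_le_freq i))]
    rw [mul_comm (2 ^ k : ℝ)]
    exact mul_le_mul_of_nonneg_left ((mul_le_mul (hB _) (hB' _) (abs_nonneg _)
      ((abs_nonneg _).trans (hB 0))).trans hk) (pow_nonneg (zero_le_one.trans (one_le_freq i)) _)⟩
  have hres : NormalResp S G (psi a b' q) (fun _ => ν) :=
    { sm := hsm
      base := (bd hg).congr fun i p _ => by simp [base0, hG, fam]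
      detg_ne := fun i z hz => hz.2.1
      W_ne := fun i z hz h => hz.2.2 <| by
        have h' : n0 one (slice G i z.1) z.2 = 0 := inner_self_eq_zero.1 h
        rw [n0_eq hz.2.1, smul_eq_zero] at h'
        exact h'.resolve_left (inv_ne_zero hz.2.1)
      low := by
        have c : ∀ {f : R2 → ℝ}, ContinuousOn f (closure U) → (∀ x ∈ closure U, f x ≠ 0) →
            ∃ k : ℕ, ∀ x ∈ U, 1 ≤ (2 : ℝ) ^ k * |f x| := fun hf h0 => by
          obtain ⟨B, hB⟩ := hcpt.exists_bound_of_continuousOn (hf.inv₀ h0)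
          obtain ⟨k, hk⟩ := exists_pow_ge B
          refine ⟨k, fun x hx => ?_⟩
          have h := (hB x (subset_closure hx)).trans hk
          rw [Pi.inv_apply, norm_inv, Real.norm_eq_abs,
            inv_le_iff_one_le_mul₀ (abs_pos.2 (h0 x (subset_closure hx)))] at h
          exact h
        obtain ⟨k, hk⟩ := c (f := detg g) sdet.continuous.continuousOn
          fun x hx => (hUV hx).1
        obtain ⟨k', hk'⟩ := c (f := Wsq one g)
          ((((normalFields hg).1.smooth.inner ℝ (normalFields hg).1.smooth).continuousOn).mono hUV)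
          fun x hx => (hUV hx).2
        refine ⟨k + k', fun i p hp => ⟨?_, ?_⟩⟩ <;> simp only [hs, S, pscale]
        · exact (hk p hp).trans (mul_le_mul_of_nonneg_right
            (pow_le_pow_right₀ one_le_two (by omega)) (abs_nonneg _))
        · exact (hk' p hp).trans (mul_le_mul_of_nonneg_right
            (pow_le_pow_right₀ one_le_two (by omega)) (abs_nonneg _))
      psi := hpsi
      nu := bd hνs
      nu_x := fun i p hp => by
        simp [hs, hν, real_inner_smul_left, hN.nu_x p (hUV (subset_closure hp)).1]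
      nu_y := fun i p hp => by
        simp [hs, hν, real_inner_smul_left, hN.nu_y p (hUV (subset_closure hp)).1]
      err := by
        rw [show (fun i p => var1 G i p - psi a b' q i p • ν p) = fun _ _ => (0 : V4) from
          funext fun i => funext fun p => by simp [hv, hZd]]
        refine ⟨fun i => contDiffOn_const, fun c e => ⟨0, fun i p hp => ?_⟩⟩
        have hx : Generic.dx (fun _ : ℝ × ℝ => (0 : V4)) = fun _ => 0 := by
          ext; simp [Generic.dx]
        have hy : Generic.dy (fun _ : ℝ × ℝ => (0 : V4)) = fun _ => 0 := by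
          ext; simp [Generic.dy]
        simp only [pd, Function.iterate_fixed hx c, Function.iterate_fixed hy e, norm_zero]
        have := zero_le_one.trans (one_le_freq i)
        simp [S, pscale]
        positivity }
  have hq : q ∈ U := mem_ball_self (half_pos hr)
  have hT := hexp S G _ _ _ _ _ _ hres.top hs
    (fun i => by simp [hs, hν, hbU q hq]) (fun i => by simp [hs, hν, hbU q hq])
    (fun _ => rfl) (fun _ => rfl) (fun i => by simp [hs, hν, hbU q hq])
  refine (Finset.sum_congr rfl fun l _ => ?_).trans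
    (kill (e := fun l i => dvar (Φ l) g (Z i) q) (d := fun l => if n l = m then d l else 0)
      (N := a) (fun i => horth _ (hZ i)) fun l => ?_)
  · split_ifs <;> simp
  rcases hn l with h | h
  · exact Or.inl h
  right
  obtain ⟨c20, c11, hE, hc⟩ := hT l
  obtain ⟨C, hC⟩ := hE.entry
  refine ⟨(2 : ℝ) ^ C, fun i => ?_⟩
  have hf : HasFDerivAt (lf G (Φ l) i) (fderiv ℝ (lf G (Φ l) i) (0, q)) (0, q) :=
    ((hE.sm.at i (show q ∈ S.dom i from hq)).differentiableAt (by simp)).hasFDerivAt
  have e : dvar (Φ l) g (Z i) q = var1 (lf G (Φ l)) i q :=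
    (hf.comp_hasDerivAt (f := fun s : ℝ => ((s, q) : Ext)) (0 : ℝ)
      ((hasDerivAt_id (0 : ℝ)).prodMk (hasDerivAt_const (0 : ℝ) q))).deriv
  have zz : ∀ u v, zj (normalZeta (psi a b' q)) u v i q =
      freq i ^ (u + 1) * if u = a ∧ v = b' then 1 else 0 := fun u v => by
    show pd u v (Generic.dx (psi a b' q i)) q = _
    rw [Generic.pd_dx, pd_psi]
    simp only [sub_self, mul_zero, prof_jet, Nat.succ_inj]
    split_ifs <;> simp_all
  have h1 := hC i q hq
  simp only [zz, smul_eq_mul, Real.norm_eq_abs] at h1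
  rw [e]
  have hz : ¬(n l = a ∧ (0 : ℕ) = b') := by
    cases top <;> simp [ha, hb'] <;> omega
  rw [if_neg hz] at h1
  simp only [mul_zero, abs_zero, add_zero, S, pscale, one_mul] at h1
  refine le_trans (le_of_eq ?_) (h1.trans (mul_le_mul_of_nonneg_left
    (pow_le_pow_right₀ (one_le_freq i) (show n l ≤ a by cases top <;> simp [ha] <;> omega))
    (by positivity)))
  congr 2
  by_cases hm : n l = m
  · have hd' := hc hm i
    cases top
    · simp only [Bool.false_eq_true, ↓reduceIte] at hd'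
      simp [ha, hb', hm, hd']
      ring
    · simp only [↓reduceIte] at hd'
      simp [ha, hb', hm, hd']
      ring
  · cases top <;> simp [ha, hb', hm]

section Cases

variable (hg : ContDiff ℝ ∞ g) (hd : detg g q ≠ 0) (hw : Wsq one g q ≠ 0)
include hg hd hw

omit hg in
lemma mu_eq : ⟪n1 one g q, n1 one g q⟫ * iW one g q = detg g q := by
  rw [Generic.n1_sq hd]
  simp [Algebra.iW, mul_assoc, mul_inv_cancel₀ hw]

/-- The first stage and its two variants. -/
lemma sees_first {Ψ : (R2 → V4) → R2 → ℝ} (top : Bool) {d : ℝ} (hd' : d ≠ 0)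
    (h : ∀ (S : VScale ℕ) (G : ℕ → Ext → V4) (ζ μ A20 A11 B20 B11 : ℕ → ℝ × ℝ → ℝ),
      Top S G ζ μ A20 A11 B20 B11 → (∀ i, slice G i 0 = g) →
      (∀ i, μ i q * iW one g q = detg g q) →
      ∃ c20 c11, Exp S ζ 1 (lf G Ψ) c20 c11 ∧ ∀ i, (if top then c20 else c11) i q = d) :
    Sees ![cP one, cR one, Ψ] g q := fun lam hl => by
  have hN := (normalFields hg).2
  have h2 : lam 2 = 0 := by
    have := probe hg hd hw hN hl top 1 ![0, 0, 1] ![0, 0, d]
      (fun l => Or.inr (by fin_cases l <;> simp))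
      fun S G ζ μ A20 A11 B20 B11 hT hs hμ _ _ _ _ l => by
        have hμ' : ∀ i, μ i q * iW one g q = detg g q := fun i => by rw [hμ, mu_eq hd hw]
        fin_cases l
        · exact ⟨_, _, hT.exp_cP, by simp⟩
        · exact ⟨_, _, hT.exp_cR, by simp⟩
        · obtain ⟨a, b, hE, hc⟩ := h S G ζ μ A20 A11 B20 B11 hT hs hμ'
          exact ⟨a, b, hE, fun _ => hc⟩
    simpa [Fin.sum_univ_three, hd'] using this
  have h01 : ∀ top : Bool, (if top then lam 0 else 2 * lam 1) * detg g q = 0 := fun top => by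
    have := probe hg hd hw hN hl top 0 ![0, 0, 1]
      (if top then ![detg g q, 0, 0] else ![0, 2 * detg g q, 0])
      (fun l => by fin_cases l <;> simp [h2])
      fun S G ζ μ A20 A11 B20 B11 hT hs hμ _ _ _ _ l => by
        have hμ' : ∀ i, μ i q * iW one g q = detg g q := fun i => by rw [hμ, mu_eq hd hw]
        fin_cases l
        · exact ⟨_, _, hT.exp_cP, fun _ i => by
            cases top <;> simp [hs, hμ']⟩
        · exact ⟨_, _, hT.exp_cR, fun _ i => by
            cases top <;> simp [hs, mul_assoc, hμ']⟩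
        · obtain ⟨a, b, hE, -⟩ := h S G ζ μ A20 A11 B20 B11 hT hs hμ'
          exact ⟨a, b, hE, by simp⟩
    cases top <;> simp [Fin.sum_univ_three] at this ⊢ <;> tauto
  funext l
  fin_cases l
  · simpa [hd] using h01 true
  · simpa [hd] using h01 false
  · exact h2

theorem sees_tq : Sees ![cP one, cR one, tq] g q :=
  sees_first hg hd hw false (d := 4 * detg g q) (by simp [hd])
    fun S G ζ μ A20 A11 B20 B11 hT hs hμ' => by
      refine ⟨_, _, (Exp.congr (hT.exp_dRx.add (hT.exp_dPy.const_mul 2))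
        fun _ _ _ => rfl : Exp S ζ 1 (lf G tq) _ _), fun i => ?_⟩
      simp [hs, mul_assoc, hμ']
      ring

theorem sees_jac (h : tq g q ≠ 0) : Sees ![cP one, cR one, jac] g q :=
  sees_first hg hd hw false (d := -(detg g q * tq g q)) (by simp [hd, h])
    fun S G ζ μ A20 A11 B20 B11 hT hs hμ' => by
      refine ⟨_, _, (Exp.congr ((hT.exp_dPx.mul hT.exp_dRy).sub (hT.exp_dPy.mul hT.exp_dRx))
        fun _ _ _ => rfl : Exp S ζ 1 (lf G jac) _ _), fun i => ?_⟩
      simp [base0, lf, hs, tq, ← hμ' i]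
      ring

theorem sees_sx (k : ℕ) (h : sx (k + 1) g q ≠ 0) : Sees ![cP one, cR one, sx k] g q :=
  sees_first hg hd hw true (d := sx (k + 1) g q * detg g q) (mul_ne_zero h hd)
    fun S G ζ μ A20 A11 B20 B11 hT hs hμ' => by
      obtain ⟨B, hE⟩ := hT.exp_sx k
      exact ⟨_, _, hE, fun i => by simp [hs, hμ']⟩

omit hg hd hw in
lemma k1_ne (hc : cP one g q ≠ 0 ∨ cR one g q ≠ 0) : k1 one g q ≠ 0 := by
  intro h
  simp [Algebra.k1, P205.det2, Algebra.perp, Algebra.cc] at h
  rcases hc with h' | h' <;>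
    nlinarith [mul_self_pos.2 h', sq_nonneg (cP one g q), sq_nonneg (cR one g q)]

theorem sees_Dc (hc : cP one g q ≠ 0 ∨ cR one g q ≠ 0) (h0 : quad0 one g q = 0) :
    Sees ![dck 0, dck 1, dck 2] g q := fun lam hl => by
  obtain ⟨hN0, hN1⟩ := normalFields hg
  have hW : Wsq one g q * iW one g q = 1 := by simp [Algebra.iW, mul_inv_cancel₀ hw]
  have hΦ : ∀ l : Fin 3, ![dck 0, dck 1, dck 2] l = fun F => Generic.Dc one F (chain one F l.1) :=
    fun l => by fin_cases l <;> rfl
  have key : ∀ m : ℕ, ∀ hm : m < 3, (∀ l : Fin 3, m < l.1 → lam l = 0) →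
      lam ⟨m, hm⟩ = 0 := fun m hm hz => by
    by_cases hR : cR one g q = 0
    · have hP : cP one g q ≠ 0 := hc.resolve_right (not_not.2 hR)
      have := probe hg hd hw hN1 hl true m (fun l => l.1)
        (fun l => k1 one g q ^ (2 * l.1) * (2 * cP one g q * detg g q))
        (fun l => (em (m < l.1)).imp (hz l) not_lt.1)
        fun S G ζ μ A20 A11 B20 B11 hT hs hμ _ _ hB _ l => by
          obtain ⟨β, β', -, -, hE⟩ := hT.exp_Dc l.1
          refine ⟨_, _, by rw [hΦ l]; exact hE, fun _ i => ?_⟩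
          have hμ' : μ i q * iW one g q = detg g q := by rw [hμ, mu_eq hd hw]
          simp [hs, hB, h0, Generic.topC, Generic.a20, hR, hμ']
          exact Or.inl (by ring)
      rw [Finset.sum_eq_single ⟨m, hm⟩ (fun l _ hl => if_neg (fun e => hl (Fin.ext e)))
        (by simp)] at this
      simpa [k1_ne hc, hP, hd] using this
    · have := probe hg hd hw hN0 hl true m (fun l => l.1)
        (fun l => k1 one g q ^ (2 * l.1) * cR one g q ^ 2)
        (fun l => (em (m < l.1)).imp (hz l) not_lt.1)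
        fun S G ζ μ A20 A11 B20 B11 hT hs hμ hA _ hB _ l => by
          obtain ⟨β, β', -, -, hE⟩ := hT.exp_Dc l.1
          refine ⟨_, _, by rw [hΦ l]; exact hE, fun _ i => ?_⟩
          have hz : ⟪n0 one g q, n1 one g q⟫ = 0 := (Generic.n1_perp).2.2
          have hw' : ⟪n0 one g q, n0 one g q⟫ * iW one g q = 1 := hW
          simp only [hs, hμ, hA, hB, h0, Generic.topC, Generic.a20, hz, ↓reduceIte, hw']
          ring
      rw [Finset.sum_eq_single ⟨m, hm⟩ (fun l _ hl => if_neg (fun e => hl (Fin.ext e)))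
        (by simp)] at this
      simpa [k1_ne hc, hR] using this
  have h2 := key 2 (by norm_num) fun l hl => absurd l.2 (by omega)
  have h1 := key 1 (by norm_num) fun l hl => by fin_cases l <;> simp_all
  have h0' := key 0 (by norm_num) fun l hl => by fin_cases l <;> simp_all
  funext l
  fin_cases l <;> assumption

theorem sees_det {j : ℕ} (hj : j ≤ 2) (hc : cP one g q ≠ 0 ∨ cR one g q ≠ 0)
    (h : dck j g q ≠ 0) : Sees ![kdet j 3, kdet j 4, kdet j 5] g q := fun lam hl => by
  obtain ⟨-, hN1⟩ := normalFields hg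
  set top : Bool := decide (cR one g q ≠ 0) with htop
  set c : ℝ := if top then -(k1 one g q * detg g q * cR one g q)
    else 2 * k1 one g q * detg g q * cP one g q with hcd
  have c0 : c ≠ 0 := by
    by_cases hR : cR one g q = 0
    · simp [hcd, htop, hR, k1_ne hc, hd, hc.resolve_right (not_not.2 hR)]
    · simp [hcd, htop, hR, k1_ne hc, hd]
  have hΦ : ∀ l : Fin 3, ![kdet j 3, kdet j 4, kdet j 5] l =
      fun F p => k1 one F p * Algebra.detChain one F j (l.1 + 3) p :=
    fun l => by fin_cases l <;> rfl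
  have key : ∀ m : ℕ, ∀ hm : m < 3, (∀ l : Fin 3, m < l.1 → lam l = 0) →
      lam ⟨m, hm⟩ = 0 := fun m hm hz => by
    have := probe hg hd hw hN1 hl top (m + 4) (fun l => l.1 + 4)
      (fun l => -(dck j g q * (k1 one g q ^ (2 * (l.1 + 3)) * c)))
      (fun l => (em (m < l.1)).imp (hz l) (by omega))
      fun S G ζ μ A20 A11 B20 B11 hT hs hμ hA _ hB _ l => by
        have hE := hT.exp_det (j := j) (k := l.1 + 3) (by omega)
        refine ⟨_, _, by rw [hΦ l]; exact hE, fun _ i => ?_⟩
        have hμ' : μ i q * iW one g q = detg g q := by rw [hμ, mu_eq hd hw]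
        by_cases hR : cR one g q = 0
        · simp only [htop, hR, ne_eq, not_true_eq_false, decide_false, Bool.false_eq_true,
            ↓reduceIte, hcd, hs, Generic.crossC, Generic.b20, Generic.b11, dck]
          rw [← hμ']
          ring
        · simp only [htop, hR, ne_eq, not_false_eq_true, decide_true, ↓reduceIte, hcd, hs,
            Generic.topC, Generic.b20, dck]
          rw [← hμ']
          ring
    rw [Finset.sum_eq_single ⟨m, hm⟩
      (fun l _ hl => if_neg (fun e => hl (Fin.ext (by simpa using e)))) (by simp)] at this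
    simpa [k1_ne hc, h, c0] using this
  have h2 := key 2 (by norm_num) fun l hl => absurd l.2 (by omega)
  have h1 := key 1 (by norm_num) fun l hl => by fin_cases l <;> simp_all
  have h0' := key 0 (by norm_num) fun l hl => by fin_cases l <;> simp_all
  funext l
  fin_cases l <;> assumption

end Cases

end

end Vale.Agent.P205.Round1
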