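import Vale.Agent.P205.Full.Round1.Directions
import Vale.Agent.P205.Full.Round1.Margin
import Vale.Agent.P205.Full.Round1.Probe

/-!
# P205, round one: one stage

A stage makes three jet functions of the map read in a moving chart nowhere zero together on a
compact set, by an arbitrarily small exact change of the map and of the chart.
-/

namespace Vale.Agent.P205.Round1

open scoped ContDiff Topology
open Set Filter Finset Metric Vale.Agent.P205.Full Vale.Agent.P205.Algebra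
  Vale.Agent.P205.Correction Vale.Agent.P205.Bridge

noncomputable section

/-- `(F, φ')` is an exact change of `(f, φ)`, small of order `n`. -/
structure Moved (n : ℕ) (N QQ : Set R2) (G : R2 → Fin 3 → ℝ) (f : R2 → V4) (φ : R2 → R2)
    (F : R2 → V4) (φ' : R2 → R2) : Prop where
  smooth : ContDiff ℝ ∞ F
  smooth_chart : ContDiff ℝ ∞ φ'
  off : ∀ p ∉ N, F p = f p
  exact' : ∀ p ∈ N, rdet (G p - metF F p) = 0
  near : ∀ i ≤ n, ∀ p, ‖iteratedFDeriv ℝ i (fun x => F x - f x) p‖ ≤ 1 / ((n : ℝ) + 1)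
  jet : ∀ q ∈ QQ, ‖J n F q - J n f q‖ ≤ 1 / ((n : ℝ) + 1)
  jet_chart : ∀ q ∈ QQ, ‖J n (F ∘ φ') q - J n (f ∘ φ) q‖ ≤ 1 / ((n : ℝ) + 1)
  chart : ∀ q ∈ QQ, ‖φ' q - φ q‖ ≤ 1 / ((n : ℝ) + 1) ∧
    ‖fderiv ℝ φ' q - fderiv ℝ φ q‖ ≤ 1 / ((n : ℝ) + 1)
  snd : ∀ q, (φ' q).2 = (φ q).2

lemma norm_J_mono {r n : ℕ} (h : r ≤ n) (g g' : R2 → V4) (q : R2) :
    ‖J r g q - J r g' q‖ ≤ ‖J n g q - J n g' q‖ :=
  (pi_norm_le_iff_of_nonneg (norm_nonneg _)).2 fun i =>
    norm_le_pi_norm (J n g q - J n g' q) (Fin.castLE (Nat.succ_le_succ h) i)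

/-- Open conditions on jet functions survive small changes. -/
theorem exists_stable {U : Type*} [NormedAddCommGroup U] [NormedSpace ℝ U]
    {ND : (E2 → E4) → R2 → Prop} {c : (R2 → V4) → R2 → U} (hc : CF ι ND c) {g : R2 → V4}
    (hg : ContDiff ℝ ∞ g) {S : Set R2} (hS : IsCompact S) {O : Set U} (hO : IsOpen O)
    (h : ∀ q ∈ S, ND (g ∘ ι.symm) q ∧ c g q ∈ O) :
    ∃ n₀ : ℕ, ∀ n, n₀ ≤ n → ∀ g' : R2 → V4, ContDiff ℝ ∞ g' →
      (∀ q ∈ S, ‖J n g' q - J n g q‖ ≤ 1 / ((n : ℝ) + 1)) → ∀ q ∈ S, c g' q ∈ O := by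
  obtain ⟨r, D, Gr, hrep, hmem⟩ := exists_rep hc
  have hcont : ContinuousOn (fun q => (q, J r g q)) S := by
    refine (continuous_id.prodMk ?_).continuousOn
    exact (contDiff_jetFD r (contDiff_on_E2 hg)).continuous.comp ι.continuous
  have hsub : (fun q => (q, J r g q)) '' S ⊆ D ∩ Gr ⁻¹' O := by
    rintro _ ⟨q, hq, rfl⟩
    have hqD := hmem g hg q (h q hq).1
    exact ⟨hqD, by rw [Set.mem_preimage, ← hrep.eq g hg q hqD]; exact (h q hq).2⟩
  obtain ⟨δ, hδ, hδD⟩ := (hS.image_of_continuousOn hcont).exists_cthickening_subset_open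
    (hrep.smooth.continuousOn.isOpen_inter_preimage hrep.isOpen hO) hsub
  obtain ⟨k, hk⟩ := exists_nat_one_div_lt hδ
  refine ⟨max r k, fun n hn g' hg' hclose q hq => ?_⟩
  have hd : dist (q, J r g' q) (q, J r g q) ≤ δ := by
    rw [Prod.dist_eq, dist_self, max_eq_right dist_nonneg, dist_eq_norm]
    refine ((norm_J_mono (le_of_max_le_left hn) _ _ q).trans (hclose q hq)).trans (le_trans ?_ hk.le)
    gcongr
    exact_mod_cast le_of_max_le_right hn
  have hin := hδD (mem_cthickening_of_dist_le _ _ δ _ (mem_image_of_mem _ hq) hd)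
  rw [hrep.eq g' hg' q hin.1]
  exact hin.2

/-- The chart moved along the first coordinate by `∑ s_j α_j`. -/
def mvChart {d : ℕ} (φ : R2 → R2) (α : Fin d → R2 → ℝ) (z : (Fin d → ℝ) × R2) : R2 :=
  ((φ z.2).1 - ∑ j, z.1 j * α j (φ z.2), (φ z.2).2)

lemma contDiff_mvChart {d : ℕ} {φ : R2 → R2} (hφ : ContDiff ℝ ∞ φ) {α : Fin d → R2 → ℝ}
    (hα : ∀ j, ContDiff ℝ ∞ (α j)) : ContDiff ℝ ∞ (mvChart φ α) :=
  ((contDiff_fst.comp (hφ.comp contDiff_snd)).sub (ContDiff.sum fun j _ =>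
    ((contDiff_apply ℝ ℝ j).comp contDiff_fst).mul ((hα j).comp (hφ.comp contDiff_snd)))).prodMk
    (contDiff_snd.comp (hφ.comp contDiff_snd))

lemma mvChart_zero {d : ℕ} (φ : R2 → R2) (α : Fin d → R2 → ℝ) (x : R2) :
    mvChart φ α (0, x) = φ x := by
  simp [mvChart]

/-- The variation of a family read in the moving chart. -/
lemma fderiv_moving {d : ℕ} {φ : R2 → R2} (hφ : ContDiff ℝ ∞ φ) {α : Fin d → R2 → ℝ}
    (hα : ∀ j, ContDiff ℝ ∞ (α j)) {H : (Fin d → ℝ) × R2 → V4} (hH : ContDiff ℝ ∞ H)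
    {f : R2 → V4} (hH0 : ∀ p, H (0, p) = f p) {x : R2} {Z : Fin d → V4}
    (hD : HasFDerivAt (fun s => H (s, φ x))
      (∑ j, (ContinuousLinearMap.proj j : (Fin d → ℝ) →L[ℝ] ℝ).smulRight (Z j)) 0) (j : Fin d) :
    fderiv ℝ (fun z : (Fin d → ℝ) × R2 => H (z.1, mvChart φ α z)) (0, x) (Pi.single j 1, 0) =
      Z j - α j (φ x) • Algebra.dx f (φ x) := by
  set w : Fin d → ℝ := Pi.single j 1
  have hm : HasFDerivAt (fun s : Fin d → ℝ => (s, mvChart φ α (s, x)))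
      ((ContinuousLinearMap.id ℝ (Fin d → ℝ)).prod
        ((-∑ l, α l (φ x) • ContinuousLinearMap.proj (R := ℝ) (φ := fun _ : Fin d => ℝ) l).prod 0))
      0 := by
    refine (hasFDerivAt_id _).prodMk (HasFDerivAt.prodMk ?_ (hasFDerivAt_const ((φ x).2) (0 : Fin d → ℝ)))
    show HasFDerivAt (fun s : Fin d → ℝ => (φ x).1 - ∑ l,
      (ContinuousLinearMap.proj (R := ℝ) (φ := fun _ : Fin d => ℝ) l) s * α l (φ x)) _ 0
    exact (HasFDerivAt.fun_sum fun l _ => (((ContinuousLinearMap.proj (R := ℝ)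
      (φ := fun _ : Fin d => ℝ) l).hasFDerivAt (x := (0 : Fin d → ℝ))).mul_const (α l (φ x)))).const_sub _
  have hout : HasFDerivAt H (fderiv ℝ H (0, φ x)) ((fun s => (s, mvChart φ α (s, x))) 0) := by
    show HasFDerivAt H (fderiv ℝ H (0, φ x)) ((0 : Fin d → ℝ), mvChart φ α (0, x))
    rw [mvChart_zero]
    exact ((hH.differentiable (by simp)) _).hasFDerivAt
  have h1 := hout.comp (0 : Fin d → ℝ) hm
  have hsm : ContDiff ℝ ∞ fun z : (Fin d → ℝ) × R2 => H (z.1, mvChart φ α z) :=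
    hH.comp (contDiff_fst.prodMk (contDiff_mvChart hφ hα))
  have h2 : HasFDerivAt (fun s => H (s, mvChart φ α (s, x)))
      ((fderiv ℝ (fun z : (Fin d → ℝ) × R2 => H (z.1, mvChart φ α z)) (0, x)).comp
        (ContinuousLinearMap.inl ℝ (Fin d → ℝ) R2)) (0 : Fin d → ℝ) :=
    HasFDerivAt.comp (g := fun z : (Fin d → ℝ) × R2 => H (z.1, mvChart φ α z)) (0 : Fin d → ℝ)
      ((hsm.differentiable (by simp)) (0, x)).hasFDerivAt
      (hasFDerivAt_prodMk_left (𝕜 := ℝ) (0 : Fin d → ℝ) x)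
  have e := DFunLike.congr_fun (h2.unique h1) w
  simp only [ContinuousLinearMap.comp_apply, ContinuousLinearMap.inl_apply] at e
  rw [e]
  have hs : HasFDerivAt (fun s => H (s, φ x))
      ((fderiv ℝ H (0, φ x)).comp (ContinuousLinearMap.inl ℝ (Fin d → ℝ) R2)) 0 :=
    ((hH.differentiable (by simp)) (0, φ x)).hasFDerivAt.comp (0 : Fin d → ℝ)
      (hasFDerivAt_prodMk_left (𝕜 := ℝ) (0 : Fin d → ℝ) (φ x))
  have es := DFunLike.congr_fun (hs.unique hD) w
  have ef : fderiv ℝ H (0, φ x) (0, (1, 0)) = Algebra.dx f (φ x) := by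
    rw [Algebra.dx, ← funext hH0, fderiv_slice hH]
    rfl
  have hsplit : (((ContinuousLinearMap.id ℝ (Fin d → ℝ)).prod
      ((-∑ l, α l (φ x) • ContinuousLinearMap.proj (R := ℝ) (φ := fun _ : Fin d => ℝ) l).prod 0))) w
      = (w, 0) + (-α j (φ x)) • ((0 : Fin d → ℝ), ((1 : ℝ), (0 : ℝ))) := by
    simp [w, Pi.single_apply]
  rw [hsplit, map_add, map_smul, ef]
  simp only [ContinuousLinearMap.comp_apply, ContinuousLinearMap.inl_apply] at es
  rw [es, neg_smul, ← sub_eq_add_neg]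
  congr 1
  simp [w, Pi.single_apply]

/-- The first variation through a representation. -/
lemma dvar_eq {r : ℕ} {D : Set (R2 × Jet r)} {Gr : R2 × Jet r → (Fin 3 → ℝ)}
    {Φ : Fin 3 → (R2 → V4) → R2 → ℝ} (hrep : Rep r D Gr fun g q l => Φ l g q) {g Z : R2 → V4}
    (hg : ContDiff ℝ ∞ g) (hZ : ContDiff ℝ ∞ Z) {q : R2} (hq : (q, J r g q) ∈ D) (l : Fin 3) :
    dvar (Φ l) g Z q = fderiv ℝ Gr (q, J r g q) (0, J r Z q) l := by
  have hline : ∀ s : ℝ, J r (fun x => g x + s • Z x) q = J r g q + s • J r Z q := fun s => by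
    rw [J_add r (g := fun x => s • Z x) hg (hZ.const_smul s), J_smul r s hZ]
  have h1 : HasDerivAt (fun s : ℝ => ((q, J r g q + s • J r Z q) : R2 × Jet r)) (0, J r Z q) 0 := by
    simpa using (hasDerivAt_const (0 : ℝ) q).prodMk
      (((hasDerivAt_id (0 : ℝ)).smul_const (J r Z q)).const_add (J r g q))
  have hG : HasFDerivAt Gr (fderiv ℝ Gr (q, J r g q))
      ((fun s : ℝ => ((q, J r g q + s • J r Z q) : R2 × Jet r)) 0) := by
    show HasFDerivAt Gr _ (q, J r g q + (0 : ℝ) • J r Z q)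
    rw [zero_smul ℝ (J r Z q), add_zero]
    exact ((hrep.smooth.contDiffAt (hrep.isOpen.mem_nhds hq)).differentiableAt
      (by simp)).hasFDerivAt
  have h2 := hasDerivAt_pi.1 (hG.comp_hasDerivAt 0 h1) l
  refine (HasDerivAt.congr_of_eventuallyEq h2 ?_).deriv
  filter_upwards [(continuous_const.prodMk (continuous_const.add
    (continuous_id.smul continuous_const))).continuousAt.preimage_mem_nhds
      (hrep.isOpen.mem_nhds (show (q, J r g q + (0 : ℝ) • J r Z q) ∈ D by rw [zero_smul ℝ (J r Z q), add_zero]; exact hq))]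
    with s hs
  have hs' : (q, J r (fun x => g x + s • Z x) q) ∈ D := by rw [hline]; exact hs
  show Φ l (fun x => g x + s • Z x) q = Gr (q, J r g q + s • J r Z q) l
  rw [← hline, ← hrep.eq _ (hg.add (hZ.const_smul s)) q hs']

/-- A finite set of directions, three of which are independent at each point of the set. -/
def Covered (K : Set R2) (T : (R2 → V4) → (R2 → ℝ) → R2 → Fin 3 → ℝ) (S : Set R2) : Prop :=
  ∃ (ι' : Type) (_ : Fintype ι') (X : ι' → R2 → V4) (α : ι' → R2 → ℝ),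
    (∀ j, ContDiff ℝ ∞ (X j) ∧ ContDiff ℝ ∞ (α j) ∧ (∀ p ∉ K, X j p = 0) ∧ ∀ p ∉ K, α j p = 0) ∧
    ∀ q ∈ S, ∃ e : Fin 3 → ι', LinearIndependent ℝ fun i => T (X (e i)) (α (e i)) q

/-- Pointwise independent directions give finitely many for a compact set. -/
theorem exists_covered {K : Set R2} {T : (R2 → V4) → (R2 → ℝ) → R2 → Fin 3 → ℝ} {S : Set R2}
    (hS : IsCompact S)
    (hT : ∀ X α, ContDiff ℝ ∞ X → ContDiff ℝ ∞ α → (∀ p ∉ K, X p = 0) → (∀ p ∉ K, α p = 0) →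
      ContinuousOn (T X α) S)
    (h : ∀ q ∈ S, ∀ lam : Fin 3 → ℝ, (∀ X α, ContDiff ℝ ∞ X → ContDiff ℝ ∞ α →
      (∀ p ∉ K, X p = 0) → (∀ p ∉ K, α p = 0) → ∑ l, lam l * T X α q l = 0) → lam = 0) :
    Covered K T S := by
  refine hS.induction_on (p := Covered K T) ?_ ?_ ?_ ?_
  · exact ⟨Empty, inferInstance, fun j => j.elim, fun j => j.elim, fun j => j.elim,
      fun q hq => hq.elim⟩
  · rintro s t hst ⟨ι', hf, X, α, h1, h2⟩
    exact ⟨ι', hf, X, α, h1, fun q hq => h2 q (hst hq)⟩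
  · rintro s t ⟨ι', hf, X, α, h1, h2⟩ ⟨κ, hf', X', α', h1', h2'⟩
    refine ⟨ι' ⊕ κ, inferInstance, Sum.elim X X', Sum.elim α α', ?_, ?_⟩
    · rintro (j | j)
      exacts [h1 j, h1' j]
    · rintro q (hq | hq)
      · obtain ⟨e, he⟩ := h2 q hq; exact ⟨Sum.inl ∘ e, he⟩
      · obtain ⟨e, he⟩ := h2' q hq; exact ⟨Sum.inr ∘ e, he⟩
  intro q hq
  set V : Set (Fin 3 → ℝ) := {v | ∃ X α, (ContDiff ℝ ∞ X ∧ ContDiff ℝ ∞ α ∧ (∀ p ∉ K, X p = 0) ∧
    ∀ p ∉ K, α p = 0) ∧ T X α q = v}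
  have htop : Submodule.span ℝ V = ⊤ := by
    by_contra hne
    obtain ⟨L, hL, hLk⟩ := (Submodule.span ℝ V).exists_le_ker_of_lt_top (lt_top_iff_ne_top.2 hne)
    have hrep : ∀ v : Fin 3 → ℝ, L v = ∑ l, L (Pi.single l 1) * v l := fun v => by
      conv_lhs => rw [pi_eq_sum_univ' v]
      simp [map_sum, mul_comm]
    have hz := h q hq (fun l => L (Pi.single l 1)) fun X α hX hα hX0 hα0 => by
      rw [← hrep]
      exact hLk (Submodule.subset_span ⟨X, α, ⟨hX, hα, hX0, hα0⟩, rfl⟩)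
    exact hL (LinearMap.ext fun v => by
      rw [hrep]; simp [show ∀ l, L (Pi.single l 1) = 0 from fun l => congrFun hz l])
  obtain ⟨e, heV, -, hli⟩ := Submodule.exists_fun_fin_finrank_span_eq ℝ V
  have hr : Module.finrank ℝ (Submodule.span ℝ V) = 3 := by rw [htop]; simp
  choose X α hXα hTe using heV
  let u : R2 → Fin 3 → Fin 3 → ℝ := fun x i => T (X (Fin.cast hr.symm i)) (α (Fin.cast hr.symm i)) x
  have hu : ContinuousOn u S := continuousOn_pi.2 fun i =>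
    hT _ _ (hXα _).1 (hXα _).2.1 (hXα _).2.2.1 (hXα _).2.2.2
  have hdet0 : Matrix.det (Matrix.of (u q)) ≠ 0 := by
    have hli' : LinearIndependent ℝ (u q) := by
      have := hli.comp (Fin.cast hr.symm) (Fin.cast_injective _)
      simpa [Function.comp_def, u, hTe] using this
    exact (Matrix.isUnit_iff_isUnit_det _).1
      (Matrix.linearIndependent_rows_iff_isUnit.1 hli') |>.ne_zero
  have hdc : ContinuousOn (fun x => Matrix.det (Matrix.of (u x))) S :=
    (Continuous.matrix_det continuous_id).comp_continuousOn hu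
  obtain ⟨W, hW, hWd⟩ : ∃ W ∈ 𝓝[S] q, ∀ x ∈ W, Matrix.det (Matrix.of (u x)) ≠ 0 :=
    ⟨_, (hdc q hq).eventually (isOpen_ne.mem_nhds hdet0), fun x hx => hx⟩
  refine ⟨W, hW, Fin 3, inferInstance, fun i => X (Fin.cast hr.symm i),
    fun i => α (Fin.cast hr.symm i), fun j => hXα _, fun x hx => ⟨id, ?_⟩⟩
  exact Matrix.linearIndependent_rows_iff_isUnit.2
    ((Matrix.isUnit_iff_isUnit_det _).2 (Ne.isUnit (hWd x hx)))

lemma rep_contAt {U : Type*} [NormedAddCommGroup U] [NormedSpace ℝ U] {r : ℕ}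
    {D : Set (R2 × Jet r)} {Gr : R2 × Jet r → U} {c : (R2 → V4) → R2 → U} (hrep : Rep r D Gr c)
    {g : R2 → V4} (hg : ContDiff ℝ ∞ g) {q : R2} (hq : (q, J r g q) ∈ D) :
    ContinuousAt (c g) q := by
  have hj : Continuous fun x => ((x, J r g x) : R2 × Jet r) :=
    continuous_id.prodMk ((contDiff_jetFD r (contDiff_on_E2 hg)).continuous.comp ι.continuous)
  refine ((hrep.smooth.continuousOn.continuousAt (hrep.isOpen.mem_nhds hq)).comp
    (f := fun x => (x, J r g x)) hj.continuousAt).congr ?_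
  filter_upwards [hj.continuousAt.preimage_mem_nhds (hrep.isOpen.mem_nhds hq)] with x hx
  exact (hrep.eq g hg x hx).symm

/-- Independent columns give a bijective map. -/
lemma bijective_of_columns {d : ℕ} (L : (Fin d → ℝ) →L[ℝ] (Fin 3 → ℝ)) (e : Fin 3 → Fin d)
    (h : LinearIndependent ℝ fun i => L (Pi.single (e i) 1)) :
    ∃ v : (Fin 3 → ℝ) →L[ℝ] (Fin d → ℝ), Function.Bijective fun u => L (v u) := by
  let v : (Fin 3 → ℝ) →L[ℝ] (Fin d → ℝ) := ∑ i, (ContinuousLinearMap.proj (R := ℝ)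
    (φ := fun _ : Fin 3 => ℝ) i).smulRight (Pi.single (e i) 1)
  have hv : ∀ u : Fin 3 → ℝ, L (v u) = ∑ i, u i • L (Pi.single (e i) 1) := fun u => by
    simp [v, map_sum]
  refine ⟨v, ?_⟩
  have hinj : Function.Injective (L.comp v : (Fin 3 → ℝ) →L[ℝ] (Fin 3 → ℝ)) := by
    intro a b hab
    have hz : ∑ i, (a - b) i • L (Pi.single (e i) 1) = 0 := by
      rw [← hv, map_sub, map_sub, sub_eq_zero]
      exact hab
    exact sub_eq_zero.1 (funext fun i => Fintype.linearIndependent_iff.1 h _ hz i)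
  exact ⟨hinj, (LinearMap.injective_iff_surjective
    (f := ((L.comp v : (Fin 3 → ℝ) →L[ℝ] (Fin 3 → ℝ)) : (Fin 3 → ℝ) →ₗ[ℝ] (Fin 3 → ℝ)))).1 hinj⟩

/-- The properties which a small parameter has eventually. -/
lemma eventually_small {d : ℕ} {K0 QQ : Set R2} (hK : IsCompact K0) (hQQ : IsCompact QQ)
    {H : (Fin d → ℝ) × R2 → V4} (hH : ContDiff ℝ ∞ H) {f : R2 → V4} (hf : ContDiff ℝ ∞ f)
    (hH0 : ∀ p, H (0, p) = f p) (hHK : ∀ s, ∀ p ∉ K0, H (s, p) = f p) {φ : R2 → R2}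
    (hφ : ContDiff ℝ ∞ φ) {α : Fin d → R2 → ℝ} (hα : ∀ j, ContDiff ℝ ∞ (α j)) (m : ℕ) :
    ∀ ε > (0 : ℝ), ∀ᶠ s in 𝓝 (0 : Fin d → ℝ),
      (∀ i ≤ m, ∀ p, ‖iteratedFDeriv ℝ i (fun x => H (s, x) - f x) p‖ < ε) ∧ ∀ q ∈ QQ,
        ‖J m (fun x => H (s, mvChart φ α (s, x))) q - J m (f ∘ φ) q‖ < ε ∧
        ‖mvChart φ α (s, q) - φ q‖ < ε ∧
        ‖fderiv ℝ (fun x => mvChart φ α (s, x)) q - fderiv ℝ φ q‖ < ε := by
  intro ε hε
  have hmv := contDiff_mvChart hφ hα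
  refine Filter.Eventually.and ?_ ?_
  · have hR : Ord 1 fun z : (Fin d → ℝ) × R2 => H z - f z.2 :=
      (Ord.of_compact hK (hH.sub (hf.comp contDiff_snd)) fun s p hp => by simp [hHK s p hp]).2
        fun p => by simp [hH0]
    choose C hC0 hC using hR.2
    set Cm := ∑ i ∈ range (m + 1), C i
    have hCm : 0 ≤ Cm := sum_nonneg fun i _ => hC0 i
    filter_upwards [closedBall_mem_nhds (0 : Fin d → ℝ) (show (0 : ℝ) < min 1 (ε / (Cm + 1)) by
      positivity)] with s hs i hi p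
    rw [mem_closedBall, dist_zero_right, le_min_iff, le_div_iff₀ (by positivity)] at hs
    have h1 := hC i s hs.1 p
    rw [pow_one] at h1
    refine lt_of_le_of_lt h1 ?_
    have h2 : C i ≤ Cm := single_le_sum (fun l _ => hC0 l) (mem_range.2 (by omega))
    nlinarith [norm_nonneg s, mul_le_mul_of_nonneg_right h2 (norm_nonneg s)]
  · refine hQQ.eventually_forall_of_forall_eventually fun q _ => ?_
    have c1 : Continuous fun z : (Fin d → ℝ) × R2 =>
        ‖J m (fun x => H (z.1, mvChart φ α (z.1, x))) z.2 - J m (f ∘ φ) z.2‖ :=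
      ((fderiv_jet_slice m (h := fun z : (Fin d → ℝ) × R2 => H (z.1, mvChart φ α z))
        (hH.comp (contDiff_fst.prodMk hmv))).1.continuous.sub
        ((contDiff_jetFD m (contDiff_on_E2 (hf.comp hφ))).continuous.comp
          (ι.continuous.comp continuous_snd))).norm
    have c2 : Continuous fun z : (Fin d → ℝ) × R2 => ‖mvChart φ α (z.1, z.2) - φ z.2‖ :=
      (hmv.continuous.sub (hφ.continuous.comp continuous_snd)).norm
    have c3 : Continuous fun z : (Fin d → ℝ) × R2 =>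
        ‖fderiv ℝ (fun x => mvChart φ α (z.1, x)) z.2 - fderiv ℝ φ z.2‖ := by
      have e : (fun z : (Fin d → ℝ) × R2 => fderiv ℝ (fun x => mvChart φ α (z.1, x)) z.2) =
          fun z => (fderiv ℝ (mvChart φ α) z).comp (ContinuousLinearMap.inr ℝ (Fin d → ℝ) R2) :=
        funext fun z => (HasFDerivAt.comp (g := mvChart φ α) z.2
          ((hmv.differentiable (by simp)) (z.1, z.2)).hasFDerivAt
          (hasFDerivAt_prodMk_right z.1 z.2)).fderiv
      refine (Continuous.sub ?_ ((hφ.continuous_fderiv (by simp)).comp continuous_snd)).norm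
      rw [e]
      exact (hmv.continuous_fderiv (by simp)).clm_comp continuous_const
    have z0 : (fun x => H ((0 : Fin d → ℝ), mvChart φ α (0, x))) = f ∘ φ :=
      funext fun x => by simp [hH0, mvChart_zero]
    have z1 : (fun x => mvChart φ α ((0 : Fin d → ℝ), x)) = φ := funext fun x => mvChart_zero φ α x
    have lim : ∀ {g : (Fin d → ℝ) × R2 → ℝ}, Continuous g → g (0, q) = 0 →
        ∀ᶠ z : (Fin d → ℝ) × R2 in 𝓝 (0, q), g z < ε := fun hg h0 =>
      hg.continuousAt.eventually (Iio_mem_nhds (by rw [h0]; exact hε))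
    filter_upwards [lim c1 (by simp [z0]), lim c2 (by simp [mvChart_zero]), lim c3 (by simp [z1])]
      with z h1 h2 h3
    exact ⟨h1, h2, h3⟩

/-- A uniform bound of the derivatives of the moving chart. -/
lemma exists_chart_bound {d : ℕ} {QQ : Set R2} (hQQ : IsCompact QQ) {φ : R2 → R2}
    (hφ : ContDiff ℝ ∞ φ) {α : Fin d → R2 → ℝ} (hα : ∀ j, ContDiff ℝ ∞ (α j)) (m : ℕ) :
    ∃ D : ℝ, 1 ≤ D ∧ ∀ q ∈ QQ, ∀ i ≤ m, ‖iteratedFDeriv ℝ i (id ∘ ι.symm) (ι q)‖ ≤ D ∧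
      ∀ s : Fin d → ℝ, ‖s‖ ≤ 1 →
        ‖iteratedFDeriv ℝ i ((fun x => mvChart φ α (s, x)) ∘ ι.symm) (ι q)‖ ≤ D := by
  let u : (Fin d → ℝ) × E2 → R2 := fun z => mvChart φ α (z.1, ι.symm z.2)
  have hu : ContDiff ℝ ∞ u :=
    (contDiff_mvChart hφ hα).comp (contDiff_fst.prodMk (ι.symm.contDiff.comp contDiff_snd))
  choose C hC using fun i : ℕ => (((isCompact_closedBall (0 : Fin d → ℝ) 1).prod
    (hQQ.image ι.continuous))).exists_bound_of_continuousOn
      (fderiv_iterated_slice (0 : Fin d → ℝ) i u hu).1.continuous.continuousOn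
  choose C' hC' using fun i : ℕ => (hQQ.image ι.continuous).exists_bound_of_continuousOn
    ((show ContDiff ℝ ∞ (id ∘ ι.symm) from ι.symm.contDiff).continuous_iteratedFDeriv (m := i)
      (by exact_mod_cast le_top)).continuousOn
  refine ⟨1 + ∑ i ∈ range (m + 1), (|C i| + |C' i|),
    le_add_of_nonneg_right (sum_nonneg fun i _ => by positivity), fun q hq i hi => ?_⟩
  have hmem : i ∈ range (m + 1) := mem_range.2 (by omega)
  have hle : |C i| + |C' i| ≤ ∑ j ∈ range (m + 1), (|C j| + |C' j|) :=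
    single_le_sum (f := fun j => |C j| + |C' j|) (fun j _ => by positivity) hmem
  refine ⟨(hC' i _ (mem_image_of_mem _ hq)).trans ?_, fun s hs =>
    (hC i (s, ι q) ⟨by simpa using hs, mem_image_of_mem _ hq⟩).trans ?_⟩
  · linarith [le_abs_self (C' i), abs_nonneg (C i)]
  · linarith [le_abs_self (C i), abs_nonneg (C' i)]

/-- **One stage.** -/
theorem exists_stage {N K0 QQ Q : Set R2} (hN : IsOpen N) (hNsq : N ⊆ sq) (hK : IsCompact K0)
    (hKN : K0 ⊆ N) {f : R2 → V4} (hf : ContDiff ℝ ∞ f) {G : R2 → Fin 3 → ℝ} (hG : ContDiff ℝ ∞ G)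
    (h0 : ∀ p ∈ N, rdet (G p - metF f p) = 0) {γ : ℝ} (hγ : 0 < γ)
    (hlow : ∀ p ∈ N, γ < detg f p ∧ γ < coefX (fun _ : R2 => (1 : ℝ)) G f p ∧ γ < coefRaw G f p) {φ : R2 → R2}
    (hφ : ContDiff ℝ ∞ φ) (hQQ : IsCompact QQ) (hQ : IsCompact Q) (hQQQ : Q ⊆ QQ)
    (hq : ∀ q ∈ Q, φ q ∈ interior K0 ∧ Function.Injective (fderiv ℝ φ q) ∧ tilt G f (φ q) ≠ 0 ∧
      detg (f ∘ φ) q ≠ 0 ∧ Wsq (fun _ : R2 => (1 : ℝ)) (f ∘ φ) q ≠ 0)
    {Φ : Fin 3 → (R2 → V4) → R2 → ℝ} (hΦ : CF ι (NDeg ι) fun g q l => Φ l g q)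
    (hsee : ∀ q ∈ Q, (∀ l, Φ l (f ∘ φ) q = 0) → Sees Φ (f ∘ φ) q) (n : ℕ) :
    ∃ F φ', Moved n N QQ G f φ F φ' ∧ ∀ q ∈ Q, ∃ l, Φ l (F ∘ φ') q ≠ 0 := by
  classical
  obtain ⟨r, D, Gr, hrep, hmem⟩ := exists_rep hΦ
  have hg : ContDiff ℝ ∞ (f ∘ φ) := hf.comp hφ
  have hnd : ∀ q ∈ Q, NDeg ι ((f ∘ φ) ∘ ι.symm) q := fun q hq' => by
    obtain ⟨-, -, -, h1, h2⟩ := hq q hq'
    exact ⟨by rw [comp_symm_comp]; exact h1, by rw [comp_symm_comp]; exact h2⟩
  have hD : ∀ q ∈ Q, (q, J r (f ∘ φ) q) ∈ D := fun q hq' => hmem _ hg q (hnd q hq')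
  have hi : ∀ p ∈ N, detg f p ≠ 0 := fun p hp => (hγ.trans (hlow p hp).1).ne'
  have hc : ∀ p ∈ N, coefX (fun _ : R2 => (1 : ℝ)) G f p ≠ 0 := fun p hp => (hγ.trans (hlow p hp).2.1).ne'
  -- the zero set and the directions
  set c : R2 → Fin 3 → ℝ := fun q l => Φ l (f ∘ φ) q
  set Z0 : Set R2 := Q ∩ c ⁻¹' {0} with hZ0
  have hZ : IsCompact Z0 := hQ.of_isClosed_subset
    (ContinuousOn.preimage_isClosed_of_isClosed
      (fun q hq' => (rep_contAt hrep hg (hD q hq')).continuousWithinAt)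
      hQ.isClosed isClosed_singleton) inter_subset_left
  set T : (R2 → V4) → (R2 → ℝ) → R2 → Fin 3 → ℝ := fun X α q =>
    fderiv ℝ Gr (q, J r (f ∘ φ) q) (0, J r (vdir G f X α ∘ φ) q)
  have hjc : ∀ {g : R2 → V4}, ContDiff ℝ ∞ g → Continuous fun q => J r g q := fun h =>
    (contDiff_jetFD r (contDiff_on_E2 h)).continuous.comp ι.continuous
  have hvd : ∀ {X : R2 → V4} {α : R2 → ℝ}, ContDiff ℝ ∞ X → ContDiff ℝ ∞ α → (∀ p ∉ K0, X p = 0) →
      ContDiff ℝ ∞ (vdir G f X α) := fun hX hα hX0 =>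
    (contDiff_vdir hN hf hG hi hc hK hKN hX hX0).2.2 _ hα
  obtain ⟨ι', hfin, X, α, hXα, htri⟩ : Covered K0 T Z0 := by
    refine exists_covered hZ (fun X α hX hα hX0 hα0 => ?_) fun q hq' lam hlam => ?_
    · have h1 : ContinuousOn (fun q => fderiv ℝ Gr (q, J r (f ∘ φ) q)) Z0 :=
        (hrep.smooth.continuousOn_fderiv_of_isOpen hrep.isOpen (by simp)).comp
          (continuous_id.prodMk (hjc hg)).continuousOn fun x hx => hD x hx.1
      exact h1.clm_apply (continuous_const.prodMk (hjc ((hvd hX hα hX0).comp hφ))).continuousOn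
    · obtain ⟨hin, hinj, ht, -, -⟩ := hq q hq'.1
      refine hsee q hq'.1 (fun l => congrFun hq'.2 l) lam fun Z hZ' => ?_
      simp only [dvar_eq hrep hg hZ' (hD q hq'.1)]
      let ℓ : Jet r →L[ℝ] ℝ := ∑ l, lam l • ((ContinuousLinearMap.proj (R := ℝ)
        (φ := fun _ : Fin 3 => ℝ) l).comp ((fderiv ℝ Gr (q, J r (f ∘ φ) q)).comp
          (ContinuousLinearMap.inr ℝ R2 (Jet r))))
      have he : ∀ j : Jet r, ℓ j = ∑ l, lam l * fderiv ℝ Gr (q, J r (f ∘ φ) q) (0, j) l :=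
        fun j => by simp [ℓ]
      rw [← he]
      exact directions_fill hN hf hG hi hc hK hKN hφ hin hinj ht ℓ
        (fun X α hX hα hX0 hα0 => by rw [he]; exact hlam X α hX hα hX0 hα0) Z hZ'
  set d := Fintype.card ι'
  set en := Fintype.equivFin ι'
  set Xd : Fin d → R2 → V4 := fun j => X (en.symm j) with hXd
  set αd : Fin d → R2 → ℝ := fun j => α (en.symm j)
  have hαd : ∀ j, ContDiff ℝ ∞ (αd j) := fun j => (hXα _).2.1
  obtain ⟨H, hH, hH0, hHK, hHd, K', -, -, hK'N, εF, hεF, hex⟩ :=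
    exists_family hN hNsq hK hKN hf hG h0 hγ hlow Xd (fun j => by rw [hXd]; exact (hXα _).1)
      (fun j => by rw [hXd]; exact (hXα _).2.2.1) (n + r) 4
  set H' : (Fin d → ℝ) × R2 → V4 := fun z => H (z.1, mvChart φ αd z)
  have hH' : ContDiff ℝ ∞ H' := hH.comp (contDiff_fst.prodMk (contDiff_mvChart hφ hαd))
  obtain ⟨hjs, hjd⟩ := fderiv_jet_slice r hH'
  set jm : (Fin d → ℝ) × R2 → R2 × Jet r := fun z => (z.2, J r (fun x => H' (z.1, x)) z.2)
  have hjm : ContDiff ℝ ∞ jm := contDiff_snd.prodMk hjs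
  have hsl0 : (fun x => H' ((0 : Fin d → ℝ), x)) = f ∘ φ :=
    funext fun x => by simp [H', hH0, mvChart_zero]
  have hjm0 : ∀ q : R2, jm (0, q) = (q, J r (f ∘ φ) q) := fun q => by simp [jm, hsl0]
  set Ψ : (Fin d → ℝ) × R2 → (Fin 3 → ℝ) := fun z => Gr (jm z)
  have hW : IsOpen (jm ⁻¹' D) := hrep.isOpen.preimage hjm.continuous
  have hΨ : ContDiffOn ℝ ∞ Ψ (jm ⁻¹' D) := hrep.smooth.comp hjm.contDiffOn fun z hz => hz
  have hΨ0 : ∀ q ∈ Q, Ψ (0, q) = c q := fun q hq' => by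
    simp only [Ψ, hjm0, c]
    exact (hrep.eq _ hg q (hD q hq')).symm
  obtain ⟨κ, hκ, δ₀, hδ₀, hmarg⟩ := exists_margin hW hΨ hQ
    (fun q hq' => by rw [Set.mem_preimage, hjm0]; exact hD q hq') fun q hq' hz => by
      obtain ⟨e, he⟩ := htri q ⟨hq', by rw [Set.mem_preimage, Set.mem_singleton_iff, ← hΨ0 q hq']; exact hz⟩
      refine bijective_of_columns ((fderiv ℝ Ψ (0, q)).comp
        (ContinuousLinearMap.inl ℝ (Fin d → ℝ) R2)) (fun i => en (e i)) ?_
      convert he using 1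
      funext i
      have hp : φ q ∈ interior K0 := (hq q hq').1
      have hcomp : fderiv ℝ Ψ (0, q) =
          (fderiv ℝ Gr (jm (0, q))).comp (fderiv ℝ jm (0, q)) :=
        fderiv_comp _ ((hrep.smooth.contDiffAt (hrep.isOpen.mem_nhds
          (by rw [hjm0]; exact hD q hq'))).differentiableAt (by simp))
          ((hjm.differentiable (by simp)) _)
      have hjmd : fderiv ℝ jm (0, q) (Pi.single (en (e i)) 1, 0) =
          (0, J r (vdir G f (X (e i)) (α (e i)) ∘ φ) q) := by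
        rw [DifferentiableAt.fderiv_prodMk differentiableAt_snd ((hjs.differentiable (by simp)) _),
          ContinuousLinearMap.prod_apply, hjd]
        simp only [fderiv_snd, ContinuousLinearMap.coe_snd', Prod.mk.injEq, true_and]
        refine J_congr r ?_
        filter_upwards [(isOpen_interior.preimage hφ.continuous).mem_nhds hp] with x hx
        show fderiv ℝ (fun z : (Fin d → ℝ) × R2 => H (z.1, mvChart φ αd z)) (0, x) _ = _
        rw [fderiv_moving hφ hαd hH hH0 (hHd (φ x) (interior_subset hx))]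
        simp [hXd, αd, vdir, corrC]
      simp only [ContinuousLinearMap.comp_apply, ContinuousLinearMap.inl_apply, hcomp, hjmd, hjm0, T]
  -- the choice of the parameter
  obtain ⟨D₀, hD₀, hDb⟩ := exists_chart_bound hQQ hφ hαd (n + r)
  obtain ⟨δL, hδL, L, hL, hlip⟩ := jet_lipschitz hrep.isOpen hrep.smooth
    ((hQ.image (continuous_id.prodMk (hjc hg)))) (by rintro _ ⟨q, hq', rfl⟩; exact hD q hq')
  set M := ((n + r).factorial : ℝ) * D₀ ^ (n + r)
  have hM : 1 ≤ M := one_le_mul_of_one_le_of_one_le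
    (by exact_mod_cast Nat.factorial_pos (n + r)) (one_le_pow₀ hD₀)
  set ν : ℝ := 1 / ((n : ℝ) + 1)
  have hν : 0 < ν := by positivity
  set εs := min δL ν / (3 * M)
  have hεs : 0 < εs := by positivity
  have hεsM : M * εs ≤ min δL ν / 3 := le_of_eq (by simp only [εs]; field_simp)
  have hεs' : εs ≤ min δL ν / 3 := le_trans (le_mul_of_one_le_left hεs.le hM) hεsM
  obtain ⟨ρ, hρ, hρs⟩ := Metric.eventually_nhds_iff.1
    (eventually_small hK hQQ hH hf hH0 hHK hφ hαd (n + r) εs hεs)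
  set δ := min (min δ₀ εF) (min (min (ρ / 2) εs) (min 1 (κ / (L * M + 1))))
  have hδ : 0 < δ := by positivity
  obtain ⟨⟨hδ0, hδF⟩, ⟨hδρ, hδε⟩, hδ1, hδκ⟩ : (δ ≤ δ₀ ∧ δ ≤ εF) ∧ (δ ≤ ρ / 2 ∧ δ ≤ εs) ∧
      δ ≤ 1 ∧ δ ≤ κ / (L * M + 1) :=
    ⟨⟨(min_le_left _ _).trans (min_le_left _ _), (min_le_left _ _).trans (min_le_right _ _)⟩,
      ⟨(min_le_right _ _).trans ((min_le_left _ _).trans (min_le_left _ _)),
        (min_le_right _ _).trans ((min_le_left _ _).trans (min_le_right _ _))⟩,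
      (min_le_right _ _).trans ((min_le_right _ _).trans (min_le_left _ _)),
      (min_le_right _ _).trans ((min_le_right _ _).trans (min_le_right _ _))⟩
  obtain ⟨s, hs, hsm⟩ := hmarg δ hδ hδ0
  obtain ⟨hsH, hsQ⟩ := hρs (show dist s 0 < ρ by rw [dist_zero_right]; linarith)
  obtain ⟨F, hF, hFoff, hFex, hFb⟩ := hex s (hs.trans hδF)
  set φ' := fun x => mvChart φ αd (s, x)
  have hφ' : ContDiff ℝ ∞ φ' := (contDiff_mvChart hφ hαd).comp (contDiff_prodMk_right s)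
  have hHs : ContDiff ℝ ∞ fun x => H (s, x) := contDiff_slice hH s
  have hs4 : ‖s‖ ^ 4 ≤ εs := by
    calc ‖s‖ ^ 4 ≤ δ ^ 4 := pow_le_pow_left₀ (norm_nonneg _) hs 4
      _ ≤ δ := by simpa using pow_le_pow_of_le_one hδ.le hδ1 (show 1 ≤ 4 by norm_num)
      _ ≤ εs := hδε
  have hFf : ∀ i ≤ n + r, ∀ p, ‖iteratedFDeriv ℝ i (fun x => F x - f x) p‖ ≤ 2 * εs := fun i hi' p => by
    rw [show (fun x => F x - f x) = (fun x => F x - H (s, x)) + fun x => H (s, x) - f x from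
      funext fun x => by simp,
      iteratedFDeriv_add_apply ((hF.sub hHs).of_le (by exact_mod_cast le_top)).contDiffAt
        ((hHs.sub hf).of_le (by exact_mod_cast le_top)).contDiffAt]
    linarith [norm_add_le (iteratedFDeriv ℝ i (fun x => F x - H (s, x)) p)
      (iteratedFDeriv ℝ i (fun x => H (s, x) - f x) p), hFb i hi' p, hsH i hi' p]
  have hcorr : ∀ q ∈ QQ, ‖J (n + r) (F ∘ φ') q - J (n + r) (fun x => H' (s, x)) q‖
      ≤ M * ‖s‖ ^ 4 := fun q hq' => by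
    have e : (fun x => H' (s, x)) = (fun x => H (s, x)) ∘ φ' := rfl
    rw [e, ← J_sub (n + r) (hF.comp hφ') (hHs.comp hφ')]
    exact jet_comp_le (n + r) (w := fun x => F x - H (s, x)) (hF.sub hHs) hφ' hD₀
      (fun i hi' => (hDb q hq' i hi').2 s (hs.trans hδ1)) fun i hi' => hFb i hi' _
  have hclose : ∀ q ∈ QQ, ‖J (n + r) (F ∘ φ') q - J (n + r) (f ∘ φ) q‖ ≤ M * ‖s‖ ^ 4 + εs :=
    fun q hq' => (norm_sub_le_norm_sub_add_norm_sub _ (J (n + r) (fun x => H' (s, x)) q) _).trans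
      (add_le_add (hcorr q hq') (hsQ q hq').1.le)
  have hMs : M * ‖s‖ ^ 4 ≤ min δL ν / 3 :=
    le_trans (mul_le_mul_of_nonneg_left hs4 (by linarith)) hεsM
  refine ⟨F, φ', ⟨hF, hφ', fun p hp => hFoff p fun h => hp (hK'N h), hFex, fun i hi' p => ?_,
    fun q hq' => ?_, fun q hq' => ?_, fun q hq' => ?_, fun q => rfl⟩, fun q hq' => ?_⟩
  · linarith [hFf i (by omega) p, min_le_right δL ν]
  · refine (norm_J_mono (Nat.le_add_right n r) _ _ q).trans ?_
    rw [← J_sub (n + r) hF hf]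
    refine (jet_comp_le (n + r) (φ := id) (hF.sub hf) contDiff_id hD₀
      (fun i hi' => (hDb q hq' i hi').1) fun i hi' => hFf i hi' _).trans ?_
    linarith [min_le_right δL ν]
  · exact ((norm_J_mono (Nat.le_add_right n r) _ _ q).trans (hclose q hq')).trans
      (by linarith [min_le_right δL ν])
  · exact ⟨(hsQ q hq').2.1.le.trans (by linarith [min_le_right δL ν]),
      (hsQ q hq').2.2.le.trans (by linarith [min_le_right δL ν])⟩
  · by_contra hne
    simp only [not_exists, not_not] at hne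
    have hmem0 := mem_image_of_mem (fun x => (x, J r (f ∘ φ) x)) hq'
    have dball : ∀ g : R2 → V4, ‖J r g q - J r (f ∘ φ) q‖ ≤ δL →
        ((q, J r g q) : R2 × Jet r) ∈ closedBall (q, J r (f ∘ φ) q) δL := fun g h => by
      rw [mem_closedBall, Prod.dist_eq, dist_self, max_eq_right dist_nonneg, dist_eq_norm]
      exact h
    obtain ⟨ha, hb, hab⟩ := hlip _ hmem0 _
      (dball (fun x => H' (s, x)) ((norm_J_mono (Nat.le_add_left r n) _ _ q).trans
        ((hsQ q (hQQQ hq')).1.le.trans (by linarith [min_le_left δL ν]))))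
      _ (dball (F ∘ φ') ((norm_J_mono (Nat.le_add_left r n) _ _ q).trans
        ((hclose q (hQQQ hq')).trans (by linarith [min_le_left δL ν]))))
    have hFz : Gr (q, J r (F ∘ φ') q) = 0 := by
      rw [← hrep.eq _ (hF.comp hφ') q hb]
      exact funext hne
    rw [hFz, sub_zero] at hab
    have h1 : κ * δ ^ 3 ≤ L * (M * δ ^ 4) := by
      refine (hsm q hq').trans (hab.trans (mul_le_mul_of_nonneg_left ?_ hL))
      rw [Prod.mk_sub_mk, sub_self, Prod.norm_mk, norm_zero, max_eq_right (norm_nonneg _),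
        norm_sub_rev]
      exact ((norm_J_mono (Nat.le_add_left r n) _ _ q).trans (hcorr q (hQQQ hq'))).trans
        (mul_le_mul_of_nonneg_left (pow_le_pow_left₀ (norm_nonneg _) hs 4) (by linarith))
    rw [le_div_iff₀ (by positivity)] at hδκ
    have h2 : L * M * δ < κ := by nlinarith
    nlinarith [pow_pos hδ 3]

end

end Vale.Agent.P205.Round1
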